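import Vale.Agent.P099.Spec

/-!
# P099: assembly of the modules into ergodicity and weak mixing
-/

noncomputable section

namespace Vale.Agent.P099

open MeasureTheory Set Complex Filter Topology
open scoped ComplexConjugate ENNReal

namespace Table

variable (M : Table)

lemma continuous_ell_asm (j : Fin 3) : Continuous (M.ell j) := by
  unfold ell; fun_prop

lemma isOpen_dom_asm : IsOpen M.dom := by
  have : M.dom = ⋂ j, {z | 0 < M.ell j z} := by ext z; simp [dom]
  rw [this]
  exact isOpen_iInter_of_finite fun j => isOpen_lt continuous_const (M.continuous_ell_asm j)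

lemma dom_nonempty_asm : M.dom.Nonempty := M.nonempty

lemma dom_bounded_asm : Bornology.IsBounded M.dom := M.bounded

lemma volume_dom_pos_asm : 0 < volume M.dom := M.isOpen_dom_asm.measure_pos volume M.dom_nonempty_asm

lemma volume_dom_lt_top_asm : volume M.dom < ∞ := M.dom_bounded_asm.measure_lt_top

lemma m0_univ_asm : M.m0 univ = volume M.dom := by
  rw [m0, ← univ_prod_univ, Measure.prod_prod, Measure.restrict_apply_univ]
  simp

instance finite_m0_asm : IsFiniteMeasure M.m0 := ⟨by rw [M.m0_univ_asm]; exact M.volume_dom_lt_top_asm⟩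

/-- The normalised measure. -/
def prob : Measure Phase := (volume M.dom)⁻¹ • M.m0

instance prob_isProb : IsProbabilityMeasure M.prob := ⟨by
  rw [prob, Measure.smul_apply, smul_eq_mul, M.m0_univ_asm]
  exact ENNReal.inv_mul_cancel M.volume_dom_pos_asm.ne' M.volume_dom_lt_top_asm.ne⟩

lemma ae_prob : ae M.prob = ae M.m0 :=
  Measure.ae_ennreal_smul_measure_eq (ENNReal.inv_ne_zero.2 M.volume_dom_lt_top_asm.ne) M.m0

end Table

lemma TableOf.mu_eq {T : Triangle} {M : Table} (h : TableOf T M) : T.μ = M.prob := by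
  rw [Triangle.μ, Table.prob, Table.m0, h.1]

variable {M : Table}

lemma approximable_of (hFam : FamilyStmt) (hA : AvgStmt) (D : FlowData M) {lam : ℝ}
    {F : Fin 2 → Phase → ℝ} (hF : EigenPair M lam F) : Approximable M lam F := by
  obtain ⟨C, hC, h⟩ := hFam M D lam F hF
  exact hA M lam F C hC hF.meas hF.bdd h

lemma ergodic_prob (hFam : FamilyStmt) (hA : AvgStmt) (hInv : InvConstStmt) (D : FlowData M)
    (hP : NoPhase M) : IsErgodicFlow M.prob D.Φ := by
  classical
  intro S hS hinv
  set F : Fin 2 → Phase → ℝ := ![S.indicator 1, fun _ => 0] with hFdef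
  have hF : EigenPair M 0 F := by
    refine ⟨?_, ⟨1, ?_⟩, ?_⟩
    · intro i
      fin_cases i
      · exact measurable_const.indicator hS
      · exact measurable_const
    · intro i p
      fin_cases i
      · by_cases h : p ∈ S <;> simp [hFdef, h]
      · simp [hFdef]
    · intro t
      have h1 : ∀ᵐ p ∂M.m0, (p ∈ D.Φ t ⁻¹' S ↔ p ∈ S) := by
        have := hinv t
        rw [measure_symmDiff_eq_zero_iff, ae_eq_set] at this
        rw [← M.ae_prob]
        filter_upwards [(measure_eq_zero_iff_ae_notMem.1 this.1),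
          (measure_eq_zero_iff_ae_notMem.1 this.2)] with p a b
        simp only [Set.mem_sdiff, not_and, not_not] at a b
        exact ⟨a, b⟩
      filter_upwards [h1, D.step] with p hp hs q hq
      have hq' : D.Φ t p = q := hs t q hq
      subst hq'
      funext i
      fin_cases i
      · simp only [rot, hFdef, zero_mul, Real.cos_zero, Real.sin_zero]
        by_cases h : p ∈ S
        · simp [h, Set.indicator_of_mem (show D.Φ t p ∈ S from hp.2 h)]
        · have h' : D.Φ t p ∉ S := fun h' => h (hp.1 h')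
          simp [h, Set.indicator_of_notMem h']
      · simp [rot, hFdef]
  obtain ⟨c, hc⟩ := hInv M F hF hP (approximable_of hFam hA D hF) 0
  rw [← M.ae_prob] at hc
  by_cases hc1 : c = 1
  · right
    refine (prob_compl_eq_zero_iff hS).1 (measure_eq_zero_iff_ae_notMem.2 ?_)
    filter_upwards [hc] with p hp hp'
    simp only [mem_compl_iff] at hp'
    simp [hFdef, hp', hc1] at hp
  · left
    refine measure_eq_zero_iff_ae_notMem.2 ?_
    filter_upwards [hc] with p hp hp'
    simp [hFdef, hp'] at hp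
    exact hc1 hp.symm

lemma no_eigen_prob (hFam : FamilyStmt) (hA : AvgStmt) (hE : EigenZeroStmt) (D : FlowData M)
    (lam : ℝ) (f : Phase → ℂ) (hlam : lam ≠ 0) (hf : Measurable f)
    (hb : ∃ B, ∀ p, ‖f p‖ ≤ B)
    (heq : ∀ t, ∀ᵐ p ∂M.prob, f (D.Φ t p) = Complex.exp ((lam * t : ℝ) * Complex.I) * f p) :
    f =ᵐ[M.prob] 0 := by
  set F : Fin 2 → Phase → ℝ := ![fun p => (f p).re, fun p => (f p).im] with hFdef
  have hF : EigenPair M lam F := by
    refine ⟨?_, ?_, ?_⟩
    · intro i
      fin_cases i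
      · exact Complex.measurable_re.comp hf
      · exact Complex.measurable_im.comp hf
    · obtain ⟨B, hB⟩ := hb
      refine ⟨B, fun i p => ?_⟩
      fin_cases i
      · exact (Complex.abs_re_le_norm _).trans (hB p)
      · exact (Complex.abs_im_le_norm _).trans (hB p)
    · intro t
      have := heq t
      rw [M.ae_prob] at this
      filter_upwards [this, D.step] with p hp hs q hq
      have hq' : D.Φ t p = q := hs t q hq
      subst hq'
      funext i
      fin_cases i
      · simp [rot, hFdef, hp, Complex.mul_re, Complex.exp_re, Complex.exp_im]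
      · simp [rot, hFdef, hp, Complex.mul_im, Complex.exp_re, Complex.exp_im]
        ring
  have h0 := hE M lam F hF hlam (approximable_of hFam hA D hF)
  rw [M.ae_prob]
  filter_upwards [h0 0, h0 1] with p a b
  exact Complex.ext (by simpa [hFdef] using a) (by simpa [hFdef] using b)

lemma pres_prob (D : FlowData M) (t : ℝ) : MeasurePreserving (D.Φ t) M.prob M.prob :=
  (D.pres t).smul_measure _

lemma IsErgodicFlow.congr {α : Type*} [MeasurableSpace α] {m : Measure α}
    {Φ Ψ : ℝ → α → α} (h : IsErgodicFlow m Φ) (he : ∀ t, Ψ t =ᵐ[m] Φ t) :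
    IsErgodicFlow m Ψ := by
  intro S hS hinv
  refine h S hS fun t => ?_
  have h1 : (Φ t ⁻¹' S : Set α) =ᵐ[m] (Ψ t ⁻¹' S : Set α) :=
    Filter.eventuallyEq_set.2 ((he t).mono fun p hp => by simp [hp])
  exact measure_symmDiff_eq_zero_iff.2 (h1.trans (measure_symmDiff_eq_zero_iff.1 (hinv t)))

/-- All modules together. -/
theorem main_of (hB : BridgeStmt) (hFl : FlowStmt) (hFam : FamilyStmt) (hA : AvgStmt)
    (hE : EigenZeroStmt) (hInv : InvConstStmt) (hS : SpectralStmt)
    (T : Triangle) (hT : T.IsIrrational) :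
    (∃ Φ, T.IsBilliardFlow Φ) ∧ ∀ Φ, T.IsBilliardFlow Φ →
      (∀ t, AEMeasurable (Φ t) T.μ ∧ T.μ.map (Φ t) = T.μ) ∧
        IsErgodicFlow T.μ Φ ∧ IsWeaklyMixingFlow T.μ Φ := by
  obtain ⟨M, hM, hP⟩ := hB T
  obtain ⟨D, hD, huniq, hcont⟩ := hFl T M hM
  refine ⟨⟨D.Φ, hD⟩, fun Φ hΦ => ?_⟩
  rw [hM.mu_eq]
  have he : ∀ t, Φ t =ᵐ[M.prob] D.Φ t := by
    intro t
    have := huniq Φ hΦ t
    rwa [Filter.EventuallyEq, M.ae_prob]
  have herg : IsErgodicFlow M.prob D.Φ := ergodic_prob hFam hA hInv D (hP hT)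
  have hc : ∀ f : Phase → ℂ, Measurable f → (∃ B, ∀ p, ‖f p‖ ≤ B) →
      Tendsto (fun t => ∫ p, ‖f (D.Φ t p) - f p‖ ^ 2 ∂M.prob) (𝓝 0) (𝓝 0) := by
    intro f hf hb
    simp only [Table.prob, integral_smul_measure]
    simpa using (hcont f hf hb).const_smul ((volume M.dom)⁻¹).toReal
  have hwm : IsWeaklyMixingFlow M.prob D.Φ :=
    hS Phase inferInstance M.prob inferInstance D.Φ D.zero D.group (pres_prob D) hc herg
      (no_eigen_prob hFam hA hE D)
  refine ⟨fun t => ?_, herg.congr he, ?_⟩
  · exact ⟨(pres_prob D t).aemeasurable.congr (he t).symm,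
      (Measure.map_congr (he t)).trans (pres_prob D t).map_eq⟩
  · refine IsErgodicFlow.congr hwm fun t => ?_
    have h1 := (Measure.quasiMeasurePreserving_fst (μ := M.prob) (ν := M.prob)).ae (he t)
    have h2 := (Measure.quasiMeasurePreserving_snd (μ := M.prob) (ν := M.prob)).ae (he t)
    filter_upwards [h1, h2] with p a b
    simp [a, b]

end Vale.Agent.P099
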