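import Vale.Agent.P099.Spec

/-!
# P099: tools for the approximating family

The four term extension, sums of square norms, and parametrised convolutions.
-/

noncomputable section

namespace Vale.Agent.P099

open MeasureTheory Set Complex Filter Topology
open scoped ComplexConjugate

namespace Table

variable (M : Table)

lemma conj_u_mul_u (j : Fin 3) : conj (M.u j) * M.u j = 1 := by
  rw [Table.u, ← Complex.exp_conj, ← Complex.exp_add]
  simp [Complex.conj_ofReal]

lemma norm_u_fam (j : Fin 3) : ‖M.u j‖ = 1 := by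
  rw [Table.u, Complex.norm_exp_ofReal_mul_I]

lemma ell_refl_self (j : Fin 3) (z : ℂ) : M.ell j (M.refl j z) = -M.ell j z := by
  have h : conj (M.u j) * M.refl j z =
      conj (M.u j) * z - ((2 * M.ell j z : ℝ) : ℂ) * Complex.I := by
    rw [Table.refl, mul_sub]
    linear_combination -((2 * M.ell j z : ℝ) : ℂ) * Complex.I * M.conj_u_mul_u j
  rw [Table.ell, h, Complex.sub_im, Complex.mul_im]
  simp [Table.ell]
  ring

lemma continuous_ell_fam (j : Fin 3) : Continuous (M.ell j) := by
  unfold Table.ell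
  fun_prop

lemma continuous_refl_fam (j : Fin 3) : Continuous (M.refl j) := by
  unfold Table.refl Table.ell
  fun_prop

lemma isOpen_dom : IsOpen M.dom := by
  have e : M.dom = ⋂ j, {z | 0 < M.ell j z} := by ext z; simp [Table.dom]
  rw [e]
  exact isOpen_iInter_of_finite fun j => isOpen_lt continuous_const (M.continuous_ell_fam j)

lemma measurable_rp (j : Fin 3) : Measurable (M.rp j) :=
  Continuous.measurable (((M.continuous_refl_fam j).comp continuous_fst).prodMk
    (show Continuous fun a : Phase => ((2 * M.β j : ℝ) : Dir) - a.2 from by fun_prop))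

lemma isBounded_dom : Bornology.IsBounded M.dom := M.bounded

lemma volume_dom_lt : volume M.dom < ⊤ := M.isBounded_dom.measure_lt_top

instance : IsFiniteMeasure (volume.restrict M.dom) :=
  isFiniteMeasure_restrict.2 M.volume_dom_lt.ne

instance : IsFiniteMeasure M.m0 := by unfold Table.m0; infer_instance

lemma ext_eq_on_dom (h : Phase → ℝ) {p : Phase} (hp : p.1 ∈ M.dom) : M.ext h p = h p := by
  have h0 : ∀ j, M.rp j p ∉ M.dom ×ˢ (univ : Set Dir) := fun j hj => by
    have h1 : 0 < M.ell j (M.refl j p.1) := hj.1 j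
    rw [M.ell_refl_self] at h1
    linarith [hp j]
  rw [Table.ext, indicator_of_mem (by exact ⟨hp, trivial⟩),
    Finset.sum_eq_zero fun j _ => indicator_of_notMem (h0 j) _, add_zero]

lemma measurable_ext {h : Phase → ℝ} (hh : Measurable h) : Measurable (M.ext h) := by
  have hm : MeasurableSet (M.dom ×ˢ (univ : Set Dir)) :=
    M.isOpen_dom.measurableSet.prod MeasurableSet.univ
  unfold Table.ext
  exact (hh.indicator hm).add
    (Finset.measurable_sum _ fun j _ => (hh.indicator hm).comp (M.measurable_rp j))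

lemma abs_ext_le {h : Phase → ℝ} {B : ℝ} (hB : ∀ p, |h p| ≤ B) (p : Phase) :
    |M.ext h p| ≤ 4 * B := by
  have h1 : ∀ q, |(M.dom ×ˢ (univ : Set Dir)).indicator h q| ≤ B := fun q => by
    by_cases hq : q ∈ M.dom ×ˢ (univ : Set Dir)
    · rw [indicator_of_mem hq]; exact hB q
    · rw [indicator_of_notMem hq, abs_zero]; exact (abs_nonneg _).trans (hB q)
  refine (abs_add_le _ _).trans ?_
  have h2 := (Finset.abs_sum_le_sum_abs _ _).trans
    (Finset.sum_le_sum (s := (Finset.univ : Finset (Fin 3))) fun j _ => h1 (M.rp j p))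
  simp at h2
  linarith [h1 p]

/-- The extension lives in a bounded position range. -/
lemma exists_ext_support : ∃ ρ, 0 ≤ ρ ∧ ∀ (h : Phase → ℝ) (p : Phase),
    ρ ≤ ‖p.1‖ → M.ext h p = 0 := by
  obtain ⟨r, hr⟩ := M.isBounded_dom.exists_norm_le
  refine ⟨|r| + 2 * ∑ j, (|r| + |M.b j|) + 1, by positivity, fun h p hp => ?_⟩
  have hout : p.1 ∉ M.dom := fun hd => by
    have := hr _ hd
    have := le_abs_self r
    have : 0 ≤ ∑ j, (|r| + |M.b j|) := Finset.sum_nonneg fun j _ => by positivity
    linarith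
  rw [Table.ext, indicator_of_notMem (fun hq => hout hq.1), zero_add]
  refine Finset.sum_eq_zero fun j _ => indicator_of_notMem (fun hq => ?_) _
  have hz : ‖M.refl j p.1‖ ≤ r := hr _ hq.1
  have hell : |M.ell j p.1| ≤ |r| + |M.b j| := by
    rw [show M.ell j p.1 = -M.ell j (M.refl j p.1) by rw [M.ell_refl_self]; ring, abs_neg,
      Table.ell]
    refine (abs_add_le _ _).trans (add_le_add_left ?_ _) |>.trans le_rfl
    refine (Complex.abs_im_le_norm _).trans ?_
    rw [norm_mul, RCLike.norm_conj, M.norm_u_fam, one_mul]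
    exact hz.trans (le_abs_self r)
  have hsum : |r| + |M.b j| ≤ ∑ i, (|r| + |M.b i|) :=
    Finset.single_le_sum (f := fun i => |r| + |M.b i|) (fun i _ => by positivity)
      (Finset.mem_univ j)
  have h1 : ‖p.1‖ ≤ ‖M.refl j p.1‖ + 2 * |M.ell j p.1| := by
    have e : p.1 = M.refl j p.1 + ((2 * M.ell j p.1 : ℝ) : ℂ) * (Complex.I * M.u j) := by
      simp [Table.refl]
    refine (congrArg norm e).le.trans ((norm_add_le _ _).trans (le_of_eq ?_))
    rw [norm_mul, norm_mul, Complex.norm_I, M.norm_u_fam, Complex.norm_real, Real.norm_eq_abs,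
      abs_mul, abs_two]
    ring
  linarith [le_abs_self r]

lemma niceFn_ext {h : Phase → ℝ} (hh : Measurable h) {B : ℝ} (hB : ∀ p, |h p| ≤ B) :
    NiceFn (M.ext h) := by
  obtain ⟨ρ, -, hρ⟩ := M.exists_ext_support
  exact ⟨M.measurable_ext hh, ⟨_, M.abs_ext_le hB⟩, ρ, hρ h⟩

/-- A uniform bound for the square integral of extensions of bounded functions. -/
lemma exists_ext_sq_le (B : ℝ) : ∃ E, 0 ≤ E ∧ ∀ h : Phase → ℝ, (∀ p, |h p| ≤ B) →
    ∫ p, M.ext h p ^ 2 ∂(volume.prod unifDir) ≤ E := by
  obtain ⟨ρ, -, hρ⟩ := M.exists_ext_support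
  set S : Set Phase := Metric.closedBall (0 : ℂ) ρ ×ˢ univ
  have hS : (volume.prod unifDir) S ≠ ⊤ := by
    rw [Measure.prod_prod, measure_univ, mul_one]
    exact measure_closedBall_lt_top.ne
  refine ⟨(4 * B) ^ 2 * (volume.prod unifDir).real S, by positivity, fun h hh => ?_⟩
  refine (integral_mono_of_nonneg (Eventually.of_forall fun p => sq_nonneg _)
    (g := S.indicator fun _ => (4 * B) ^ 2) ?_ (Eventually.of_forall fun p => ?_)).trans
    (le_of_eq ?_)
  · exact (integrableOn_const hS).integrable_indicator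
      (measurableSet_closedBall.prod MeasurableSet.univ)
  · by_cases hp : p ∈ S
    · rw [indicator_of_mem hp]
      exact sq_le_sq' (abs_le.1 (M.abs_ext_le hh p)).1 (abs_le.1 (M.abs_ext_le hh p)).2
    · rw [indicator_of_notMem hp]
      have : ρ ≤ ‖p.1‖ := le_of_lt (by simpa [S] using hp)
      simp [hρ h p this]
  · rw [integral_indicator (measurableSet_closedBall.prod MeasurableSet.univ), setIntegral_const,
      smul_eq_mul, mul_comm]

/-- The reflection preserves area times angle. -/
lemma measurePreserving_rp_fam (j : Fin 3) :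
    MeasurePreserving (M.rp j) (volume.prod unifDir) (volume.prod unifDir) := by
  have hu : ‖M.u j * M.u j‖ = 1 := by rw [norm_mul, M.norm_u_fam, one_mul]
  let a : Circle := ⟨M.u j * M.u j, mem_sphere_zero_iff_norm.2 hu⟩
  have h1 : MeasurePreserving (M.rlin j) (volume : Measure ℂ) volume := by
    have := (Complex.conjLIE.trans (rotation a)).measurePreserving
    refine (congrArg (fun f => MeasurePreserving f (volume : Measure ℂ) volume) ?_).mp this
    funext y
    simpa [Table.rlin, a] using rotation_apply a (conj y)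
  have e : M.refl j = fun z => M.rlin j z + M.refl j 0 := by
    funext z
    have h2 : ((2 * M.ell j z : ℝ) : ℂ) * Complex.I =
        conj (M.u j) * z - conj (conj (M.u j) * z) + ((2 * M.b j : ℝ) : ℂ) * Complex.I := by
      rw [Complex.sub_conj]
      simp [Table.ell]
      ring
    simp only [Table.refl, Table.rlin, map_mul, Complex.conj_conj] at h2 ⊢
    have h3 : ((2 * M.ell j 0 : ℝ) : ℂ) = ((2 * M.b j : ℝ) : ℂ) := by simp [Table.ell]
    rw [h3]
    linear_combination (-(M.u j)) * h2 - z * M.conj_u_mul_u j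
  have h4 : MeasurePreserving (M.refl j) (volume : Measure ℂ) volume := by
    rw [e]
    exact (measurePreserving_add_right volume _).comp h1
  have h5 : MeasurePreserving (M.reflDir j) unifDir unifDir :=
    Measure.measurePreserving_sub_left _ _
  exact h4.prod h5

/-- The square integral of the extension of an indicator. -/
lemma ext_indicator_sq_le {A : Set Phase} (hA : MeasurableSet A) :
    ∫ p, M.ext (A.indicator 1) p ^ 2 ∂(volume.prod unifDir) ≤ 16 * M.m0.real A := by
  set D : Set Phase := (M.dom ×ˢ univ) ∩ A with hD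
  have hDm : MeasurableSet D :=
    (M.isOpen_dom.measurableSet.prod MeasurableSet.univ).inter hA
  have hDfin : (volume.prod unifDir) D ≠ ⊤ := by
    refine ne_top_of_le_ne_top ?_ (measure_mono inter_subset_left)
    rw [Measure.prod_prod, measure_univ, mul_one]
    exact M.volume_dom_lt.ne
  have hDr : (volume.prod unifDir).real D = M.m0.real A := by
    rw [measureReal_def, measureReal_def, Table.m0,
      ← Measure.restrict_univ (μ := unifDir), Measure.prod_restrict, Measure.restrict_apply hA,
      hD, inter_comm, Measure.restrict_univ]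
  set d : Phase → ℝ := D.indicator 1
  have hd : Integrable d (volume.prod unifDir) := (integrableOn_const hDfin).integrable_indicator hDm
  have hdj : ∀ j, Integrable (fun p => d (M.rp j p)) (volume.prod unifDir) := fun j =>
    (M.measurePreserving_rp_fam j).integrable_comp hd.aestronglyMeasurable |>.2 hd
  have hi : ∫ p, d p ∂(volume.prod unifDir) = M.m0.real A := by
    rw [integral_indicator_one hDm, hDr]
  have hij : ∀ j, ∫ p, d (M.rp j p) ∂(volume.prod unifDir) = M.m0.real A := fun j => by
    rw [← hi]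
    conv_rhs => rw [← (M.measurePreserving_rp_fam j).map_eq]
    exact (integral_map (M.measurable_rp j).aemeasurable
      (by rw [(M.measurePreserving_rp_fam j).map_eq]; exact hd.aestronglyMeasurable)).symm
  have hsum : Integrable (fun p => ∑ j, d (M.rp j p)) (volume.prod unifDir) :=
    integrable_finsetSum _ fun j _ => hdj j
  refine (integral_mono_of_nonneg (Eventually.of_forall fun p => sq_nonneg _)
    ((hd.add hsum).const_mul 4) (Eventually.of_forall fun p => ?_)).trans (le_of_eq ?_)
  · have hx : ∀ q, (M.dom ×ˢ (univ : Set Dir)).indicator (A.indicator (1 : Phase → ℝ)) q = d q :=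
      fun q => by simp only [d, hD, indicator_indicator]
    have hsq : ∀ q, d q ^ 2 = d q := fun q => by
      by_cases hq : q ∈ D <;> simp [d, hq]
    show _ ≤ 4 * (d p + ∑ j, d (M.rp j p))
    simp only [Table.ext, hx, Fin.sum_univ_three]
    nlinarith [hsq p, hsq (M.rp 0 p), hsq (M.rp 1 p), hsq (M.rp 2 p),
      sq_nonneg (d p - d (M.rp 0 p)), sq_nonneg (d p - d (M.rp 1 p)),
      sq_nonneg (d p - d (M.rp 2 p)), sq_nonneg (d (M.rp 0 p) - d (M.rp 1 p)),
      sq_nonneg (d (M.rp 0 p) - d (M.rp 2 p)), sq_nonneg (d (M.rp 1 p) - d (M.rp 2 p))]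
  · simp only [Pi.add_apply]
    rw [integral_const_mul, integral_add hd hsum, integral_finsetSum _ fun j _ => hdj j, hi]
    simp only [hij, Finset.sum_const, Finset.card_univ, Fintype.card_fin, nsmul_eq_mul]
    norm_num
    ring

lemma near_mono_fam {R R' : ℝ} (h : R ≤ R') {z : ℂ} (hz : M.Near R z) : M.Near R' z := by
  obtain ⟨i, j, hij, v, hi, hj, hd⟩ := hz
  exact ⟨i, j, hij, v, hi, hj, hd.trans_le h⟩

lemma nq_congr {f g : ℂ → ℂ} (h : ∀ z ∈ M.dom, f z = g z) : M.nq f = M.nq g :=
  setIntegral_congr_fun M.isOpen_dom.measurableSet fun z hz => by simp only [h z hz]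

lemma nLe_congr {f g : ℤ → ℂ → ℂ} {B : ℝ} (h : ∀ k, ∀ z ∈ M.dom, f k z = g k z)
    (hg : M.NLe g B) : M.NLe f B := by
  have e : (fun k => M.nq (f k)) = fun k => M.nq (g k) := funext fun k => M.nq_congr (h k)
  rw [Table.NLe, e]
  exact hg

lemma nLe_mono {f : ℤ → ℂ → ℂ} {A B : ℝ} (h : M.NLe f A) (hAB : A ≤ B) : M.NLe f B :=
  ⟨h.1, h.2.trans hAB⟩

lemma nLe_add {f g : ℤ → ℂ → ℂ} {A B : ℝ}
    (hf : ∀ k, IntegrableOn (fun z => ‖f k z‖ ^ 2) M.dom)
    (hg : ∀ k, IntegrableOn (fun z => ‖g k z‖ ^ 2) M.dom) (hA : M.NLe f A) (hB : M.NLe g B) :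
    M.NLe (fun k z => f k z + g k z) (2 * A + 2 * B) := by
  have h : ∀ k, M.nq (fun z => f k z + g k z) ≤ 2 * M.nq (f k) + 2 * M.nq (g k) := fun k => by
    unfold Table.nq
    rw [← integral_const_mul, ← integral_const_mul,
      ← integral_add ((hf k).const_mul 2) ((hg k).const_mul 2)]
    refine integral_mono_of_nonneg (Eventually.of_forall fun z => sq_nonneg _)
      (((hf k).const_mul 2).add ((hg k).const_mul 2)) (Eventually.of_forall fun z => ?_)
    simp only
    have := norm_add_le (f k z) (g k z)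
    nlinarith [norm_nonneg (f k z + g k z), sq_nonneg (‖f k z‖ - ‖g k z‖)]
  have hs : Summable fun k => 2 * M.nq (f k) + 2 * M.nq (g k) :=
    (hA.1.mul_left 2).add (hB.1.mul_left 2)
  refine ⟨hs.of_nonneg_of_le (fun k => integral_nonneg fun z => sq_nonneg _) h, ?_⟩
  refine ((hs.of_nonneg_of_le (fun k => integral_nonneg fun z => sq_nonneg _) h).tsum_le_tsum
    h hs).trans ?_
  rw [(hA.1.mul_left 2).tsum_add (hB.1.mul_left 2), tsum_mul_left, tsum_mul_left]
  linarith [hA.2, hB.2]

end Table

lemma norm_mode_le {h : Phase → ℂ} {B : ℝ} (hB : ∀ p, ‖h p‖ ≤ B) (k : ℤ) (z : ℂ) :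
    ‖mode h k z‖ ≤ B := by
  refine (norm_integral_le_of_norm_le_const (C := B) (Eventually.of_forall fun θ => ?_)).trans ?_
  · rw [norm_smul, fourier_apply, Circle.norm_coe, one_mul]; exact hB _
  · simp

lemma measurable_mode {h : Phase → ℂ} (hh : Measurable h) (k : ℤ) :
    StronglyMeasurable (mode h k) := by
  unfold mode fourierCoeff
  exact StronglyMeasurable.integral_prod_right'
    (f := fun q : ℂ × Dir => fourier (-k) q.2 • h q)
    (((fourier (-k)).continuous.measurable.comp measurable_snd).smul hh).stronglyMeasurable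

lemma integrableOn_mode_sq (M : Table) {h : Phase → ℂ} (hh : Measurable h) {B : ℝ}
    (hB : ∀ p, ‖h p‖ ≤ B) (k : ℤ) : IntegrableOn (fun z => ‖mode h k z‖ ^ 2) M.dom :=
  (integrable_const (B ^ 2)).mono' ((measurable_mode hh k).norm.pow 2).aestronglyMeasurable
    (Eventually.of_forall fun z => by
      rw [Real.norm_eq_abs, abs_pow, abs_norm]
      exact pow_le_pow_left₀ (norm_nonneg _) (norm_mode_le hB k z) 2)

lemma integrable_slice {h : Phase → ℂ} (hh : Measurable h) {B : ℝ} (hB : ∀ p, ‖h p‖ ≤ B) (k : ℤ)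
    (z : ℂ) : Integrable (fun θ => fourier (-k) θ • h (z, θ)) unifDir := by
  refine (integrable_const B).mono' ?_ (Eventually.of_forall fun θ => ?_)
  · exact (((fourier (-k)).continuous.measurable).smul
      (hh.comp measurable_prodMk_left)).aestronglyMeasurable
  · rw [norm_smul, fourier_apply, Circle.norm_coe, one_mul]; exact hB _

lemma mode_add_mul {h g : Phase → ℂ} (hh : Measurable h) (hg : Measurable g) {B B' : ℝ}
    (hB : ∀ p, ‖h p‖ ≤ B) (hB' : ∀ p, ‖g p‖ ≤ B') (s : ℂ) (k : ℤ) (z : ℂ) :
    mode (fun p => h p + s * g p) k z = mode h k z + s * mode g k z := by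
  simp only [mode, fourierCoeff, smul_add]
  rw [integral_add (integrable_slice hh hB k z), ← integral_const_mul]
  · simp only [smul_eq_mul]
    congr 2
    funext θ
    ring
  · exact integrable_slice (hg.const_mul s) (B := ‖s‖ * B')
      (fun p => by rw [norm_mul]; exact mul_le_mul_of_nonneg_left (hB' p) (norm_nonneg _)) k z

lemma continuous_vec_fam : Continuous vec := by
  unfold vec
  exact continuous_subtype_val.comp AddCircle.continuous_toCircle

lemma norm_vec_fam (θ : Dir) : ‖vec θ‖ = 1 := Circle.norm_coe _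

lemma measurable_sm {ψ : ℂ → ℂ} (hψ : Continuous ψ) {G : Phase → ℝ} (hG : Measurable G) :
    Measurable (sm ψ G) := by
  unfold sm
  exact (StronglyMeasurable.integral_prod_right'
    (f := fun q : Phase × ℂ => ψ (q.1.1 - q.2) * (G (q.2, q.1.2) : ℂ))
    ((hψ.measurable.comp (by fun_prop)).mul
      (Complex.measurable_ofReal.comp (hG.comp (by fun_prop)))).stronglyMeasurable).measurable

lemma norm_sm_le {ψ : ℂ → ℂ} (hψ : Integrable ψ) {G : Phase → ℝ} {B : ℝ}
    (hB : ∀ p, |G p| ≤ B) (p : Phase) : ‖sm ψ G p‖ ≤ B * ∫ y, ‖ψ y‖ := by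
  refine (norm_integral_le_integral_norm _).trans ?_
  rw [← integral_const_mul]
  have hi : Integrable fun w => B * ‖ψ (p.1 - w)‖ := (hψ.norm.comp_sub_left p.1).const_mul B
  refine (integral_mono_of_nonneg (Eventually.of_forall fun w => norm_nonneg _) hi
    (Eventually.of_forall fun w => ?_)).trans
    (le_of_eq (integral_sub_left_eq_self (fun y => B * ‖ψ y‖) volume p.1))
  simp only [norm_mul, Complex.norm_real, Real.norm_eq_abs]
  rw [mul_comm B]
  exact mul_le_mul_of_nonneg_left (hB _) (norm_nonneg _)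

lemma measurable_smDir {ψ : ℂ → ℂ} (hψ : ContDiff ℝ 1 ψ) {G : Phase → ℝ} (hG : Measurable G) :
    Measurable (smDir ψ G) := by
  unfold smDir
  refine (StronglyMeasurable.integral_prod_right'
    (f := fun q : Phase × ℂ =>
      fderiv ℝ ψ (q.1.1 - q.2) (vec q.1.2) * (G (q.2, q.1.2) : ℂ)) ?_).measurable
  refine (Measurable.mul ?_ (Complex.measurable_ofReal.comp (hG.comp (by fun_prop)))).stronglyMeasurable
  exact (((hψ.continuous_fderiv one_ne_zero).comp (by fun_prop)).clm_apply
    (continuous_vec_fam.comp (by fun_prop))).measurable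

lemma norm_smDir_le {ψ : ℂ → ℂ} (hψ : Integrable (fderiv ℝ ψ)) {G : Phase → ℝ} {B : ℝ}
    (hB : ∀ p, |G p| ≤ B) (p : Phase) : ‖smDir ψ G p‖ ≤ B * ∫ y, ‖fderiv ℝ ψ y‖ := by
  refine (norm_integral_le_integral_norm _).trans ?_
  rw [← integral_const_mul]
  have hi : Integrable fun w => B * ‖fderiv ℝ ψ (p.1 - w)‖ :=
    (hψ.norm.comp_sub_left p.1).const_mul B
  refine (integral_mono_of_nonneg (Eventually.of_forall fun w => norm_nonneg _) hi
    (Eventually.of_forall fun w => ?_)).trans
    (le_of_eq (integral_sub_left_eq_self (fun y => B * ‖fderiv ℝ ψ y‖) volume p.1))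
  simp only [norm_mul, Complex.norm_real, Real.norm_eq_abs]
  rw [mul_comm B]
  refine mul_le_mul ?_ (hB _) (abs_nonneg _) (norm_nonneg _)
  exact ((fderiv ℝ ψ _).le_opNorm _).trans (by rw [norm_vec_fam, mul_one])

end Vale.Agent.P099
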