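import Vale.Agent.P099.Energy
import Vale.Agent.P099.FamilyBase

/-!
# P099: averaging the approximating families

The average over well separated scales of the families has vanishing error terms.
-/

noncomputable section

namespace Vale.Agent.P099

open MeasureTheory Set Complex Filter Topology Table
open scoped ComplexConjugate

namespace Avg

/-- A summable family with total at most `d`. -/
def Small (f : ℤ → ℝ) (d : ℝ) : Prop := Summable f ∧ ∑' k, f k ≤ d

lemma Small.of_le {f g : ℤ → ℝ} {d d' : ℝ} (h : Small g d) (h0 : ∀ k, 0 ≤ f k)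
    (hle : ∀ k, f k ≤ g k) (hd : d ≤ d') : Small f d' := by
  have hf : Summable f := h.1.of_nonneg_of_le h0 hle
  exact ⟨hf, ((hf.tsum_le_tsum hle h.1).trans h.2).trans hd⟩

lemma Small.mono {f : ℤ → ℝ} {d d' : ℝ} (h : Small f d) (hd : d ≤ d') : Small f d' :=
  ⟨h.1, h.2.trans hd⟩

lemma Small.add {f g : ℤ → ℝ} {a b : ℝ} (hf : Small f a) (hg : Small g b) :
    Small (fun k => f k + g k) (a + b) :=
  ⟨hf.1.add hg.1, by rw [hf.1.tsum_add hg.1]; exact add_le_add hf.2 hg.2⟩

lemma Small.mul {f : ℤ → ℝ} {a r : ℝ} (hf : Small f a) (hr : 0 ≤ r) :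
    Small (fun k => r * f k) (r * a) :=
  ⟨hf.1.mul_left r, by rw [tsum_mul_left]; exact mul_le_mul_of_nonneg_left hf.2 hr⟩

lemma Small.sum {ι : Type*} {s : Finset ι} {f : ι → ℤ → ℝ} {a : ι → ℝ}
    (h : ∀ i ∈ s, Small (f i) (a i)) : Small (fun k => ∑ i ∈ s, f i k) (∑ i ∈ s, a i) :=
  ⟨summable_sum fun i hi => (h i hi).1, by
    rw [Summable.tsum_finsetSum fun i hi => (h i hi).1]
    exact Finset.sum_le_sum fun i hi => (h i hi).2⟩

variable {M : Table} {lam : ℝ} {n : ℕ}

lemma nLe_shift {f : ℤ → ℂ → ℂ} {B : ℝ} (h : M.NLe f B) : M.NLe (fun k => f (k - 1)) B := by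
  refine ⟨h.1.comp_injective (i := fun k => k - 1) sub_left_injective, le_of_eq_of_le ?_ h.2⟩
  exact (Equiv.subRight (1 : ℤ)).tsum_eq (fun k => M.nq (f k))

/-- The pairing of two square summable families. -/
lemma pair {f g : ℤ → ℂ → ℂ} {A B d : ℝ} (hf : ∀ k, Continuous (f k))
    (hg : ∀ k, Continuous (g k)) (hA : M.NLe f A) (hB : M.NLe g B) (hA0 : 0 < A) (hd : 0 < d)
    (h : A * B ≤ d ^ 2) : Small (fun k => |M.ip (f k) (g k)|) d := by
  set t := d / A with ht
  have ht0 : 0 < t := div_pos hd hA0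
  have hpt : ∀ k, |M.ip (f k) (g k)| ≤ t / 2 * M.nq (f k) + 1 / (2 * t) * M.nq (g k) := by
    intro k
    have key : ∀ r : ℝ, 0 ≤ M.nq (g k) + r ^ 2 * M.nq (f k) + 2 * r * M.ip (g k) (f k) := by
      intro r
      have := nq_nonneg' (M := M)
        (fun z => g k z + (r : ℂ) * f k z + ((0 : ℝ) : ℂ) * f k z)
      rw [nq_comb (hg k) (hf k) (hf k)] at this
      linarith
    have h1 := key t
    have h2 := key (-t)
    rw [ip_symm (g k) (f k)] at h1 h2
    have e : t / 2 * M.nq (f k) + 1 / (2 * t) * M.nq (g k) =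
        (t ^ 2 * M.nq (f k) + M.nq (g k)) / (2 * t) := by field_simp
    rw [e, le_div_iff₀ (by positivity)]
    rcases abs_choice (M.ip (f k) (g k)) with e' | e' <;> rw [e'] <;> linarith
  refine Small.of_le (((Small.mul ⟨hA.1, hA.2⟩ (by positivity : 0 ≤ t / 2))).add
    (Small.mul ⟨hB.1, hB.2⟩ (by positivity : 0 ≤ 1 / (2 * t)))) (fun k => abs_nonneg _) hpt ?_
  have h1 : t / 2 * A = d / 2 := by rw [ht]; field_simp
  have h2 : 1 / (2 * t) * B = A * B / (2 * d) := by rw [ht]; field_simp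
  rw [h1, h2]
  have h3 : A * B / (2 * d) ≤ d / 2 := by
    rw [div_le_iff₀ (by positivity)]; nlinarith
  linarith

lemma contDiff_dz' {f : ℂ → ℂ} (hf : ContDiff ℝ 2 f) :
    ContDiff ℝ 1 (dz f) ∧ ContDiff ℝ 1 (dzb f) := by
  have h := hf.fderiv_right (m := 1) (by norm_num)
  exact ⟨((h.clm_apply contDiff_const).sub
      (contDiff_const.mul (h.clm_apply contDiff_const))).div_const 2,
    ((h.clm_apply contDiff_const).add
      (contDiff_const.mul (h.clm_apply contDiff_const))).div_const 2⟩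

lemma contDiff_gen {v : Fin 2 → ℤ → ℂ → ℂ} (hv : ∀ i, M.Adm (v i)) (i : Fin 2) (k : ℤ) :
    ContDiff ℝ 1 (gen lam v i k) :=
  ((contDiff_dz' ((hv i).smooth (k - 1))).1.add (contDiff_dz' ((hv i).smooth (k + 1))).2).add
    (contDiff_const.mul (((hv (1 - i)).smooth k).of_le (by norm_num)))

lemma continuous_dzb_gen {v : Fin 2 → ℤ → ℂ → ℂ} (hv : ∀ i, M.Adm (v i)) (i : Fin 2) (k : ℤ) :
    Continuous (dzb (gen lam v i k)) := by
  have h : Continuous (fderiv ℝ (gen lam v i k)) :=
    (contDiff_gen hv i k).continuous_fderiv one_ne_zero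
  exact ((h.clm_apply continuous_const).add
    (continuous_const.mul (h.clm_apply continuous_const))).div_const 2

lemma edge_gen {v : Fin 2 → ℤ → ℂ → ℂ} (hv : ∀ i, M.Adm (v i)) (i : Fin 2) (k : ℤ) :
    EdgePhase M k (gen lam v i k) := by
  intro j z hz hj
  have h1 := ((hv i).phase (k - 1) j z hz hj).2.1
  have h2 := ((hv i).phase (k + 1) j z hz hj).2.2
  have h3 := ((hv (1 - i)).phase k j z hz hj).1
  rw [sub_add_cancel] at h1
  rw [add_sub_cancel_right] at h2
  simp only [gen, mul_add, Complex.add_im, h1, h2, mul_left_comm (M.u j ^ k)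
    ((![lam, -lam] i : ℝ) : ℂ), Complex.im_ofReal_mul, h3]
  ring

/-- The average of finitely many functions. -/
def avg (f : Fin n → ℂ → ℂ) : ℂ → ℂ := fun z => (((n : ℝ)⁻¹ : ℝ) : ℂ) * ∑ l, f l z

lemma avg_im {f : Fin n → ℂ → ℂ} {a : ℂ} {z : ℂ} (h : ∀ l, (a * f l z).im = 0) :
    (a * avg f z).im = 0 := by
  rw [avg, mul_left_comm, Complex.im_ofReal_mul, Finset.mul_sum, Complex.im_sum]
  simp [h]

lemma dz_avg {f : Fin n → ℂ → ℂ} (hf : ∀ l, Differentiable ℝ (f l)) :
    dz (avg f) = avg (fun l => dz (f l)) ∧ dzb (avg f) = avg (fun l => dzb (f l)) := by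
  have e : ∀ z, fderiv ℝ (avg f) z = (((n : ℝ)⁻¹ : ℝ) : ℂ) • ∑ l, fderiv ℝ (f l) z := by
    intro z
    unfold avg
    rw [fderiv_const_mul (DifferentiableAt.fun_sum fun l _ => hf l z),
      fderiv_fun_sum fun l _ => hf l z]
  constructor <;> funext z <;>
    simp [dz, dzb, avg, e, Finset.mul_sum, ← Finset.sum_add_distrib, ← Finset.sum_sub_distrib,
      Finset.sum_div] <;>
    exact Finset.sum_congr rfl fun l _ => by ring

lemma gen_avg {v : Fin n → Fin 2 → ℤ → ℂ → ℂ} (hv : ∀ l i, M.Adm (v l i)) (i : Fin 2) (k : ℤ) :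
    gen lam (fun i k => avg fun l => v l i k) i k = avg (fun l => gen lam (v l) i k) := by
  have hd : ∀ j, ∀ l, Differentiable ℝ (v l i j) := fun j l =>
    ((hv l i).smooth j).differentiable (by norm_num)
  funext z
  simp only [gen, (dz_avg (hd (k - 1))).1, (dz_avg (hd (k + 1))).2, avg, Finset.sum_add_distrib,
    ← Finset.mul_sum]
  ring

lemma nq_avg_le {f : Fin n → ℂ → ℂ} (hf : ∀ l, IntegrableOn (fun z => ‖f l z‖ ^ 2) M.dom) :
    M.nq (avg f) ≤ (n : ℝ)⁻¹ * ∑ l, M.nq (f l) := by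
  unfold Table.nq
  rw [← integral_finsetSum _ fun l _ => hf l, ← integral_const_mul]
  refine integral_mono_of_nonneg (Eventually.of_forall fun z => sq_nonneg _)
    ((integrable_finsetSum _ fun l _ => hf l).const_mul _) (Eventually.of_forall fun z => ?_)
  have h1 : ‖∑ l, f l z‖ ^ 2 ≤ (n : ℝ) * ∑ l, ‖f l z‖ ^ 2 := by
    refine (pow_le_pow_left₀ (norm_nonneg _) (norm_sum_le _ _) 2).trans ?_
    simpa using sq_sum_le_card_mul_sum_sq (s := Finset.univ) (f := fun l => ‖f l z‖)
  have hn : (0 : ℝ) ≤ (n : ℝ)⁻¹ := by positivity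
  simp only [avg, norm_mul, Complex.norm_real, Real.norm_eq_abs, abs_of_nonneg hn, mul_pow]
  calc (n : ℝ)⁻¹ ^ 2 * ‖∑ l, f l z‖ ^ 2
      ≤ (n : ℝ)⁻¹ ^ 2 * ((n : ℝ) * ∑ l, ‖f l z‖ ^ 2) := by gcongr
    _ = (n : ℝ)⁻¹ * ∑ l, ‖f l z‖ ^ 2 := by
        rcases Nat.eq_zero_or_pos n with h | h
        · subst h; simp
        · field_simp

lemma abs_ip_avg_le {f g : Fin n → ℂ → ℂ} (hf : ∀ l, Continuous (f l))
    (hg : ∀ l, Continuous (g l)) :
    |M.ip (avg f) (avg g)| ≤ ((n : ℝ)⁻¹) ^ 2 * ∑ l, ∑ m, |M.ip (f l) (g m)| := by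
  have hi : ∀ l m, IntegrableOn (fun z => (conj (f l z) * g m z).re) M.dom := fun l m =>
    integrableOn_dom_of_continuous (continuous_ip_integrand (hf l) (hg m))
  have e : M.ip (avg f) (avg g) = ((n : ℝ)⁻¹) ^ 2 * ∑ l, ∑ m, M.ip (f l) (g m) := by
    unfold Table.ip
    simp only [← fun l => integral_finsetSum Finset.univ fun m _ => hi l m]
    rw [← integral_finsetSum Finset.univ fun l _ => integrable_finsetSum _ fun m _ => hi l m,
      ← integral_const_mul]
    refine integral_congr_ae (Eventually.of_forall fun z => ?_)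
    simp only [avg, map_mul, Complex.conj_ofReal, map_sum]
    rw [mul_mul_mul_comm, ← Complex.ofReal_mul, Complex.re_ofReal_mul, Finset.sum_mul_sum,
      Complex.re_sum, sq]
    simp only [Complex.re_sum]
  rw [e, abs_mul, abs_of_nonneg (sq_nonneg _)]
  exact mul_le_mul_of_nonneg_left ((Finset.abs_sum_le_sum_abs _ _).trans
    (Finset.sum_le_sum fun l _ => Finset.abs_sum_le_sum_abs _ _)) (sq_nonneg _)

lemma integrableOn_sub_mode {h : Phase → ℝ} (hm : Measurable h) {B : ℝ} (hB : ∀ p, |h p| ≤ B)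
    {f : ℂ → ℂ} (hf : Continuous f) (k : ℤ) :
    IntegrableOn (fun z => ‖f z - modeR h k z‖ ^ 2) M.dom := by
  have hc : Measurable fun p => (h p : ℂ) := Complex.measurable_ofReal.comp hm
  have hb : ∀ p, ‖(h p : ℂ)‖ ≤ B := fun p => by simpa using hB p
  have i1 : IntegrableOn (fun z => ‖f z‖ ^ 2) M.dom :=
    integrableOn_dom_of_continuous (hf.norm.pow 2)
  refine ((i1.const_mul 2).add ((integrableOn_mode_sq M hc hb k).const_mul 2)).mono'
    ((hf.aestronglyMeasurable.sub (measurable_mode hc k).aestronglyMeasurable).norm.pow 2)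
    (Eventually.of_forall fun z => ?_)
  rw [Real.norm_eq_abs, abs_pow, abs_norm]
  have := norm_sub_le (f z) (modeR h k z)
  simp only [Pi.add_apply]
  show ‖f z - modeR h k z‖ ^ 2 ≤ 2 * ‖f z‖ ^ 2 + 2 * ‖modeR h k z‖ ^ 2
  nlinarith [norm_nonneg (f z - modeR h k z), sq_nonneg (‖f z‖ - ‖modeR h k z‖)]

lemma nLe_diff {h : Phase → ℝ} (hm : Measurable h) {B : ℝ} (hB : ∀ p, |h p| ≤ B)
    {f g : ℤ → ℂ → ℂ} (hf : ∀ k, Continuous (f k)) (hg : ∀ k, Continuous (g k)) {A A' : ℝ}
    (hA : M.NLe (fun k z => f k z - modeR h k z) A)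
    (hA' : M.NLe (fun k z => g k z - modeR h k z) A') :
    M.NLe (fun k z => f k z - g k z) (2 * A + 2 * A') := by
  have e : (fun k => M.nq fun z => modeR h k z - g k z) =
      fun k => M.nq fun z => g k z - modeR h k z := by
    funext k; simp [Table.nq, norm_sub_rev]
  have hB' : M.NLe (fun k z => modeR h k z - g k z) A' := by
    rw [Table.NLe, e]; exact hA'
  have h' := M.nLe_add (fun k => integrableOn_sub_mode hm hB (hf k) k)
    (fun k => by simpa [norm_sub_rev] using integrableOn_sub_mode hm hB (hg k) k) hA hB'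
  exact M.nLe_congr (fun k z _ => by ring) h'

lemma ip_sub_left {f g h : ℂ → ℂ} (hf : Continuous f) (hg : Continuous g) (hh : Continuous h) :
    M.ip (fun z => f z - g z) h = M.ip f h - M.ip g h := by
  unfold Table.ip
  rw [← integral_sub (integrableOn_dom_of_continuous (continuous_ip_integrand hf hh))
    (integrableOn_dom_of_continuous (continuous_ip_integrand hg hh))]
  refine integral_congr_ae (Eventually.of_forall fun z => ?_)
  simp [sub_mul, map_sub]

/-- The pairing of a coarse or equal scale with a finer generator. -/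
lemma pair_ibp (hI : IbpStmt) {h : Phase → ℝ} (hm : Measurable h) {B : ℝ}
    (hB : ∀ p, |h p| ≤ B) {a a' : ℤ → ℂ → ℂ} (ha : M.Adm a) (ha' : M.Adm a')
    {w : Fin 2 → ℤ → ℂ → ℂ} (hw : ∀ i, M.Adm (w i)) (i : Fin 2) {A A' D G G' d e : ℝ}
    (hA : M.NLe (fun k z => a k z - modeR h k z) A)
    (hA' : M.NLe (fun k z => a' k z - modeR h k z) A')
    (hD : M.NLe (fun k => dz (a' k)) D) (hG : M.NLe (gen lam w i) G)
    (hG' : M.NLe (fun k => dzb (gen lam w i k)) G') (hd : 0 < d) (he : 0 < e)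
    (hAA : 0 < 2 * A + 2 * A') (hD0 : 0 < D) (h1 : (2 * A + 2 * A') * G' ≤ d ^ 2)
    (h2 : D * G ≤ e ^ 2) :
    Small (fun k => |M.ip (dz (a (k - 1))) (gen lam w i k)|) (d + e) := by
  have hc : ∀ k, Continuous (a k) := fun k => (ha.smooth k).continuous
  have hc' : ∀ k, Continuous (a' k) := fun k => (ha'.smooth k).continuous
  have hgc : ∀ k, Continuous (gen lam w i k) := fun k => (contDiff_gen hw i k).continuous
  have hgc' := continuous_dzb_gen (lam := lam) hw i
  have p1 := pair (M := M) (f := fun k z => a (k - 1) z - a' (k - 1) z)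
    (fun k => (hc _).sub (hc' _)) hgc' (nLe_shift (f := fun k z => a k z - a' k z) (nLe_diff hm hB hc hc' hA hA')) hG' hAA hd h1
  have p2 := pair (M := M) (f := fun k => dz (a' (k - 1)))
    (fun k => (continuous_dz (ha'.smooth _)).1) hgc (nLe_shift (f := fun k => dz (a' k)) hD) hG hD0 he h2
  refine Small.of_le (p1.add p2) (fun k => abs_nonneg _) (fun k => ?_) le_rfl
  have hb := edge_gen (lam := lam) hw i k
  have hs := contDiff_gen (lam := lam) hw i k
  rw [hI M a ha k _ hs hb, hI M a' ha' k _ hs hb, ip_sub_left (hc _) (hc' _) (hgc' k), abs_neg]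
  have := abs_sub_abs_le_abs_sub (M.ip (a (k - 1)) (dzb (gen lam w i k)))
    (M.ip (a' (k - 1)) (dzb (gen lam w i k)))
  rw [abs_neg]
  linarith

lemma adm_avg (hn : 0 < n) {v : Fin n → ℤ → ℂ → ℂ} (hv : ∀ l, M.Adm (v l)) :
    M.Adm fun k => avg fun l => v l k := by
  have : Nonempty (Fin n) := Fin.pos_iff_nonempty.1 hn
  have hd : ∀ k l, Differentiable ℝ (v l k) := fun k l =>
    ((hv l).smooth k).differentiable (by norm_num)
  refine ⟨fun k => contDiff_const.mul (ContDiff.sum fun l _ => (hv l).smooth k), ?_, ?_, ?_, ?_⟩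
  · choose r hr0 hr using fun l => (hv l).vanish
    obtain ⟨l0, hl0⟩ := Finite.exists_min r
    refine ⟨r l0, hr0 l0, fun k z hz hN => ?_⟩
    simp [avg, fun l => hr l k z hz (M.near_mono_fam (hl0 l) hN)]
  · intro k j z hz hj
    refine ⟨avg_im fun l => ((hv l).phase k j z hz hj).1, ?_, ?_⟩
    · rw [(dz_avg (hd k)).1]; exact avg_im fun l => ((hv l).phase k j z hz hj).2.1
    · rw [(dz_avg (hd k)).2]; exact avg_im fun l => ((hv l).phase k j z hz hj).2.2
  · exact ((summable_sum fun l _ => (hv l).sum0).mul_left ((n : ℝ)⁻¹)).of_nonneg_of_le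
      (fun k => nq_nonneg' _) fun k => nq_avg_le fun l =>
        integrableOn_dom_of_continuous (((hv l).smooth k).continuous.norm.pow 2)
  · simp only [fun k => (dz_avg (hd k)).1]
    exact ((summable_sum fun l _ => (hv l).sum1).mul_left ((n : ℝ)⁻¹)).of_nonneg_of_le
      (fun k => nq_nonneg' _) fun k => nq_avg_le fun l =>
        integrableOn_dom_of_continuous ((continuous_dz ((hv l).smooth k)).1.norm.pow 2)

/-- Coarse against fine. -/
lemma pair_coarse {a : ℤ → ℂ → ℂ} (ha : M.Adm a) {w : Fin 2 → ℤ → ℂ → ℂ}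
    (hw : ∀ i, M.Adm (w i)) (i : Fin 2) {D G d : ℝ} (hD : M.NLe (fun k => dz (a k)) D)
    (hG : M.NLe (gen lam w i) G) (hD0 : 0 < D) (hd : 0 < d) (h : D * G ≤ d ^ 2) :
    Small (fun k => |M.ip (dz (a (k - 1))) (gen lam w i k)|) d :=
  pair (f := fun k => dz (a (k - 1))) (g := gen lam w i)
    (fun _ => (continuous_dz (ha.smooth _)).1) (fun k => (contDiff_gen hw i k).continuous)
    (nLe_shift (f := fun k => dz (a k)) hD) hG hD0 hd h

end Avg

open Avg

/-- `AvgStmt`. -/
theorem avg_holds (hI : IbpStmt) : AvgStmt := by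
  intro M lam F C hC hFm hFb hfam δ hδ
  obtain ⟨B, hB⟩ := hFb
  obtain ⟨d0, hd0, hd0C, hd0δ⟩ : ∃ d0 : ℝ, 0 < d0 ∧ d0 ≤ C ∧ 20 * d0 ≤ δ :=
    ⟨min C (δ / 20), lt_min hC (by linarith), min_le_left _ _, by
      linarith [min_le_right C (δ / 20)]⟩
  obtain ⟨s, hs0, hs1, hs⟩ : ∃ s : ℝ, 0 < s ∧ s ≤ 1 ∧ 3 * C * s ≤ d0 :=
    ⟨min 1 (d0 / (3 * C)), lt_min one_pos (by positivity), min_le_left _ _, by
      have := mul_le_mul_of_nonneg_left (min_le_right 1 (d0 / (3 * C)))
        (by positivity : (0 : ℝ) ≤ 3 * C)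
      rwa [mul_div_cancel₀ _ (by positivity)] at this⟩
  obtain ⟨n, hn⟩ := exists_nat_gt (3 * C / d0)
  have hn0R : (0 : ℝ) < n := lt_trans (by positivity) hn
  have hn0 : 0 < n := by exact_mod_cast hn0R
  have hn' : 3 * C / n ≤ d0 := by
    rw [div_lt_iff₀ hd0] at hn
    rw [div_le_iff₀ hn0R]; linarith
  have : Nonempty (Fin n) := Fin.pos_iff_nonempty.1 hn0
  obtain ⟨c, hc⟩ : ∃ c : ℕ → ℝ, ∀ l, c l = (s ^ (l + 1)) ^ 2 := ⟨_, fun l => rfl⟩
  have hcpos : ∀ l, 0 < c l := fun l => by rw [hc]; positivity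
  have hc1 : ∀ l, c l ≤ 1 := fun l => by
    rw [hc]; exact pow_le_one₀ (by positivity) (pow_le_one₀ hs0.le hs1)
  have hcanti : ∀ {l m : ℕ}, l ≤ m → c m ≤ c l := fun {l m} h => by
    rw [hc, hc]; exact pow_le_pow_left₀ (by positivity) (pow_le_pow_of_le_one hs0.le hs1 (by omega)) 2
  have hcratio : ∀ {l m : ℕ}, m < l → c l ≤ s ^ 2 * c m := fun {l m} h => by
    rw [hc, hc, ← mul_pow, ← pow_succ']
    exact pow_le_pow_left₀ (by positivity) (pow_le_pow_of_le_one hs0.le hs1 (by omega)) 2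
  have hη : 0 < C * c n := mul_pos hC (hcpos n)
  obtain ⟨e0, he0, hfam'⟩ := hfam (c n) (hcpos n) (hc1 n) _ hη
  obtain ⟨e, he, he1, helt⟩ : ∃ e : ℝ, 0 < e ∧ e ≤ 1 ∧ e < e0 :=
    ⟨min 1 (e0 / 2), lt_min one_pos (by linarith), min_le_left _ _,
      lt_of_le_of_lt (min_le_right _ _) (by linarith)⟩
  obtain ⟨w, hw⟩ := hfam' e he helt
  choose el hel0 hel using fun l : Fin n => hfam (c l) (hcpos l) (hc1 l) _ hη
  obtain ⟨l0, hl0⟩ := Finite.exists_min el
  obtain ⟨σ, hσ0, hσ1, hσe, hσd⟩ : ∃ σ : ℝ, 0 < σ ∧ σ ≤ 1 ∧ σ < el l0 ∧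
      C * σ ≤ d0 * s ^ (n + 1) * e := by
    refine ⟨min 1 (min (el l0 / 2) (d0 * s ^ (n + 1) * e / C)), ?_, min_le_left _ _, ?_, ?_⟩
    · exact lt_min one_pos (lt_min (by linarith [hel0 l0]) (by positivity))
    · exact lt_of_le_of_lt ((min_le_right _ _).trans (min_le_left _ _)) (by linarith [hel0 l0])
    · rw [mul_comm C, ← le_div_iff₀ hC]
      exact (min_le_right _ _).trans (min_le_right _ _)
  obtain ⟨ε, hε⟩ : ∃ ε : Fin n → ℝ, ∀ l, ε l = σ ^ ((l : ℕ) + 1) := ⟨_, fun l => rfl⟩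
  have hεpos : ∀ l, 0 < ε l := fun l => by rw [hε]; positivity
  have hεσ : ∀ l, ε l ≤ σ := fun l => by rw [hε]; exact pow_le_of_le_one hσ0.le hσ1 (Nat.succ_ne_zero _)
  choose v hv using fun l : Fin n =>
    hel l (ε l) (hεpos l) (((hεσ l).trans_lt hσe).trans_le (hl0 l))
  have hA : ∀ l i, M.Adm (v l i) := fun l i => (hv l i).1
  have hW : ∀ i, M.Adm (w i) := fun i => (hw i).1
  have hcn : ∀ m : Fin n, c n ≤ c m := fun m => hcanti m.isLt.le
  -- the fine scales are negligible
  have hfine : ∀ (m : Fin n) (r : ℝ), 0 ≤ r → r ≤ σ →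
      C * (C * r ^ 2 / c m) ≤ (d0 * e) ^ 2 := by
    intro m r hr hrσ
    rw [← mul_div_assoc, div_le_iff₀ (hcpos _)]
    have h1 : C * r ≤ d0 * s ^ (n + 1) * e := (mul_le_mul_of_nonneg_left hrσ hC.le).trans hσd
    calc C * (C * r ^ 2) = (C * r) ^ 2 := by ring
      _ ≤ (d0 * s ^ (n + 1) * e) ^ 2 := pow_le_pow_left₀ (by positivity) h1 2
      _ = (d0 * e) ^ 2 * c n := by rw [hc]; ring
      _ ≤ (d0 * e) ^ 2 * c m := mul_le_mul_of_nonneg_left (hcn m) (sq_nonneg _)
  have hde : (d0 * e) ^ 2 ≤ d0 ^ 2 :=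
    pow_le_pow_left₀ (by positivity) (mul_le_of_le_one_right hd0.le he1) 2
  -- pairings
  have hP1 : ∀ (i : Fin 2) (l m : Fin n),
      Small (fun k => |M.ip (dz (v l i (k - 1))) (gen lam (v m) i k)|)
        ((if l = m then 3 * C else 0) + 2 * d0) := by
    intro i l m
    obtain ⟨-, hl1, -, hl3, -, -⟩ := hv l i
    obtain ⟨-, -, -, -, hm4, hm5⟩ := hv m i
    obtain ⟨-, hw1, -, hw3, -, -⟩ := hw i
    by_cases hlt : l < m
    · rw [if_neg hlt.ne, zero_add]
      refine (pair_coarse (hA l i) (hA m) i hl3 hm4 (div_pos hC (pow_pos (hεpos l) 2)) hd0 ?_).mono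
        (by linarith)
      have hr : ε m / ε l ≤ σ := by
        rw [div_le_iff₀ (hεpos l), hε, hε]
        rw [← pow_succ']
        exact pow_le_pow_of_le_one hσ0.le hσ1 (by simpa using hlt)
      refine le_of_eq_of_le ?_ ((hfine m _ (div_nonneg (hεpos m).le (hεpos l).le) hr).trans hde)
      have := (hεpos l).ne'
      have := (hcpos m).ne'
      field_simp
    · have hml : (m : ℕ) ≤ l := Fin.le_def.1 (not_lt.1 hlt)
      have hcl := hcn l
      have hsum : (2 * (C * c l + C * c n) + 2 * (C * c n + C * c n)) * (C / c m) ≤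
          9 * C ^ 2 * (c l / c m) := by
        rw [mul_div_assoc', mul_div_assoc']
        gcongr ?_ / _
        · exact (hcpos m).le
        · nlinarith [mul_le_mul_of_nonneg_left hcl (sq_nonneg C), mul_pos hC hC, hcpos l]
      have hA0 : 0 < 2 * (C * c l + C * c n) + 2 * (C * c n + C * c n) := by
        nlinarith [mul_pos hC (hcpos l), mul_pos hC (hcpos n)]
      have h2 : C / e ^ 2 * (C * ε m ^ 2 / c m) ≤ d0 ^ 2 := by
        have := hfine m (ε m) (hεpos m).le (hεσ m)
        rw [div_mul_eq_mul_div, div_le_iff₀ (by positivity)]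
        linarith [mul_pow d0 e 2]
      by_cases heq : l = m
      · subst heq
        rw [if_pos rfl]
        refine (pair_ibp hI (hFm i) (hB i) (hA l i) (hW i) (hA l) i (d := 3 * C) hl1 hw1 hw3
          hm4 hm5 (by positivity) hd0 hA0 (by positivity) ?_ h2).mono (by linarith)
        rw [div_self (hcpos l).ne', mul_one] at hsum
        linarith
      · rw [if_neg heq, zero_add]
        refine (pair_ibp hI (hFm i) (hB i) (hA l i) (hW i) (hA m) i (d := d0) hl1 hw1 hw3
          hm4 hm5 hd0 hd0 hA0 (by positivity) ?_ h2).mono (by linarith)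
        refine hsum.trans ?_
        have hlm : (m : ℕ) < l := lt_of_le_of_ne hml fun h => heq (Fin.ext h.symm)
        have hr : c l / c m ≤ s ^ 2 := (div_le_iff₀ (hcpos m)).2 (hcratio hlm)
        calc 9 * C ^ 2 * (c l / c m) ≤ 9 * C ^ 2 * s ^ 2 := by gcongr
          _ = (3 * C * s) ^ 2 := by ring
          _ ≤ d0 ^ 2 := pow_le_pow_left₀ (by positivity) hs 2
  have hP2 : ∀ (i : Fin 2) (m : Fin n), Small (fun k => M.nq (gen lam (v m) i k)) d0 := by
    intro i m
    refine ⟨(hv m i).2.2.2.2.1.1, (hv m i).2.2.2.2.1.2.trans ?_⟩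
    have := (hfine m (ε m) (hεpos m).le (hεσ m)).trans hde
    have h' : d0 ^ 2 ≤ C * d0 := by nlinarith
    exact le_of_mul_le_mul_left (this.trans h') hC
  have hP3 : ∀ (i : Fin 2) (l m : Fin n),
      Small (fun k => |M.ip (v l (1 - i) k) (gen lam (v m) i k)|) d0 := fun i l m =>
    pair (fun k => ((hA l _).smooth k).continuous) (fun k => (contDiff_gen (hA m) i k).continuous)
      (hv l (1 - i)).2.2.1 (hv m i).2.2.2.2.1 hC hd0
      ((hfine m (ε m) (hεpos m).le (hεσ m)).trans hde)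
  set q : ℝ := (n : ℝ)⁻¹ with hq
  have hq0 : 0 ≤ q := by positivity
  refine ⟨fun i k => avg fun l => v l i k, fun i => adm_avg hn0 fun l => hA l i, fun i k => ?_, ?_⟩
  · have e1 : (fun z => avg (fun l => v l i k) z - modeR (F i) k z) =
        avg (fun l z => v l i k z - modeR (F i) k z) := by
      funext z
      simp only [avg, Finset.sum_sub_distrib, Finset.sum_const, Finset.card_univ,
        Fintype.card_fin, nsmul_eq_mul, mul_sub]
      push_cast
      rw [← mul_assoc, inv_mul_cancel₀ (by exact_mod_cast hn0R.ne'), one_mul]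
    rw [e1]
    refine (nq_avg_le fun l =>
      integrableOn_sub_mode (hFm i) (hB i) ((hA l i).smooth k).continuous k).trans ?_
    calc q * ∑ l, M.nq (fun z => v l i k z - modeR (F i) k z) ≤ q * ∑ _l : Fin n, δ := by
          refine mul_le_mul_of_nonneg_left (Finset.sum_le_sum fun l _ => ?_) hq0
          obtain ⟨-, ⟨hsum, hle⟩, -⟩ := hv l i
          refine ((hsum.le_tsum k fun j _ => nq_nonneg' _).trans hle).trans ?_
          have h1 : c (l : ℕ) ≤ s := by
            rw [hc]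
            exact (pow_le_of_le_one (by positivity) (pow_le_one₀ hs0.le hs1) two_ne_zero).trans
              (pow_le_of_le_one hs0.le hs1 (by omega))
          nlinarith [mul_le_mul_of_nonneg_left (h1) hC.le,
            mul_le_mul_of_nonneg_left (hcn l) hC.le]
      _ = δ := by
          rw [Finset.sum_const, Finset.card_univ, Fintype.card_fin, nsmul_eq_mul, ← mul_assoc,
            hq, inv_mul_cancel₀ hn0R.ne', one_mul]
  · have hmaj := Small.sum (s := (Finset.univ : Finset (Fin 2))) fun i _ =>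
      ((((Small.sum (s := (Finset.univ : Finset (Fin n))) fun l _ =>
        Small.sum (s := (Finset.univ : Finset (Fin n))) fun m _ => hP1 i l m).mul (sq_nonneg q)).add
        ((Small.sum (s := (Finset.univ : Finset (Fin n))) fun m _ => hP2 i m).mul hq0)).add
        ((Small.sum (s := (Finset.univ : Finset (Fin n))) fun l _ =>
          Small.sum (s := (Finset.univ : Finset (Fin n))) fun m _ => hP3 i l m).mul (sq_nonneg q)))
    refine hmaj.of_le (fun k => errTerm_nonneg k) (fun k => ?_) ?_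
    · refine Finset.sum_le_sum fun i _ => ?_
      rw [gen_avg hA i k, (dz_avg fun l => ((hA l i).smooth (k - 1)).differentiable (by norm_num)).1]
      exact add_le_add (add_le_add
        (abs_ip_avg_le (fun l => (continuous_dz ((hA l i).smooth _)).1)
          fun l => (contDiff_gen (hA l) i k).continuous)
        (nq_avg_le fun l =>
          integrableOn_dom_of_continuous ((contDiff_gen (hA l) i k).continuous.norm.pow 2)))
        (abs_ip_avg_le (fun l => ((hA l _).smooth k).continuous)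
          fun l => (contDiff_gen (hA l) i k).continuous)
    · simp only [Finset.sum_add_distrib, Finset.sum_ite_eq, Finset.mem_univ, if_true,
        Finset.sum_const, Finset.card_univ, Fintype.card_fin, nsmul_eq_mul]
      have e1 : q * n = 1 := inv_mul_cancel₀ hn0R.ne'
      have e2 : 3 * C / n = q * (3 * C) := by rw [hq]; ring
      push_cast
      calc _ = 2 * (q * (3 * C)) * (q * n) + (4 * d0) * (q * n) ^ 2 + 2 * d0 * (q * n)
            + 2 * d0 * (q * n) ^ 2 := by ring
        _ ≤ δ := by rw [e1, ← e2]; linarith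

end Vale.Agent.P099
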