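import Vale.Agent.P099.Spec

/-!
# P099: from a triangle to a normalised table
-/

noncomputable section

namespace Vale.Agent.P099

open MeasureTheory Set Complex
open scoped ComplexConjugate

namespace Bridge

variable (T : Triangle)

/-- Twice the signed area of `abc`. -/
def cr (a b c : ℂ) : ℝ := (conj (b - a) * (c - a)).im

lemma affineIndependent_vertex : AffineIndependent ℝ T.vertex :=
  affineIndependent_iff_not_collinear_set.2 T.nondeg

/-- The vertices as an affine basis. -/
def basis : AffineBasis (Fin 3) ℝ ℂ :=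
  ⟨T.vertex, affineIndependent_vertex T,
    (affineIndependent_vertex T).affineSpan_eq_top_iff_card_eq_finrank_add_one.2
      (by simp [Complex.finrank_real_complex])⟩

lemma comb (z : ℂ) : (basis T).coord 0 z • T.A + (basis T).coord 1 z • T.B +
      (basis T).coord 2 z • T.C = z ∧
    (basis T).coord 0 z + (basis T).coord 1 z + (basis T).coord 2 z = 1 := by
  have h1 := (basis T).linear_combination_coord_eq_self z
  have h2 := (basis T).sum_coord_apply_eq_one z
  rw [Fin.sum_univ_three] at h1 h2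
  exact ⟨h1, h2⟩

lemma cr_coord (j : Fin 3) (z : ℂ) :
    cr (T.vertex j) (T.vertex (j + 1)) z = cr T.A T.B T.C * (basis T).coord (j + 2) z := by
  obtain ⟨h1, h2⟩ := comb T z
  have e1 := congrArg Complex.re h1
  have e2 := congrArg Complex.im h1
  simp only [Complex.add_re, Complex.add_im, Complex.real_smul, Complex.mul_re, Complex.mul_im,
    Complex.ofReal_re, Complex.ofReal_im, zero_mul, sub_zero, add_zero] at e1 e2
  have h0 : (basis T).coord 0 z = 1 - (basis T).coord 1 z - (basis T).coord 2 z := by linarith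
  rw [h0] at e1 e2
  fin_cases j <;>
    simp [cr, Triangle.vertex, h0, ← e1, ← e2] <;> ring

lemma cr_ne : cr T.A T.B T.C ≠ 0 := by
  intro h
  have hd : T.B - T.A ≠ 0 := fun hd => by
    refine T.nondeg ?_
    rw [sub_eq_zero.1 hd]
    simpa using collinear_pair ℝ T.A T.C
  -- a point off the line through `A` and `B`
  have h' := cr_coord T 0 (T.A + Complex.I * (T.B - T.A))
  rw [h, zero_mul] at h'
  simp [cr, Triangle.vertex] at h'
  have : (T.B.re - T.A.re) ^ 2 + (T.B.im - T.A.im) ^ 2 = 0 := by linarith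
  have h1 : T.B.re - T.A.re = 0 := by nlinarith [sq_nonneg (T.B.im - T.A.im)]
  have h2 : T.B.im - T.A.im = 0 := by nlinarith [sq_nonneg (T.B.re - T.A.re)]
  exact hd (Complex.ext (by simpa using h1) (by simpa using h2))

/-- The orientation. -/
def sgn : ℝ := if 0 < cr T.A T.B T.C then 1 else -1

lemma sgn_mul_pos : 0 < sgn T * cr T.A T.B T.C := by
  unfold sgn
  split_ifs with h
  · linarith
  · have := lt_of_le_of_ne (not_lt.1 h) (cr_ne T)
    linarith

/-- The edge `j`, oriented with the domain on its left. -/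
def edge (j : Fin 3) : ℂ := (sgn T : ℂ) * (T.vertex (j + 1) - T.vertex j)

lemma edge_ne (j : Fin 3) : edge T j ≠ 0 := by
  have hs : sgn T ≠ 0 := left_ne_zero_of_mul (sgn_mul_pos T).ne'
  refine mul_ne_zero (by exact_mod_cast hs) (sub_ne_zero.2 fun h => ?_)
  have := (affineIndependent_vertex T).injective h
  fin_cases j <;> simp at this

/-- The direction angle of side `j`. -/
def ang (j : Fin 3) : ℝ := Complex.arg (edge T j)

lemma exp_ang (j : Fin 3) :
    Complex.exp (ang T j * Complex.I) = ((‖edge T j‖⁻¹ : ℝ) : ℂ) * edge T j := by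
  have h : (‖edge T j‖ : ℂ) ≠ 0 := by simpa using edge_ne T j
  rw [Complex.ofReal_inv, eq_inv_mul_iff_mul_eq₀ h]
  exact Complex.norm_mul_exp_arg_mul_I _

/-- The positive factor between signed distance and barycentric coordinate. -/
def fac (j : Fin 3) : ℝ := ‖edge T j‖⁻¹ * (sgn T * cr T.A T.B T.C)

lemma fac_pos (j : Fin 3) : 0 < fac T j :=
  mul_pos (inv_pos.2 (norm_pos_iff.2 (edge_ne T j))) (sgn_mul_pos T)

/-- The constant term. -/
def off (j : Fin 3) : ℝ := -(conj (Complex.exp (ang T j * Complex.I)) * T.vertex j).im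

lemma dist_eq (j : Fin 3) (z : ℂ) :
    (conj (Complex.exp (ang T j * Complex.I)) * z).im + off T j =
      fac T j * (basis T).coord (j + 2) z := by
  have h : fac T j * (basis T).coord (j + 2) z =
      ‖edge T j‖⁻¹ * (sgn T * cr (T.vertex j) (T.vertex (j + 1)) z) := by
    rw [cr_coord, fac]; ring
  rw [h, off, exp_ang, edge, cr]
  generalize ‖(sgn T : ℂ) * (T.vertex (j + 1) - T.vertex j)‖⁻¹ = r
  simp [Complex.mul_im, Complex.mul_re]
  ring

lemma dom_eq : T.dom = {z | ∀ i, 0 < (basis T).coord i z} := (basis T).interior_convexHull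

lemma pos_iff (z : ℂ) :
    (∀ j, 0 < (conj (Complex.exp (ang T j * Complex.I)) * z).im + off T j) ↔ z ∈ T.dom := by
  simp only [dom_eq, mem_ofPred_eq, dist_eq, mul_pos_iff_of_pos_left (fac_pos T _)]
  refine ⟨fun h i => ?_, fun h j => h _⟩
  simpa using h (i - 2)

lemma cr_edges (i j : Fin 3) (h : i ≠ j) : (conj (edge T j) * edge T i).im ≠ 0 := by
  have hs : sgn T * sgn T = 1 := by unfold sgn; split_ifs <;> norm_num
  have h2 := cr_ne T
  intro h3
  apply h2
  fin_cases i <;> fin_cases j <;>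
    simp [edge, Triangle.vertex, cr, Complex.mul_im] at h h3 ⊢ <;>
    first
      | linear_combination h3 -
          ((T.B.re - T.A.re) * (T.C.im - T.A.im) - (T.B.im - T.A.im) * (T.C.re - T.A.re)) * hs
      | linear_combination -h3 -
          ((T.B.re - T.A.re) * (T.C.im - T.A.im) - (T.B.im - T.A.im) * (T.C.re - T.A.re)) * hs

lemma sin_ne (i j : Fin 3) (h : i ≠ j) : Real.sin (ang T i - ang T j) ≠ 0 := by
  have h1 : Real.sin (ang T i - ang T j) =
      (conj (Complex.exp (ang T j * Complex.I)) * Complex.exp (ang T i * Complex.I)).im := by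
    rw [← Complex.exp_ofReal_mul_I_im, ← Complex.exp_conj, ← Complex.exp_add]
    congr 2
    simp only [map_mul, Complex.conj_ofReal, Complex.conj_I, Complex.ofReal_sub]
    ring
  rw [h1, exp_ang, exp_ang]
  simp only [map_mul, Complex.conj_ofReal]
  rw [mul_mul_mul_comm, ← Complex.ofReal_mul, Complex.im_ofReal_mul]
  exact mul_ne_zero
    (mul_ne_zero (inv_ne_zero (norm_ne_zero_iff.2 (edge_ne T j)))
      (inv_ne_zero (norm_ne_zero_iff.2 (edge_ne T i)))) (cr_edges T i j h)

/-- The table of the triangle. -/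
def table : Table where
  β := ang T
  b := off T
  sin_ne := sin_ne T
  bounded := by
    refine (Bornology.IsBounded.subset ?_ fun z hz => interior_subset ((pos_iff T z).1 hz))
    exact isBounded_convexHull.2 (finite_range T.vertex).isBounded
  nonempty := by
    have h : T.dom.Nonempty :=
      interior_convexHull_nonempty_iff_affineSpan_eq_top.2 (basis T).tot
    obtain ⟨z, hz⟩ := h
    exact ⟨z, (pos_iff T z).2 hz⟩

lemma ell_eq (j : Fin 3) (z : ℂ) :
    (table T).ell j z = fac T j * (basis T).coord (j + 2) z := dist_eq T j z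

lemma side_eq (j : Fin 3) :
    T.side j = {z | (table T).ell j z = 0 ∧ ∀ i, i ≠ j → 0 < (table T).ell i z} := by
  ext z
  simp only [mem_ofPred_eq, ell_eq, mul_eq_zero, (fac_pos T j).ne', false_or,
    mul_pos_iff_of_pos_left (fac_pos T _), Triangle.side, openSegment]
  constructor
  · rintro ⟨a, b, ha, hb, hab, rfl⟩
    have e : ∀ i, (basis T).coord i (a • T.vertex j + b • T.vertex (j + 1)) =
        a * (if i = j then 1 else 0) + b * (if i = j + 1 then 1 else 0) := by
      intro i
      rw [Convex.combo_affine_apply hab]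
      change a • (basis T).coord i ((basis T) j) + b • (basis T).coord i ((basis T) (j + 1)) = _
      simp [AffineBasis.coord_apply, smul_eq_mul]
    simp only [e]
    refine ⟨?_, fun i hi => ?_⟩
    · fin_cases j <;> simp
    · fin_cases i <;> fin_cases j <;> simp_all
  · rintro ⟨h0, hpos⟩
    obtain ⟨h1, h2⟩ := comb T z
    refine ⟨(basis T).coord j z, (basis T).coord (j + 1) z, ?_, ?_, ?_, ?_⟩
    · have := hpos (j + 1) (by fin_cases j <;> simp)
      fin_cases j <;> simpa using this
    · have := hpos (j + 2) (by fin_cases j <;> simp)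
      fin_cases j <;> simpa using this
    · fin_cases j <;> simp at h0 ⊢ <;> linarith
    · fin_cases j <;> simp [Triangle.vertex] at h0 ⊢ <;>
        · refine Eq.trans ?_ h1
          simp [h0]
          try ring

lemma refl_eq (j : Fin 3) (v : ℂ) : T.reflVel j v = (table T).rlin j v := by
  have hu : (table T).u j = ((‖edge T j‖⁻¹ : ℝ) : ℂ) * edge T j := exp_ang T j
  have hd : T.vertex (j + 1) - T.vertex j ≠ 0 := right_ne_zero_of_mul (edge_ne T j)
  have hn : ((‖edge T j‖⁻¹ : ℝ) : ℂ) * edge T j * (((‖edge T j‖⁻¹ : ℝ) : ℂ) * edge T j) =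
      (T.vertex (j + 1) - T.vertex j) / conj (T.vertex (j + 1) - T.vertex j) := by
    have hk : edge T j * conj (edge T j) = (‖edge T j‖ : ℂ) ^ 2 := Complex.mul_conj' _
    have hn0 : (‖edge T j‖ : ℂ) ≠ 0 := by simpa using edge_ne T j
    rw [eq_div_iff ((map_ne_zero _).2 hd), Complex.ofReal_inv]
    field_simp
    rw [← hk]
    simp only [edge, map_mul, Complex.conj_ofReal]
    ring
  rw [Table.rlin, hu, hn]
  rfl

/-- A phase compatible with two sides makes their angle a rational multiple of `π`. -/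
lemma angle_rational (x y : ℂ) (i j : Fin 3) (r s : ℝ) (hx : x = (r : ℂ) * (table T).u i)
    (hy : y = (s : ℂ) * (table T).u j) (hx0 : x ≠ 0) (hy0 : y ≠ 0) (m : ℤ) (hm : m ≠ 0) (c : ℂ)
    (hc : c ≠ 0) (hi : ((table T).u i ^ m * c).im = 0) (hj : ((table T).u j ^ m * c).im = 0) :
    ¬ Irrational (InnerProductGeometry.angle x y / Real.pi) := by
  have real : ∀ (r : ℝ) (u : ℂ), (u ^ m * c).im = 0 → (((r : ℂ) * u) ^ m * c).im = 0 := by
    intro r u h
    rw [mul_zpow, mul_assoc, ← Complex.ofReal_zpow, Complex.im_ofReal_mul, h, mul_zero]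
  have h1 : ((x / y) ^ m).im = 0 := by
    have e : (x / y) ^ m = (x ^ m * c) / (y ^ m * c) := by
      rw [div_zpow, mul_div_mul_right _ _ hc]
    rw [e, Complex.div_im, hx, hy, real r _ hi, real s _ hj]
    ring
  have hw : x / y ≠ 0 := div_ne_zero hx0 hy0
  rw [← Complex.norm_mul_exp_arg_mul_I (x / y), mul_zpow, ← Complex.ofReal_zpow,
    ← Complex.exp_int_mul, Complex.im_ofReal_mul, mul_eq_zero,
    show (m : ℂ) * (((x / y).arg : ℂ) * Complex.I) = (((m : ℝ) * (x / y).arg : ℝ) : ℂ) * Complex.I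
      by push_cast; ring, Complex.exp_ofReal_mul_I_im, Real.sin_eq_zero_iff] at h1
  obtain h1 | ⟨n, hn⟩ := h1
  · exact absurd h1 (zpow_ne_zero m (norm_ne_zero_iff.2 hw))
  have hm' : (m : ℝ) ≠ 0 := Int.cast_ne_zero.2 hm
  have hpi := Real.pi_ne_zero
  have hq : (x / y).arg / Real.pi = ((n / m : ℚ) : ℝ) := by
    push_cast
    field_simp
    linarith
  rw [Complex.angle_eq_abs_arg hx0 hy0, ← abs_of_pos Real.pi_pos, ← abs_div, hq, ← Rat.cast_abs]
  exact Rat.not_irrational _

lemma vec_edge (j : Fin 3) : T.vertex (j + 1) - T.vertex j =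
    ((sgn T * ‖edge T j‖ : ℝ) : ℂ) * (table T).u j := by
  have hu : (table T).u j = ((‖edge T j‖⁻¹ : ℝ) : ℂ) * edge T j := exp_ang T j
  have hn0 : ‖edge T j‖ ≠ 0 := norm_ne_zero_iff.2 (edge_ne T j)
  have hs : sgn T * sgn T = 1 := by unfold sgn; split_ifs <;> norm_num
  have hd : edge T j = (sgn T : ℂ) * (T.vertex (j + 1) - T.vertex j) := rfl
  rw [hu, ← mul_assoc, ← Complex.ofReal_mul, mul_assoc (sgn T), mul_inv_cancel₀ hn0, mul_one, hd,
    ← mul_assoc, ← Complex.ofReal_mul, hs, Complex.ofReal_one, one_mul]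

lemma noPhase (h : T.IsIrrational) : NoPhase (table T) := by
  intro m hm c hj
  by_contra hc
  have hne : ∀ j : Fin 3, T.vertex (j + 1) - T.vertex j ≠ 0 :=
    fun j => right_ne_zero_of_mul (edge_ne T j)
  have pos : ∀ j : Fin 3, ∃ r : ℝ, T.vertex (j + 1) - T.vertex j = (r : ℂ) * (table T).u j :=
    fun j => ⟨_, vec_edge T j⟩
  have neg : ∀ j : Fin 3, ∃ r : ℝ, T.vertex j - T.vertex (j + 1) = (r : ℂ) * (table T).u j :=
    fun j => ⟨-(sgn T * ‖edge T j‖), by
      rw [Complex.ofReal_neg, neg_mul, ← vec_edge]; ring⟩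
  have key : ∀ (x y : ℂ) (i j : Fin 3), (∃ r : ℝ, x = (r : ℂ) * (table T).u i) →
      (∃ s : ℝ, y = (s : ℂ) * (table T).u j) → x ≠ 0 → y ≠ 0 →
      ¬ Irrational (InnerProductGeometry.angle x y / Real.pi) :=
    fun x y i j ⟨r, hx⟩ ⟨s, hy⟩ hx0 hy0 =>
      angle_rational T x y i j r s hx hy hx0 hy0 m hm c hc (hj i) (hj j)
  have n' : ∀ j : Fin 3, T.vertex j - T.vertex (j + 1) ≠ 0 :=
    fun j => sub_ne_zero.2 (sub_ne_zero.1 (hne j)).symm
  rcases h with h | h | h
  · exact key (T.B - T.A) (T.C - T.A) 0 2 (pos 0) (neg 2) (hne 0) (n' 2) h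
  · exact key (T.A - T.B) (T.C - T.B) 0 1 (neg 0) (pos 1) (n' 0) (hne 1) h
  · exact key (T.A - T.C) (T.B - T.C) 2 1 (pos 2) (neg 1) (hne 2) (n' 1) h

end Bridge

theorem bridge_holds : BridgeStmt := fun T =>
  ⟨Bridge.table T,
    ⟨Set.ext fun z => Bridge.pos_iff T z, Bridge.side_eq T, Bridge.refl_eq T⟩,
    Bridge.noPhase T⟩

end Vale.Agent.P099
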