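import Vale.Agent.P099.Spec

/-!
# P099: conclusion of the spectral argument

From the energy identities, approximability of an eigenpair forces all Fourier modes to vanish
(`lam ≠ 0`) or to be constants compatible with all reflection phases (`lam = 0`).
-/

noncomputable section

namespace Vale.Agent.P099

open MeasureTheory Set Complex Filter Topology
open scoped ComplexConjugate

namespace Conclude

/-- A bounded function on `ℤ` with nonnegative second difference is constant. -/
lemma const_of_convex {a : ℤ → ℝ} {S : ℝ} (hb : ∀ k, |a k| ≤ S)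
    (hc : ∀ k, 0 ≤ a k - 2 * a (k + 1) + a (k + 2)) : ∀ k, a (k + 1) = a k := by
  have hS : 0 ≤ S := (abs_nonneg _).trans (hb 0)
  set d : ℤ → ℝ := fun k => a (k + 1) - a k with hd
  have hstep : ∀ k, d k ≤ d (k + 1) := fun k => by
    have h := hc k
    simp only [hd, show k + 1 + 1 = k + 2 by ring]
    linarith
  have hmono : ∀ k : ℤ, ∀ n : ℕ, d k ≤ d (k + n) := by
    intro k n
    induction n with
    | zero => simp
    | succ n ih =>
      refine ih.trans ?_
      have := hstep (k + n)
      push_cast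
      rwa [← add_assoc]
  have hup : ∀ k : ℤ, ∀ n : ℕ, (n : ℝ) * d k ≤ a (k + n) - a k := by
    intro k n
    induction n with
    | zero => simp
    | succ n ih =>
      have := hmono k n
      simp only [hd] at this ih ⊢
      push_cast
      rw [← add_assoc]
      linarith
  have hdown : ∀ k : ℤ, ∀ n : ℕ, a k - a (k - n) ≤ (n : ℝ) * d k := by
    intro k n
    induction n with
    | zero => simp
    | succ n ih =>
      have := hmono (k - (n + 1 : ℕ)) (n + 1)
      rw [sub_add_cancel] at this
      simp only [hd] at this ih ⊢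
      push_cast at this ⊢
      rw [show k - ((n : ℤ) + 1) + 1 = k - n by ring] at this
      linarith
  intro k
  by_contra hne
  obtain ⟨n, hn⟩ := exists_nat_gt (2 * S / |d k|)
  have hdk : d k ≠ 0 := sub_ne_zero.2 hne
  rw [div_lt_iff₀ (abs_pos.2 hdk)] at hn
  rcases lt_or_gt_of_ne hdk with h | h
  · rw [abs_of_neg h] at hn
    have h2 := hdown k n
    have := abs_le.1 (hb k)
    have := abs_le.1 (hb (k - n))
    nlinarith
  · rw [abs_of_pos h] at hn
    have h2 := hup k n
    have := abs_le.1 (hb k)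
    have := abs_le.1 (hb (k + n))
    nlinarith

/-- A summable function on `ℤ` with nonnegative second difference vanishes. -/
lemma zero_of_convex {a : ℤ → ℝ} (hs : Summable a)
    (hc : ∀ k, 0 ≤ a k - 2 * a (k + 1) + a (k + 2)) : ∀ k, a k = 0 := by
  have hs' : Summable fun k => |a k| := hs.abs
  have heq := const_of_convex (S := ∑' k, |a k|)
    (fun k => hs'.le_tsum k fun _ _ => abs_nonneg _) hc
  have hall : ∀ k, a k = a 0 := by
    intro k
    induction k using Int.induction_on with
    | zero => rfl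
    | succ i hi => rw [heq, hi]
    | pred i hi => rw [← hi, ← heq (-(i : ℤ) - 1)]; congr 1; ring
  have hz := hs.tendsto_cofinite_zero
  rw [funext hall, tendsto_const_nhds_iff] at hz
  exact fun k => (hall k).trans hz

lemma hasSum_sq_coeff {g : Dir → ℂ} (hg : MemLp g 2 unifDir) :
    HasSum (fun k => ‖fourierCoeff g k‖ ^ 2) (∫ θ, ‖g θ‖ ^ 2 ∂unifDir) := by
  have h := hasSum_sq_fourierCoeff (hg.toLp g)
  have hc : ∀ k, fourierCoeff (⇑(hg.toLp g)) k = fourierCoeff g k := fun k => by
    unfold fourierCoeff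
    exact integral_congr_ae (hg.coeFn_toLp.mono fun θ hθ => by simp only [hθ])
  simp only [hc] at h
  convert h using 1
  exact integral_congr_ae (hg.coeFn_toLp.mono fun θ hθ => by simp only [hθ])

lemma coeff_const (c : ℂ) (k : ℤ) :
    fourierCoeff (fun _ : Dir => c) k = if k = 0 then c else 0 := by
  have h1 : (fun _ : Dir => c) = fun θ => c * fourier 0 θ := by simp
  rw [h1, fourierCoeff.const_mul, fourierCoeff_fourier]
  by_cases hk : k = 0
  · subst hk; simp
  · rw [if_neg hk, Pi.single_eq_of_ne hk]; simp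

variable {M : Table}

lemma isOpen_dom (M : Table) : IsOpen M.dom := by
  have : M.dom = ⋂ j, {z | 0 < M.ell j z} := by ext z; simp [Table.dom]
  rw [this]
  refine isOpen_iInter_of_finite fun j => isOpen_lt continuous_const ?_
  unfold Table.ell
  fun_prop

lemma isBounded_dom (M : Table) : Bornology.IsBounded M.dom := M.bounded

instance (M : Table) : IsFiniteMeasure (volume.restrict M.dom) := by
  constructor
  rw [Measure.restrict_apply_univ]
  exact (isBounded_dom M).measure_lt_top

lemma intDom {E : Type*} [NormedAddCommGroup E] {f : ℂ → E} (hf : Continuous f) :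
    IntegrableOn f M.dom :=
  (hf.continuousOn.integrableOn_compact (isBounded_dom M).isCompact_closure).mono_set
    subset_closure

lemma continuous_dz {f : ℂ → ℂ} (hf : ContDiff ℝ 2 f) : Continuous (dz f) := by
  have h := hf.continuous_fderiv (by norm_num)
  unfold dz
  fun_prop

lemma nq_nonneg (f : ℂ → ℂ) : 0 ≤ M.nq f := integral_nonneg fun _ => sq_nonneg _

lemma nq_expand {f g : ℂ → ℂ} (hf : Continuous f) (hg : Continuous g) (r : ℝ) :
    M.nq (fun z => f z + (r : ℂ) * g z) = M.nq f + 2 * r * M.ip f g + r ^ 2 * M.nq g := by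
  have hpt : ∀ z, ‖f z + (r : ℂ) * g z‖ ^ 2
      = ‖f z‖ ^ 2 + 2 * r * (conj (f z) * g z).re + r ^ 2 * ‖g z‖ ^ 2 := fun z => by
    simp only [Complex.sq_norm, Complex.normSq_apply, Complex.add_re, Complex.add_im,
      Complex.mul_re, Complex.mul_im, Complex.ofReal_re, Complex.ofReal_im, Complex.conj_re,
      Complex.conj_im]
    ring
  unfold Table.nq Table.ip
  simp only [hpt]
  have i1 : IntegrableOn (fun z => ‖f z‖ ^ 2) M.dom := intDom (by fun_prop)
  have i2 : IntegrableOn (fun z => 2 * r * (conj (f z) * g z).re) M.dom := intDom (by fun_prop)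
  have i12 : IntegrableOn (fun z => ‖f z‖ ^ 2 + 2 * r * (conj (f z) * g z).re) M.dom := i1.add i2
  have i3 : IntegrableOn (fun z => r ^ 2 * ‖g z‖ ^ 2) M.dom := intDom (by fun_prop)
  rw [integral_add i12 i3, integral_add i1 i2]
  simp only [integral_const_mul]

lemma energy_cpl_nonneg {v : Fin 2 → ℤ → ℂ → ℂ} (hv : ∀ i, M.Adm (v i)) (lam : ℝ) (k : ℤ) :
    0 ≤ M.en v (k - 1) + lam * M.cpl v k + lam ^ 2 / 4 * M.mass v k := by
  have h0 := nq_expand (M := M) (continuous_dz ((hv 0).smooth (k - 1)))
    ((hv 1).smooth k).continuous (lam / 2)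
  have h1 := nq_expand (M := M) (continuous_dz ((hv 1).smooth (k - 1)))
    ((hv 0).smooth k).continuous (-(lam / 2))
  have p0 := nq_nonneg (M := M) (fun z => dz (v 0 (k - 1)) z + ((lam / 2 : ℝ) : ℂ) * v 1 k z)
  have p1 := nq_nonneg (M := M) (fun z => dz (v 1 (k - 1)) z + ((-(lam / 2) : ℝ) : ℂ) * v 0 k z)
  rw [h0] at p0
  rw [h1] at p1
  unfold Table.en Table.cpl Table.mass
  linarith

/-- The key inequality: the second difference of the masses is almost nonnegative. -/
lemma mass_convex (hE : EnergyStmt) {v : Fin 2 → ℤ → ℂ → ℂ} (hv : ∀ i, M.Adm (v i))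
    (lam : ℝ) (k : ℤ) :
    -((1 + 2 * |lam|) * (16 * (1 + |lam|) * ∑' l, M.errTerm lam v l)) ≤
      lam ^ 2 / 4 * (M.mass v k - 2 * M.mass v (k + 1) + M.mass v (k + 2)) := by
  set E := 16 * (1 + |lam|) * ∑' l, M.errTerm lam v l
  obtain ⟨hT, hC⟩ := (hE M lam v hv).2 k
  have hC' := ((hE M lam v hv).2 (k + 1)).2
  have p0 := energy_cpl_nonneg hv lam k
  have p1 := energy_cpl_nonneg hv lam (k + 1)
  have p2 := energy_cpl_nonneg hv lam (k + 2)
  rw [show k + 1 - 1 = k by ring] at p1
  rw [show k + 2 - 1 = k + 1 by ring] at p2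
  rw [show k + 1 + 1 = k + 2 by ring] at hC'
  have a1 := (le_abs_self _).trans ((abs_mul lam _).le.trans
    (mul_le_mul_of_nonneg_left hC (abs_nonneg lam)))
  have a2 := (le_abs_self _).trans ((abs_mul lam _).le.trans
    (mul_le_mul_of_nonneg_left hC' (abs_nonneg lam)))
  have a0 := (le_abs_self _).trans hT
  linarith

lemma measurable_modeR {h : Phase → ℝ} (hm : Measurable h) (k : ℤ) :
    Measurable (modeR h k) := by
  have : StronglyMeasurable fun p : ℂ × Dir => fourier (-k) p.2 • ((h p : ℂ)) := by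
    refine Measurable.stronglyMeasurable ?_
    simp only [smul_eq_mul]
    fun_prop
  exact (this.integral_prod_right' (ν := AddCircle.haarAddCircle)).measurable

lemma modeR_bound {h : Phase → ℝ} {B : ℝ} (hb : ∀ p, |h p| ≤ B) (k : ℤ) (z : ℂ) :
    ‖modeR h k z‖ ≤ B := by
  have := norm_integral_le_of_norm_le_const (μ := (AddCircle.haarAddCircle : Measure Dir))
    (f := fun θ => fourier (-k) θ • (h (z, θ) : ℂ)) (C := B) (Eventually.of_forall fun θ => by
      rw [norm_smul, fourier_apply, Circle.norm_coe, one_mul, Complex.norm_real]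
      exact hb _)
  simpa [modeR, mode, fourierCoeff] using this

lemma memLp_modeR {h : Phase → ℝ} (hm : Measurable h) {B : ℝ} (hb : ∀ p, |h p| ≤ B) (k : ℤ) :
    MemLp (modeR h k) 2 (volume.restrict M.dom) :=
  MemLp.of_bound (measurable_modeR hm k).aestronglyMeasurable B
    (Eventually.of_forall fun z => modeR_bound hb k z)

lemma memLp_slice {h : Phase → ℝ} (hm : Measurable h) {B : ℝ} (hb : ∀ p, |h p| ≤ B) (z : ℂ) :
    MemLp (fun θ => (h (z, θ) : ℂ)) 2 unifDir :=
  MemLp.of_bound (Measurable.aestronglyMeasurable (by fun_prop)) B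
    (Eventually.of_forall fun θ => by simpa using hb (z, θ))

lemma summable_nq_modeR {h : Phase → ℝ} (hm : Measurable h) {B : ℝ} (hb : ∀ p, |h p| ≤ B) :
    Summable fun k => M.nq (modeR h k) := by
  refine summable_of_sum_le (fun k => nq_nonneg _) (c := ∫ _z in M.dom, B ^ 2) fun s => ?_
  have hint : ∀ k ∈ s, IntegrableOn (fun z => ‖modeR h k z‖ ^ 2) M.dom := fun k _ =>
    Integrable.of_bound ((measurable_modeR hm k).norm.pow_const 2).aestronglyMeasurable (B ^ 2)
      (Eventually.of_forall fun z => by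
        rw [Real.norm_of_nonneg (sq_nonneg _)]
        exact pow_le_pow_left₀ (norm_nonneg _) (modeR_bound hb k z) 2)
  unfold Table.nq
  rw [← integral_finsetSum s hint]
  refine integral_mono (integrable_finsetSum s hint) (integrable_const _) fun z => ?_
  have hs := hasSum_sq_coeff (memLp_slice hm hb z)
  refine (sum_le_hasSum s (fun k _ => sq_nonneg _) hs).trans ?_
  refine (integral_mono_of_nonneg (Eventually.of_forall fun θ => sq_nonneg _)
    (integrable_const (B ^ 2)) (Eventually.of_forall fun θ => ?_)).trans (by simp)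
  exact pow_le_pow_left₀ (norm_nonneg _) (by simpa using hb (z, θ)) 2

lemma abs_nq_sub_le {f h : ℂ → ℂ} (hf : Continuous f)
    (hh : MemLp h 2 (volume.restrict M.dom)) {δ s : ℝ} (hs : 0 < s)
    (hd : M.nq (fun z => f z - h z) ≤ δ) :
    |M.nq f - M.nq h| ≤ s * M.nq h + (1 + 1 / s) * δ := by
  have hfL : MemLp f 2 (volume.restrict M.dom) :=
    (memLp_two_iff_integrable_sq_norm hf.aestronglyMeasurable).2 (intDom (by fun_prop))
  have i1 := hfL.norm.integrable_sq
  have i2 := hh.norm.integrable_sq
  have i3 := (hfL.sub hh).norm.integrable_sq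
  simp only [Pi.sub_apply] at i3
  unfold Table.nq at hd ⊢
  rw [← integral_sub i1 i2]
  refine abs_integral_le_integral_abs.trans ?_
  refine (integral_mono (i1.sub i2).abs ((i2.const_mul s).add (i3.const_mul (1 + 1 / s)))
    fun z => ?_).trans ?_
  · simp only [Pi.add_apply, Pi.sub_apply]
    set a := ‖f z‖
    set b := ‖h z‖
    set d := ‖f z - h z‖
    have hab : |a - b| ≤ d := abs_norm_sub_norm_le _ _
    have ha : 0 ≤ a := norm_nonneg _
    have hb : 0 ≤ b := norm_nonneg _
    have h1 : |a ^ 2 - b ^ 2| ≤ d * (2 * b + d) := by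
      rw [show a ^ 2 - b ^ 2 = (a - b) * (a + b) by ring, abs_mul, abs_of_nonneg (add_nonneg ha hb)]
      have := (abs_le.1 hab).2
      exact mul_le_mul hab (by linarith) (by linarith) ((abs_nonneg _).trans hab)
    have h2 : 2 * d * b ≤ s * b ^ 2 + 1 / s * d ^ 2 := by
      have : 0 ≤ (s * b - d) ^ 2 / s := div_nonneg (sq_nonneg _) hs.le
      rw [show (s * b - d) ^ 2 / s = s * b ^ 2 - 2 * d * b + 1 / s * d ^ 2 by
        field_simp; ring] at this
      linarith
    linarith
  · simp only [Pi.add_apply]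
    rw [integral_add (i2.const_mul s) (i3.const_mul _), integral_const_mul, integral_const_mul]
    have : 0 ≤ 1 + 1 / s := by positivity
    have := mul_le_mul_of_nonneg_left hd this
    linarith

/-- Functions all of whose modes are trivial are constant almost everywhere. -/
lemma ae_eq_of_modes {h : Phase → ℝ} (hm : Measurable h) {B : ℝ} (hb : ∀ p, |h p| ≤ B) (c : ℝ)
    (hmode : ∀ k : ℤ, ∀ᵐ z ∂(volume.restrict M.dom),
      modeR h k z = if k = 0 then (c : ℂ) else 0) :
    ∀ᵐ p ∂M.m0, h p = c := by
  unfold Table.m0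
  rw [Measure.ae_prod_iff_ae_ae (measurableSet_eq_fun hm measurable_const)]
  filter_upwards [ae_all_iff.2 hmode] with z hz
  have hg := memLp_slice hm hb z
  have hgc : MemLp (fun θ => (h (z, θ) : ℂ) - c) 2 unifDir := hg.sub (memLp_const (c : ℂ))
  have h0 : ∀ k, fourierCoeff (fun θ => (h (z, θ) : ℂ) - c) k = 0 := by
    intro k
    have hadd := fourierCoeff.add (f := fun θ => (h (z, θ) : ℂ) - c) (g := fun _ : Dir => (c : ℂ))
      (hgc.integrable (by norm_num)) (integrable_const _)
    have hk : fourierCoeff (fun θ => (h (z, θ) : ℂ)) k = if k = 0 then (c : ℂ) else 0 := hz k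
    have := congrFun hadd k
    simp only [Pi.add_apply] at this
    rw [show ((fun θ => (h (z, θ) : ℂ) - c) + fun _ : Dir => (c : ℂ))
      = fun θ => (h (z, θ) : ℂ) by funext θ; simp, hk, coeff_const] at this
    simpa using this.symm
  have hs := hasSum_sq_coeff hgc
  simp only [h0, norm_zero, ne_eq, OfNat.ofNat_ne_zero, not_false_eq_true, zero_pow] at hs
  have hint : (∫ θ, ‖(h (z, θ) : ℂ) - c‖ ^ 2 ∂unifDir) = 0 := hs.unique hasSum_zero
  rw [integral_eq_zero_iff_of_nonneg (fun θ => sq_nonneg _) hgc.norm.integrable_sq] at hint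
  filter_upwards [hint] with θ hθ
  simpa [sub_eq_zero] using hθ

end Conclude

open Conclude

theorem eigenZero_holds (hE : EnergyStmt) : EigenZeroStmt := by
  intro M lam F hF hlam happ
  obtain ⟨B, hB⟩ := hF.bdd
  set a : ℤ → ℝ := fun k => M.nq (modeR (F 0) k) + M.nq (modeR (F 1) k) with ha
  have hsum : Summable a :=
    (summable_nq_modeR (hF.meas 0) (hB 0)).add (summable_nq_modeR (hF.meas 1) (hB 1))
  have hconv : ∀ k, 0 ≤ a k - 2 * a (k + 1) + a (k + 2) := by
    intro k
    set K := (1 + 2 * |lam|) * (16 * (1 + |lam|)) with hK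
    set S := a k + 2 * a (k + 1) + a (k + 2) with hS
    refine le_of_forall_pos_le_add fun e he => ?_
    have hlim : Tendsto (fun s : ℝ => s * S + 8 * (1 + s) * s + 4 / lam ^ 2 * K * s ^ 2)
        (𝓝[>] 0) (𝓝 0) := by
      refine Tendsto.mono_left ?_ nhdsWithin_le_nhds
      exact Continuous.tendsto' (by fun_prop) 0 0 (by simp)
    obtain ⟨s, hse, hs⟩ : ∃ s, s * S + 8 * (1 + s) * s + 4 / lam ^ 2 * K * s ^ 2 < e ∧ 0 < s :=
      ((hlim.eventually_lt_const he).and self_mem_nhdsWithin).exists
    obtain ⟨v, hv, hnear, -, herr⟩ := happ (s ^ 2) (by positivity)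
    have hmass : ∀ l, |M.mass v l - a l| ≤ s * a l + 2 * (1 + s) * s := by
      intro l
      have e0 := abs_nq_sub_le ((hv 0).smooth l).continuous
        (memLp_modeR (M := M) (hF.meas 0) (hB 0) l) hs (hnear 0 l)
      have e1 := abs_nq_sub_le ((hv 1).smooth l).continuous
        (memLp_modeR (M := M) (hF.meas 1) (hB 1) l) hs (hnear 1 l)
      have hsimp : (1 + 1 / s) * s ^ 2 = (1 + s) * s := by field_simp; ring
      simp only [ha, Table.mass]
      rw [hsimp] at e0 e1
      rw [abs_le] at e0 e1 ⊢
      constructor <;> linarith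
    have hKE : (1 + 2 * |lam|) * (16 * (1 + |lam|) * ∑' l, M.errTerm lam v l) ≤ K * s ^ 2 := by
      rw [← mul_assoc]
      exact mul_le_mul_of_nonneg_left herr (by positivity)
    have hc := mass_convex hE hv lam k
    have hl : 0 < lam ^ 2 / 4 := by positivity
    have hc' : -(4 / lam ^ 2 * K * s ^ 2)
        ≤ M.mass v k - 2 * M.mass v (k + 1) + M.mass v (k + 2) := by
      refine le_of_mul_le_mul_left ?_ hl
      refine le_trans (le_of_eq ?_) ((neg_le_neg hKE).trans hc)
      field_simp
    have h0 := abs_le.1 (hmass k)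
    have h1 := abs_le.1 (hmass (k + 1))
    have h2 := abs_le.1 (hmass (k + 2))
    linarith
  have hzero := zero_of_convex hsum hconv
  intro i
  refine ae_eq_of_modes (hF.meas i) (hB i) 0 fun k => ?_
  have hk : M.nq (modeR (F i) k) = 0 := by
    have h := hzero k
    simp only [ha] at h
    have h0 := nq_nonneg (M := M) (modeR (F 0) k)
    have h1 := nq_nonneg (M := M) (modeR (F 1) k)
    fin_cases i <;> simp at * <;> linarith
  unfold Table.nq at hk
  rw [integral_eq_zero_iff_of_nonneg (fun z => sq_nonneg _)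
    (memLp_modeR (hF.meas i) (hB i) k).norm.integrable_sq] at hk
  filter_upwards [hk] with z hz
  simpa using hz

theorem invConst_holds (hE : EnergyStmt) (hD : DbarStmt) (hC : ConstStmt) : InvConstStmt := by
  intro M F hF hNP happ i
  obtain ⟨B, hB⟩ := hF.bdd
  have hmode : ∀ k, ∃ c : ℂ, (∀ᵐ z ∂(volume.restrict M.dom), modeR (F i) k z = c) ∧
      ∀ j, (M.u j ^ k * c).im = 0 := by
    intro k
    refine hC M k _ (memLp_modeR (hF.meas i) (hB i) k) fun δ hδ => ?_
    obtain ⟨v, hv, hnear, -, herr⟩ := happ (δ / 16) (by positivity)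
    have hT := ((hE M 0 v hv).2 k).1
    have hen : ∀ l, 0 ≤ M.en v l := fun l => add_nonneg (nq_nonneg _) (nq_nonneg _)
    have hT' := (le_abs_self _).trans hT
    simp only [abs_zero, add_zero, mul_one, ne_eq, OfNat.ofNat_ne_zero, not_false_eq_true,
      zero_pow, zero_mul, sub_zero] at hT'
    have hdz : M.nq (dz (v i k)) ≤ δ := by
      have h0 := hen (k - 1)
      have h1 := hen (k + 1)
      have h3 : M.nq (dz (v i k)) ≤ M.en v k := by
        have n0 := nq_nonneg (M := M) (dz (v 0 k))
        have n1 := nq_nonneg (M := M) (dz (v 1 k))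
        fin_cases i <;> simp [Table.en] <;> linarith
      linarith
    refine ⟨v i k, (hv i).smooth k, fun j z hz hl => ((hv i).phase k j z hz hl).1, ?_, hdz, ?_⟩
    · exact (hnear i k).trans (by linarith)
    · rw [hD M (v i) (hv i) k]; exact hdz
  choose c hc hcp using hmode
  have hne : ∀ k, k ≠ 0 → c k = 0 := fun k hk => hNP k hk (c k) (hcp k)
  have him : (c 0).im = 0 := by simpa using hcp 0 0
  refine ⟨(c 0).re, ae_eq_of_modes (hF.meas i) (hB i) _ fun k => ?_⟩
  filter_upwards [hc k] with z hz
  rw [hz]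
  by_cases hk : k = 0
  · subst hk; rw [if_pos rfl]; exact Complex.ext (by simp) (by simp [him])
  · rw [if_neg hk, hne k hk]

end Vale.Agent.P099
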