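import Vale.Agent.P099.Spec

/-!
# P099: a mode with vanishing Dirichlet energy is constant and has the side phases
-/

noncomputable section

namespace Vale.Agent.P099

open MeasureTheory Set Complex Filter Topology Metric
open scoped ComplexConjugate ENNReal NNReal

namespace Const

/-- The pointwise size of the gradient. -/
def grad (f : ℂ → ℂ) (z : ℂ) : ℝ := ‖dz f z‖ + ‖dzb f z‖

lemma fderiv_le_grad (f : ℂ → ℂ) (z w : ℂ) : ‖fderiv ℝ f z w‖ ≤ ‖w‖ * grad f z := by
  have hw : w = w.re • (1 : ℂ) + w.im • Complex.I := by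
    simp [Complex.real_smul, Complex.re_add_im]
  have h : fderiv ℝ f z w = w * dz f z + conj w * dzb f z := by
    conv_lhs => rw [hw, map_add, map_smul, map_smul]
    have hc : conj w = (w.re : ℂ) - w.im * Complex.I := by
      apply Complex.ext <;> simp
    have hw' : w = (w.re : ℂ) + w.im * Complex.I := (Complex.re_add_im w).symm
    rw [hc]
    conv_rhs => arg 1; arg 1; rw [hw']
    simp only [dz, dzb, Complex.real_smul]
    linear_combination ((w.im : ℂ) * fderiv ℝ f z Complex.I) * Complex.I_sq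
  rw [h, grad, mul_add]
  refine (norm_add_le _ _).trans ?_
  simp

variable {f : ℂ → ℂ} (hf : ContDiff ℝ 2 f)
include hf

lemma continuous_dz : Continuous (dz f) := by
  have := hf.continuous_fderiv (by norm_num)
  unfold dz; fun_prop

lemma continuous_dzb : Continuous (dzb f) := by
  have := hf.continuous_fderiv (by norm_num)
  unfold dzb; fun_prop

lemma continuous_grad : Continuous (grad f) := by
  have := continuous_dz hf; have := continuous_dzb hf
  unfold grad; fun_prop

/-- Variation along a segment inside an open set. -/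
lemma seg {Q : Set ℂ} {x w : ℂ} {L : ℝ} (hL : 0 ≤ L)
    (hin : ∀ s ∈ Ioo (0 : ℝ) L, x + (s : ℂ) * w ∈ Q) :
    ‖f (x + (L : ℂ) * w) - f x‖ₑ ≤ ENNReal.ofReal ‖w‖ *
      ∫⁻ s in Ioo (0 : ℝ) L, Q.indicator (fun z => ENNReal.ofReal (grad f z)) (x + (s : ℂ) * w) := by
  have hd : Differentiable ℝ f := hf.differentiable (by norm_num)
  have hp : ∀ s : ℝ, HasDerivAt (fun r : ℝ => x + (r : ℂ) * w) w s := fun s => by
    simpa using ((Complex.ofRealCLM.hasDerivAt (x := s)).mul_const w).const_add x
  have hder : ∀ s : ℝ, HasDerivAt (fun r : ℝ => f (x + (r : ℂ) * w))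
      (fderiv ℝ f (x + (s : ℂ) * w) w) s := fun s =>
    (hd _).hasFDerivAt.comp_hasDerivAt s (hp s)
  have hc : Continuous fun s : ℝ => fderiv ℝ f (x + (s : ℂ) * w) w := by
    have := hf.continuous_fderiv (by norm_num)
    fun_prop
  have hint := intervalIntegral.integral_eq_sub_of_hasDerivAt (fun s _ => hder s)
    (hc.intervalIntegrable 0 L)
  simp only [Complex.ofReal_zero, zero_mul, add_zero] at hint
  rw [← hint, intervalIntegral.integral_of_le hL, integral_Ioc_eq_integral_Ioo]
  refine (enorm_integral_le_lintegral_enorm _).trans ?_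
  rw [← lintegral_const_mul' _ _ ENNReal.ofReal_ne_top]
  refine setLIntegral_mono' measurableSet_Ioo fun s hs => ?_
  rw [indicator_of_mem (hin s hs), ← ENNReal.ofReal_mul (norm_nonneg _), ← ofReal_norm]
  exact ENNReal.ofReal_le_ofReal (fderiv_le_grad f _ w)

omit hf in
/-- Averaging along parallel segments costs the length times the integral. -/
lemma lintegral_segments {G : ℂ → ℝ≥0∞} (hG : Measurable G) (w : ℂ) (L : ℝ) :
    ∫⁻ x, ∫⁻ s in Ioo (0 : ℝ) L, G (x + (s : ℂ) * w) = ENNReal.ofReal L * ∫⁻ z, G z := by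
  rw [lintegral_lintegral_swap (by fun_prop)]
  simp [lintegral_add_right_eq_self G, Real.volume_Ioo, mul_comm]

end Const

open Vale.Agent.P099.Const

namespace Table

variable (M : Table)

lemma continuous_ell (j : Fin 3) : Continuous (M.ell j) := by
  unfold Table.ell; fun_prop

lemma dom_isOpen' : IsOpen M.dom := by
  simp only [Table.dom, ofPred_forall]
  exact isOpen_iInter_of_finite fun j => isOpen_lt continuous_const (M.continuous_ell j)

lemma dom_nonempty' : M.dom.Nonempty := M.nonempty

lemma dom_bounded' : ∃ D, 0 < D ∧ ∀ z ∈ M.dom, ‖z‖ ≤ D := by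
  obtain ⟨D, hD⟩ := isBounded_iff_forall_norm_le.1 (M.bounded : Bornology.IsBounded M.dom)
  exact ⟨max D 1, by simp, fun z hz => (hD z hz).trans (le_max_left _ _)⟩

lemma norm_u' (j : Fin 3) : ‖M.u j‖ = 1 := by
  simp [Table.u, Complex.norm_exp_ofReal_mul_I]

lemma ell_add (j : Fin 3) (z w : ℂ) (s : ℝ) :
    M.ell j (z + (s : ℂ) * w) = M.ell j z + s * (conj (M.u j) * w).im := by
  simp only [Table.ell, mul_add, Complex.add_im, Complex.mul_im, Complex.mul_re, Complex.ofReal_re,
    Complex.ofReal_im]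
  ring

/-- A direction running into side `j` from every point of the domain. -/
lemma exists_toSide (j : Fin 3) :
    ∃ v : ℂ, (conj (M.u j) * v).im = -1 ∧ ∀ i, i ≠ j → 0 < (conj (M.u i) * v).im := by
  have hu : ∀ i (z : ℂ), (conj (M.u i) * z).im =
      Real.cos (M.β i) * z.im - Real.sin (M.β i) * z.re := fun i z => by
    simp [Table.u, Complex.mul_im, Complex.exp_ofReal_mul_I_re, Complex.exp_ofReal_mul_I_im]
    ring
  obtain ⟨a, b, haj, hbj, hab, hall⟩ : ∃ a b : Fin 3, a ≠ j ∧ b ≠ j ∧ a ≠ b ∧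
      ∀ i, i = j ∨ i = a ∨ i = b := by
    fin_cases j
    · exact ⟨1, 2, by decide, by decide, by decide, by decide⟩
    · exact ⟨0, 2, by decide, by decide, by decide, by decide⟩
    · exact ⟨0, 1, by decide, by decide, by decide, by decide⟩
  set d := Real.sin (M.β b - M.β a) with hddef
  have hd : d ≠ 0 := M.sin_ne b a hab.symm
  have hd' : d = Real.sin (M.β b) * Real.cos (M.β a) - Real.cos (M.β b) * Real.sin (M.β a) :=
    Real.sin_sub _ _
  let w : ℂ := ⟨(Real.cos (M.β b) - Real.cos (M.β a)) / d * 1,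
    (Real.sin (M.β b) - Real.sin (M.β a)) / d⟩
  have ha : (conj (M.u a) * w).im = 1 := by
    rw [hu]; simp only [w]; field_simp; rw [hd']; ring
  have hb : (conj (M.u b) * w).im = 1 := by
    rw [hu]; simp only [w]; field_simp; rw [hd']; ring
  have hneg : (conj (M.u j) * w).im < 0 := by
    by_contra hcon
    obtain ⟨x, hx⟩ := M.dom_nonempty'
    obtain ⟨D, -, hD⟩ := M.dom_bounded'
    have hw : w ≠ 0 := fun h => by simp [h] at ha
    have hmem : ∀ t : ℝ, 0 ≤ t → x + (t : ℂ) * w ∈ M.dom := by
      intro t ht i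
      show 0 < M.ell i _
      rw [ell_add]
      have hxi : 0 < M.ell i x := hx i
      rcases hall i with h | h | h <;> subst h
      · have := mul_nonneg ht (not_lt.1 hcon); linarith
      · rw [ha]; linarith
      · rw [hb]; linarith
    have hwn : 0 < ‖w‖ := norm_pos_iff.2 hw
    set t := (2 * D + 1) / ‖w‖ with ht
    have h0 := hD x hx
    have ht0 : 0 ≤ t := div_nonneg (by linarith [norm_nonneg x]) hwn.le
    have h1 := hD _ (hmem t ht0)
    have h2 : ‖(t : ℂ) * w‖ = 2 * D + 1 := by
      rw [norm_mul, Complex.norm_real, Real.norm_eq_abs, abs_of_nonneg ht0, ht]; field_simp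
    have h3 : ‖(t : ℂ) * w‖ ≤ ‖x + (t : ℂ) * w‖ + ‖x‖ := by
      simpa [add_comm] using norm_le_norm_add_norm_sub' ((t : ℂ) * w) (x + (t : ℂ) * w)
    linarith
  refine ⟨((-1 / (conj (M.u j) * w).im : ℝ) : ℂ) * w, ?_, fun i hi => ?_⟩
  · rw [mul_left_comm, Complex.im_ofReal_mul]; rw [div_mul_cancel₀ _ hneg.ne]
  · rw [mul_left_comm, Complex.im_ofReal_mul]
    refine mul_pos (div_pos_of_neg_of_neg (by norm_num) hneg) ?_
    rcases hall i with h | h | h
    · exact absurd h hi
    · rw [h, ha]; norm_num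
    · rw [h, hb]; norm_num

end Table

namespace Const

variable (M : Table)

/-- `L¹` norm on the domain of a continuous function with small `L²` norm. -/
lemma lintegral_enorm_le {φ : ℂ → ℂ}
    (hi : Integrable (fun z => ‖φ z‖ ^ 2) (volume.restrict M.dom)) {r : ℝ} (hr : 0 < r)
    (hn : M.nq φ ≤ r ^ 2) :
    ∫⁻ z in M.dom, ‖φ z‖ₑ ≤ ENNReal.ofReal ((1 + volume.real M.dom) * r) := by
  obtain ⟨D, -, hD⟩ := M.dom_bounded'
  have hfin : volume M.dom ≠ ∞ :=
    ((M.bounded : Bornology.IsBounded M.dom).measure_lt_top).ne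
  have : IsFiniteMeasure (volume.restrict M.dom) := isFiniteMeasure_restrict.2 hfin
  have hle : ∀ z, ‖φ z‖ ≤ r⁻¹ * ‖φ z‖ ^ 2 + r := fun z => by
    have h1 : r⁻¹ * ‖φ z‖ ^ 2 + r - ‖φ z‖ = r⁻¹ * ((‖φ z‖ - r) ^ 2 + r * ‖φ z‖) := by
      field_simp; ring
    nlinarith [mul_nonneg (inv_nonneg.2 hr.le) (add_nonneg (sq_nonneg (‖φ z‖ - r))
      (mul_nonneg hr.le (norm_nonneg (φ z))))]
  have hI : Integrable (fun z => r⁻¹ * ‖φ z‖ ^ 2 + r) (volume.restrict M.dom) :=
    (hi.const_mul _).add (integrable_const _)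
  calc ∫⁻ z in M.dom, ‖φ z‖ₑ ≤ ∫⁻ z in M.dom, ENNReal.ofReal (r⁻¹ * ‖φ z‖ ^ 2 + r) :=
        lintegral_mono fun z => by
          rw [← ofReal_norm]; exact ENNReal.ofReal_le_ofReal (hle z)
    _ = ENNReal.ofReal (∫ z in M.dom, (r⁻¹ * ‖φ z‖ ^ 2 + r)) :=
        (ofReal_integral_eq_lintegral_ofReal hI (ae_of_all _ fun z => by positivity)).symm
    _ ≤ _ := by
        refine ENNReal.ofReal_le_ofReal ?_
        rw [integral_add (hi.const_mul _) (integrable_const _), integral_const_mul]
        simp only [integral_const, smul_eq_mul, measureReal_restrict_apply_univ]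
        have : r⁻¹ * M.nq φ ≤ r := by
          rw [inv_mul_le_iff₀ hr]; nlinarith
        have h2 : r⁻¹ * (∫ z in M.dom, ‖φ z‖ ^ 2) ≤ r := this
        nlinarith

/-- A continuous function is square integrable on the domain. -/
lemma integrable_sq {φ : ℂ → ℂ} (hφ : Continuous φ) :
    Integrable (fun z => ‖φ z‖ ^ 2) (volume.restrict M.dom) :=
  (((hφ.norm.pow 2).continuousOn.integrableOn_compact
    (M.bounded : Bornology.IsBounded M.dom).isCompact_closure).mono_set subset_closure)

end Const

theorem constStmt_holds : ConstStmt := by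
  intro M k h hh happ
  obtain ⟨D, hD0, hD⟩ := M.dom_bounded'
  have hQ : MeasurableSet M.dom := M.dom_isOpen'.measurableSet
  have hfin : volume M.dom ≠ ∞ :=
    ((M.bounded : Bornology.IsBounded M.dom).measure_lt_top).ne
  have hpos : volume M.dom ≠ 0 := (M.dom_isOpen'.measure_pos _ M.dom_nonempty').ne'
  set h' := hh.1.mk h with hh'
  have hmeas : Measurable h' := hh.1.stronglyMeasurable_mk.measurable
  have hae : h =ᵐ[volume.restrict M.dom] h' := hh.1.ae_eq_mk
  set A : ℝ := 1 + volume.real M.dom with hA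
  have hA0 : 0 < A := by
    rw [hA]; linarith [measureReal_nonneg (μ := volume) (s := M.dom)]
  -- approximants
  have key : ∀ r : ℝ, 0 < r → ∃ f : ℂ → ℂ, ContDiff ℝ 2 f ∧ EdgePhase M k f ∧
      (∫⁻ z in M.dom, ‖f z - h' z‖ₑ) ≤ ENNReal.ofReal (A * r) ∧
      (∫⁻ z, M.dom.indicator (fun z => ENNReal.ofReal (grad f z)) z) ≤
        ENNReal.ofReal (2 * A * r) := by
    intro r hr
    obtain ⟨f, hf, he, h1, h2, h3⟩ := happ (r ^ 2) (by positivity)
    refine ⟨f, hf, he, ?_, ?_⟩
    · have heq : (fun z => f z - h z) =ᵐ[volume.restrict M.dom] fun z => f z - h' z := by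
        filter_upwards [hae] with z hz
        rw [hz]
      have hn : M.nq (fun z => f z - h' z) ≤ r ^ 2 := by
        refine le_of_eq_of_le ?_ h1
        exact integral_congr_ae (heq.symm.fun_comp fun w => ‖w‖ ^ 2)
      have hf2 : MemLp f 2 (volume.restrict M.dom) :=
        (memLp_two_iff_integrable_sq_norm hf.continuous.aestronglyMeasurable).2
          (Const.integrable_sq M hf.continuous)
      have hm := ((hf2.sub (hh.ae_eq hae)))
      exact Const.lintegral_enorm_le M
        ((memLp_two_iff_integrable_sq_norm hm.1).1 hm) hr hn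
    · rw [lintegral_indicator hQ]
      have c1 := continuous_dz hf
      have c2 := continuous_dzb hf
      have b1 := Const.lintegral_enorm_le M (Const.integrable_sq M c1) hr h2
      have b2 := Const.lintegral_enorm_le M (Const.integrable_sq M c2) hr h3
      calc ∫⁻ z in M.dom, ENNReal.ofReal (grad f z)
          = ∫⁻ z in M.dom, (‖dz f z‖ₑ + ‖dzb f z‖ₑ) := by
            simp_rw [← ofReal_norm, grad,
              ENNReal.ofReal_add (norm_nonneg _) (norm_nonneg _)]
        _ = (∫⁻ z in M.dom, ‖dz f z‖ₑ) + ∫⁻ z in M.dom, ‖dzb f z‖ₑ :=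
            lintegral_add_left c1.measurable.enorm _
        _ ≤ _ := by
            refine (add_le_add b1 b2).trans ?_
            rw [← ENNReal.ofReal_add (by positivity) (by positivity)]
            exact ENNReal.ofReal_le_ofReal (le_of_eq (by rw [← hA]; ring))
  have small : ∀ {a : ℝ≥0∞} (K : ℝ≥0∞), K ≠ ∞ →
      (∀ r : ℝ, 0 < r → a ≤ K * ENNReal.ofReal r) → a = 0 := by
    intro a K hK hle
    refine le_antisymm ?_ zero_le
    have : Tendsto (fun r : ℝ => K * ENNReal.ofReal r) (𝓝[>] 0) (𝓝 0) := by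
      have h0 : Tendsto (fun r : ℝ => ENNReal.ofReal r) (𝓝[>] 0) (𝓝 0) := by
        have := (ENNReal.continuous_ofReal.tendsto 0).mono_left
          (nhdsWithin_le_nhds (s := Ioi (0 : ℝ)))
        simpa using this
      simpa using ENNReal.Tendsto.const_mul h0 (Or.inr hK)
    exact ge_of_tendsto this (eventually_nhdsWithin_of_forall fun r hr => hle r hr)
  -- the double integral of the oscillation vanishes
  set Bb : Set ℂ := closedBall (0 : ℂ) (2 * D) with hBb
  have hBfin : volume Bb ≠ ∞ := isBounded_closedBall.measure_lt_top.ne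
  have osc : ∫⁻ x in M.dom, ∫⁻ y in M.dom, ‖h' x - h' y‖ₑ = 0 := by
    refine small (ENNReal.ofReal (2 * D) * volume Bb * ENNReal.ofReal (2 * A) +
      2 * volume M.dom * ENNReal.ofReal A) ?_ fun r hr => ?_
    · exact ENNReal.add_ne_top.2 ⟨ENNReal.mul_ne_top (ENNReal.mul_ne_top ENNReal.ofReal_ne_top
        hBfin) ENNReal.ofReal_ne_top,
        ENNReal.mul_ne_top (ENNReal.mul_ne_top (by simp) hfin) ENNReal.ofReal_ne_top⟩
    obtain ⟨f, hf, -, he, hg⟩ := key r hr
    set G := M.dom.indicator (fun z => ENNReal.ofReal (grad f z)) with hG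
    have hGm : Measurable G :=
      (ENNReal.measurable_ofReal.comp (continuous_grad hf).measurable).indicator hQ
    have hfm : Measurable f := hf.continuous.measurable
    have hpair : ∀ x ∈ M.dom, ∫⁻ y in M.dom, ‖f x - f y‖ₑ ≤
        ∫⁻ w in Bb, ENNReal.ofReal (2 * D) *
          ∫⁻ s in Ioo (0 : ℝ) 1, G (x + (s : ℂ) * w) := by
      intro x hx
      rw [← lintegral_indicator hQ, ← lintegral_add_left_eq_self _ x,
        ← lintegral_indicator measurableSet_closedBall]
      refine lintegral_mono fun w => ?_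
      by_cases hw : x + w ∈ M.dom
      · have hwB : w ∈ Bb := by
          rw [hBb, mem_closedBall, dist_zero_right]
          have := norm_sub_le (x + w) x
          rw [add_sub_cancel_left] at this
          linarith [hD x hx, hD _ hw]
        rw [indicator_of_mem hw, indicator_of_mem hwB]
        have hin : ∀ s ∈ Ioo (0 : ℝ) 1, x + (s : ℂ) * w ∈ M.dom := by
          intro s hs i
          show 0 < M.ell i _
          rw [M.ell_add]
          have h1 : 0 < M.ell i x := hx i
          have h2 : 0 < M.ell i (x + ((1 : ℝ) : ℂ) * w) := by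
            rw [Complex.ofReal_one, one_mul]; exact hw i
          rw [M.ell_add] at h2
          nlinarith [hs.1, hs.2]
        have := seg hf (Q := M.dom) zero_le_one hin
        rw [Complex.ofReal_one, one_mul, enorm_sub_rev] at this
        refine this.trans (mul_le_mul_left (ENNReal.ofReal_le_ofReal ?_) _)
        simpa [hBb] using hwB
      · rw [indicator_of_notMem hw]; exact zero_le
    have e1 : ∫⁻ x in M.dom, ∫⁻ y in M.dom, ‖f x - f y‖ₑ ≤
        ENNReal.ofReal (2 * D) * volume Bb * ∫⁻ z, G z := by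
      refine (setLIntegral_mono' hQ hpair).trans (le_trans (setLIntegral_le_lintegral _ _) ?_)
      rw [lintegral_lintegral_swap (by fun_prop)]
      refine le_of_eq ?_
      have : ∀ w : ℂ, ∫⁻ x, ENNReal.ofReal (2 * D) *
          ∫⁻ s in Ioo (0 : ℝ) 1, G (x + (s : ℂ) * w) = ENNReal.ofReal (2 * D) * ∫⁻ z, G z :=
        fun w => by
          rw [lintegral_const_mul' _ _ ENNReal.ofReal_ne_top, lintegral_segments hGm]
          simp
      simp_rw [this, setLIntegral_const]
      ring
    have e2 : ∀ x, ∫⁻ y in M.dom, ‖h' x - h' y‖ₑ ≤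
        (∫⁻ y in M.dom, ‖f x - f y‖ₑ) + ‖f x - h' x‖ₑ * volume M.dom +
          ∫⁻ y in M.dom, ‖f y - h' y‖ₑ := by
      intro x
      have hm3 : Measurable fun y => ‖f y - h' y‖ₑ := (hfm.sub hmeas).enorm
      rw [← setLIntegral_const, ← lintegral_add_right _ measurable_const,
        ← lintegral_add_right _ hm3]
      refine lintegral_mono fun y => ?_
      calc ‖h' x - h' y‖ₑ = ‖((f x - f y) - (f x - h' x)) + (f y - h' y)‖ₑ := by
            congr 1; ring
        _ ≤ ‖(f x - f y) - (f x - h' x)‖ₑ + ‖f y - h' y‖ₑ := enorm_add_le _ _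
        _ ≤ _ := by gcongr; exact enorm_sub_le
    calc ∫⁻ x in M.dom, ∫⁻ y in M.dom, ‖h' x - h' y‖ₑ
        ≤ ∫⁻ x in M.dom, ((∫⁻ y in M.dom, ‖f x - f y‖ₑ) + ‖f x - h' x‖ₑ * volume M.dom +
            ∫⁻ y in M.dom, ‖f y - h' y‖ₑ) := lintegral_mono e2
      _ = (∫⁻ x in M.dom, ∫⁻ y in M.dom, ‖f x - f y‖ₑ) +
          (∫⁻ x in M.dom, ‖f x - h' x‖ₑ) * volume M.dom +
            (∫⁻ y in M.dom, ‖f y - h' y‖ₑ) * volume M.dom := by
          have hm3 : Measurable fun y => ‖f y - h' y‖ₑ := (hfm.sub hmeas).enorm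
          rw [lintegral_add_right _ measurable_const, lintegral_add_right _ (hm3.mul_const _),
            lintegral_mul_const _ hm3, setLIntegral_const]
      _ ≤ ENNReal.ofReal (2 * D) * volume Bb * ENNReal.ofReal (2 * A * r) +
          ENNReal.ofReal (A * r) * volume M.dom + ENNReal.ofReal (A * r) * volume M.dom :=
          add_le_add (add_le_add (e1.trans (mul_le_mul_right hg _)) (mul_le_mul_left he _))
            (mul_le_mul_left he _)
      _ = _ := by
          rw [ENNReal.ofReal_mul (p := 2 * A) (q := r) (by positivity),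
            ENNReal.ofReal_mul (p := A) (q := r) hA0.le]
          ring
  -- hence `h` is almost everywhere constant
  have hm2 : Measurable fun x => ∫⁻ y in M.dom, ‖h' x - h' y‖ₑ :=
    Measurable.lintegral_prod_right'
      (f := fun p : ℂ × ℂ => ‖h' p.1 - h' p.2‖ₑ) (by fun_prop)
  have hzero : ∀ᵐ x ∂volume.restrict M.dom, ∫⁻ y in M.dom, ‖h' x - h' y‖ₑ = 0 :=
    (lintegral_eq_zero_iff hm2).1 osc
  have : NeZero (volume.restrict M.dom) := ⟨by simpa using hpos⟩
  obtain ⟨x0, hx0⟩ := hzero.exists
  have hc : ∀ᵐ y ∂volume.restrict M.dom, h' y = h' x0 := by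
    have := (lintegral_eq_zero_iff (by fun_prop)).1 hx0
    filter_upwards [this] with y hy
    exact (sub_eq_zero.1 (enorm_eq_zero.1 hy)).symm
  refine ⟨h' x0, hae.trans hc, fun j => ?_⟩
  -- the phase on side `j`
  set c := h' x0 with hcdef
  obtain ⟨v, hv, hvi⟩ := M.exists_toSide j
  set L : ℝ := D + |M.b j| with hLdef
  have hL0 : 0 ≤ L := by positivity
  have hnu : ‖M.u j ^ k‖ = 1 := by simp [norm_zpow, M.norm_u']
  have hzero' : ENNReal.ofReal |(M.u j ^ k * c).im| * volume M.dom = 0 := by
    refine small (ENNReal.ofReal ‖v‖ * ENNReal.ofReal L * ENNReal.ofReal (2 * A) +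
      ENNReal.ofReal A) ?_ fun r hr => ?_
    · exact ENNReal.add_ne_top.2 ⟨ENNReal.mul_ne_top (ENNReal.mul_ne_top ENNReal.ofReal_ne_top
        ENNReal.ofReal_ne_top) ENNReal.ofReal_ne_top, ENNReal.ofReal_ne_top⟩
    obtain ⟨f, hf, hedge, he, hg⟩ := key r hr
    set G := M.dom.indicator (fun z => ENNReal.ofReal (grad f z)) with hG
    have hGm : Measurable G :=
      (ENNReal.measurable_ofReal.comp (continuous_grad hf).measurable).indicator hQ
    have hx : ∀ x ∈ M.dom, ENNReal.ofReal |(M.u j ^ k * f x).im| ≤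
        ENNReal.ofReal ‖v‖ * ∫⁻ s in Ioo (0 : ℝ) L, G (x + (s : ℂ) * v) := by
      intro x hx
      have hl : 0 < M.ell j x := hx j
      have hin : ∀ s ∈ Ico (0 : ℝ) (M.ell j x), x + (s : ℂ) * v ∈ M.dom := by
        intro s hs i
        show 0 < M.ell i _
        rw [M.ell_add]
        by_cases hij : i = j
        · subst hij; rw [hv]; linarith [hs.2]
        · have := hx i
          have := mul_nonneg hs.1 (hvi i hij).le
          have h1 : 0 < M.ell i x := hx i
          linarith
      have hend : M.ell j (x + (M.ell j x : ℂ) * v) = 0 := by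
        rw [M.ell_add, hv]; ring
      have hcl : x + (M.ell j x : ℂ) * v ∈ closure M.dom :=
        map_mem_closure (f := fun s : ℝ => x + (s : ℂ) * v) (by fun_prop)
          (by rw [closure_Ico hl.ne]; exact ⟨hl.le, le_rfl⟩) hin
      have h0 := hedge j _ hcl hend
      have hsub : Ioo (0 : ℝ) (M.ell j x) ⊆ Ioo 0 L := by
        refine Ioo_subset_Ioo_right ?_
        have h1 : (conj (M.u j) * x).im ≤ ‖x‖ := (Complex.im_le_norm _).trans (by
          simp [M.norm_u'])
        have := le_abs_self (M.b j)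
        simp only [Table.ell, hLdef]
        linarith [hD x hx]
      calc ENNReal.ofReal |(M.u j ^ k * f x).im|
          ≤ ENNReal.ofReal ‖f (x + (M.ell j x : ℂ) * v) - f x‖ := by
            refine ENNReal.ofReal_le_ofReal ?_
            have h2 := Complex.abs_im_le_norm
              (M.u j ^ k * (f (x + (M.ell j x : ℂ) * v) - f x))
            rw [norm_mul, hnu, one_mul, mul_sub, Complex.sub_im, h0, zero_sub, abs_neg] at h2
            exact h2
        _ ≤ _ := by
            rw [ofReal_norm]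
            refine (seg hf hl.le fun s hs => hin s (Ioo_subset_Ico_self hs)).trans ?_
            exact mul_le_mul_right (lintegral_mono_set hsub) _
    have e0 : ∫⁻ x in M.dom, ENNReal.ofReal |(M.u j ^ k * c).im| ≤
        (∫⁻ x in M.dom, ENNReal.ofReal |(M.u j ^ k * f x).im|) +
          ∫⁻ x in M.dom, ‖f x - h' x‖ₑ := by
      have hm3 : Measurable fun y => ‖f y - h' y‖ₑ := (hf.continuous.measurable.sub hmeas).enorm
      rw [← lintegral_add_right _ hm3]
      refine lintegral_mono_ae ?_
      filter_upwards [hc] with x hx'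
      rw [hx', ← ofReal_norm, ← ENNReal.ofReal_add (abs_nonneg _) (norm_nonneg _)]
      refine ENNReal.ofReal_le_ofReal ?_
      have h2 := Complex.abs_im_le_norm (M.u j ^ k * (f x - c))
      rw [norm_mul, hnu, one_mul, mul_sub, Complex.sub_im] at h2
      have := abs_sub_abs_le_abs_sub ((M.u j ^ k * c).im) ((M.u j ^ k * f x).im)
      rw [abs_sub_comm] at h2
      linarith
    have e1 : ∫⁻ x in M.dom, ENNReal.ofReal |(M.u j ^ k * f x).im| ≤
        ENNReal.ofReal ‖v‖ * ENNReal.ofReal L * ∫⁻ z, G z := by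
      refine (setLIntegral_mono' hQ hx).trans (le_trans (setLIntegral_le_lintegral _ _) ?_)
      rw [lintegral_const_mul' _ _ ENNReal.ofReal_ne_top, lintegral_segments hGm]
      exact le_of_eq (mul_assoc _ _ _).symm
    rw [← setLIntegral_const]
    refine (e0.trans (add_le_add (e1.trans (mul_le_mul_right hg _)) he)).trans (le_of_eq ?_)
    rw [ENNReal.ofReal_mul (by positivity), ENNReal.ofReal_mul hA0.le]
    ring
  rcases mul_eq_zero.1 hzero' with h0 | h0
  · exact abs_eq_zero.1 (le_antisymm (ENNReal.ofReal_eq_zero.1 h0) (abs_nonneg _))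
  · exact absurd h0 hpos

end Vale.Agent.P099
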