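import Vale.Agent.P099.Table

/-!
# P099: module interfaces
-/

noncomputable section

namespace Vale.Agent.P099

open MeasureTheory Set Complex Filter Topology
open scoped ComplexConjugate

/-- `M` describes the triangle `T`, side by side. -/
def TableOf (T : Triangle) (M : Table) : Prop :=
  M.dom = T.dom ∧
    (∀ j, T.side j = {z | M.ell j z = 0 ∧ ∀ i, i ≠ j → 0 < M.ell i z}) ∧
    (∀ j v, T.reflVel j v = M.rlin j v)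

/-- No nonzero mode is compatible with all reflections. -/
def NoPhase (M : Table) : Prop :=
  ∀ m : ℤ, m ≠ 0 → ∀ c : ℂ, (∀ j, (M.u j ^ m * c).im = 0) → c = 0

def BridgeStmt : Prop :=
  ∀ T : Triangle, ∃ M : Table, TableOf T M ∧ (T.IsIrrational → NoPhase M)

def FlowStmt : Prop :=
  ∀ (T : Triangle) (M : Table), TableOf T M → ∃ D : FlowData M, T.IsBilliardFlow D.Φ ∧
    (∀ Φ' : ℝ → Phase → Phase, T.IsBilliardFlow Φ' → ∀ t, Φ' t =ᵐ[M.m0] D.Φ t) ∧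
    (∀ f : Phase → ℂ, Measurable f → (∃ B, ∀ p, ‖f p‖ ≤ B) →
      Tendsto (fun t => ∫ p, ‖f (D.Φ t p) - f p‖ ^ 2 ∂M.m0) (𝓝 0) (𝓝 0))

def CutStmt : Prop :=
  ∀ (M : Table) (_ : FlowData M), ∃ C > 0, ∀ R T : ℝ, 0 < R → R ≤ T → R ≤ 1 →
    ∃ X : Cut M R (1 / T), M.m0 X.A ≤ ENNReal.ofReal (C * R * T)

/-- The reflection phase of degree `k` on all three closed sides. -/
def EdgePhase (M : Table) (k : ℤ) (f : ℂ → ℂ) : Prop :=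
  ∀ j, ∀ z ∈ closure M.dom, M.ell j z = 0 → (M.u j ^ k * f z).im = 0

def IbpStmt : Prop :=
  ∀ (M : Table) (a : ℤ → ℂ → ℂ), M.Adm a → ∀ (k : ℤ) (b : ℂ → ℂ), ContDiff ℝ 1 b →
    EdgePhase M k b → M.ip (dz (a (k - 1))) b = - M.ip (a (k - 1)) (dzb b)

def DbarStmt : Prop :=
  ∀ (M : Table) (a : ℤ → ℂ → ℂ), M.Adm a → ∀ k, M.nq (dzb (a k)) = M.nq (dz (a k))

def EnergyStmt : Prop :=
  ∀ (M : Table) (lam : ℝ) (v : Fin 2 → ℤ → ℂ → ℂ), (∀ i, M.Adm (v i)) →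
    Summable (M.errTerm lam v) ∧ ∀ k,
      |M.en v (k - 1) + 2 * M.en v k + M.en v (k + 1) - lam ^ 2 * M.mass v k| ≤
          16 * (1 + |lam|) * ∑' l, M.errTerm lam v l ∧
      |M.cpl v (k + 1) + M.cpl v k + lam * M.mass v k| ≤
          16 * (1 + |lam|) * ∑' l, M.errTerm lam v l

def KernelStmt : Prop :=
  ∃ (φ : ℝ → ℂ → ℝ) (C : ℝ), 0 < C ∧ ∀ ε : ℝ, 0 < ε →
    ContDiff ℝ ((⊤ : ℕ∞) : WithTop ℕ∞) (φ ε) ∧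
    (∀ y, ε ≤ ‖y‖ → φ ε y = 0) ∧ (∀ y, 0 ≤ φ ε y) ∧ (∫ y, φ ε y) = 1 ∧
    (∀ ω y : ℂ, ‖ω‖ = 1 → φ ε (ω * conj y) = φ ε y) ∧
    (∫ y, ‖fderiv ℝ (φ ε) y‖) ≤ C / ε

/-- Bounded measurable, supported in a bounded position range. -/
def NiceFn (G : Phase → ℝ) : Prop :=
  Measurable G ∧ (∃ B, ∀ p, |G p| ≤ B) ∧ ∃ R, ∀ p : Phase, R ≤ ‖p.1‖ → G p = 0

/-- A smooth compactly supported kernel. -/
def NiceKer (ψ : ℂ → ℂ) : Prop :=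
  ContDiff ℝ ((⊤ : ℕ∞) : WithTop ℕ∞) ψ ∧ HasCompactSupport ψ

/-- The derivative of the kernel along the moving direction, applied to `G`. -/
def smDir (ψ : ℂ → ℂ) (G : Phase → ℝ) (p : Phase) : ℂ :=
  ∫ w, fderiv ℝ ψ (p.1 - w) (vec p.2) * (G (w, p.2) : ℂ)

def SmodeStmt : Prop :=
  ∀ (ψ : ℂ → ℂ) (G : Phase → ℝ) (k : ℤ), NiceKer ψ → NiceFn G →
    ContDiff ℝ 2 (smode ψ G k) ∧ dz (smode ψ G k) = smode (dz ψ) G k ∧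
    dzb (smode ψ G k) = smode (dzb ψ) G k ∧
    (∀ z, smode ψ G k z = mode (sm ψ G) k z) ∧
    (∀ z, smode (dz ψ) G (k - 1) z + smode (dzb ψ) G (k + 1) z = mode (smDir ψ G) k z)

def ModeBoundStmt : Prop :=
  ∀ (M : Table),
    (∀ h : Phase → ℂ, Measurable h → (∃ B, ∀ p, ‖h p‖ ≤ B) →
      M.NLe (mode h) (∫ p, ‖h p‖ ^ 2 ∂M.m0)) ∧
    (∀ (ψ : ℂ → ℂ) (G : Phase → ℝ), NiceKer ψ → NiceFn G →
      M.NLe (smode ψ G) ((∫ y, ‖ψ y‖) ^ 2 * ∫ p, G p ^ 2 ∂(volume.prod unifDir)) ∧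
      (∫ p, (∫ w, ‖ψ (p.1 - w)‖ * |G (w, p.2)|) ^ 2 ∂M.m0) ≤
        (∫ y, ‖ψ y‖) ^ 2 * ∫ p, G p ^ 2 ∂(volume.prod unifDir)) ∧
    (∀ (φ : ℝ → ℂ → ℝ), (∀ ε : ℝ, 0 < ε → Continuous (φ ε) ∧ (∀ y, 0 ≤ φ ε y) ∧
          (∀ y, ε ≤ ‖y‖ → φ ε y = 0) ∧ (∫ y, φ ε y) = 1) →
      ∀ G : Phase → ℝ, NiceFn G → ∀ η > 0, ∃ ε0 > 0, ∀ ε, 0 < ε → ε < ε0 →
        M.NLe (fun k z => smode (fun y => (φ ε y : ℂ)) G k z - modeR G k z) η)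

/-- Kernel of reflection degree `p`, supported in the `ε`-ball. -/
def RefKer (M : Table) (ε : ℝ) (p : ℤ) (ψ : ℂ → ℂ) : Prop :=
  Continuous ψ ∧ (∀ y, ε ≤ ‖y‖ → ψ y = 0) ∧
    ∀ j y, ψ (M.rlin j y) = M.u j ^ (-2 * p) * conj (ψ y)

def ReflectStmt : Prop :=
  ∀ M : Table, ∃ K ε0 : ℝ, 1 ≤ K ∧ 0 < ε0 ∧ ∀ ε, 0 < ε → ε < ε0 →
    ∀ h : Phase → ℝ, Measurable h → (∃ B, ∀ p, |h p| ≤ B) →
      (∀ (p : ℤ) (ψ : ℂ → ℂ), RefKer M ε p ψ → ∀ k j, ∀ z ∈ closure M.dom,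
        M.ell j z = 0 → ¬ M.Near (K * ε) z →
          (M.u j ^ (k + p) * smode ψ (M.ext h) k z).im = 0) ∧
      ((∀ q : Phase, M.Near ((K + 12) * ε) q.1 → h q = 0) →
        ∀ ψ : ℂ → ℂ, Continuous ψ → (∀ y, ε ≤ ‖y‖ → ψ y = 0) →
          ∀ z ∈ closure M.dom, M.Near (K * ε) z →
            (∀ k, smode ψ (M.ext h) k z = 0) ∧
              ∀ θ, ∀ w, ‖z - w‖ < ε → M.ext h (w, θ) = 0)

def KerRefStmt : Prop :=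
  ∀ (M : Table) (ε : ℝ) (φ : ℂ → ℝ), 0 < ε → ContDiff ℝ ((⊤ : ℕ∞) : WithTop ℕ∞) φ →
    (∀ y, ε ≤ ‖y‖ → φ y = 0) → (∀ ω y : ℂ, ‖ω‖ = 1 → φ (ω * conj y) = φ y) →
    let ψ : ℂ → ℂ := fun y => (φ y : ℂ)
    (NiceKer ψ ∧ RefKer M ε 0 ψ) ∧ (NiceKer (dz ψ) ∧ RefKer M ε 1 (dz ψ)) ∧
      (NiceKer (dzb ψ) ∧ RefKer M ε (-1) (dzb ψ)) ∧ dz (dzb ψ) = dzb (dz ψ) ∧
      (∀ y, ‖dz ψ y‖ ≤ ‖fderiv ℝ φ y‖) ∧ (∀ y, ‖dzb ψ y‖ ≤ ‖fderiv ℝ φ y‖)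

/-- The pair multiplied by `1 - W`. -/
def cutPair {M : Table} {R L : ℝ} (X : Cut M R L) (F : Fin 2 → Phase → ℝ) (i : Fin 2)
    (p : Phase) : ℝ :=
  F i p * (1 - X.W p)

def StepBoundStmt : Prop :=
  ∀ M : Table, ∃ K ε0 : ℝ, 1 ≤ K ∧ 0 < ε0 ∧ ∀ ε, 0 < ε → ε < ε0 →
    ∀ (lam : ℝ) (F : Fin 2 → Phase → ℝ) (B : ℝ), EigenPair M lam F →
      (∀ i p, |F i p| ≤ B) → ∀ (R L : ℝ) (X : Cut M R L), K * ε ≤ R → 0 ≤ L →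
        ∀ ψ : ℂ → ℂ, NiceKer ψ → (∀ y, ε ≤ ‖y‖ → ψ y = 0) →
          ∀ᵐ θ ∂unifDir, ∀ z ∈ closure M.dom, ∀ i : Fin 2,
            ‖smDir ψ (M.ext (cutPair X F i)) (z, θ) +
                ((![lam, -lam] i : ℝ) : ℂ) * sm ψ (M.ext (cutPair X F (1 - i))) (z, θ)‖ ≤
              8 * B * L * ∫ w, ‖ψ (z - w)‖ * |M.ext (X.A.indicator 1) (w, θ)|

/-- Bounds for the approximants with parameters `c` and `ε`. -/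
def FamBounds (M : Table) (lam : ℝ) (F : Fin 2 → Phase → ℝ) (C c η ε : ℝ)
    (v : Fin 2 → ℤ → ℂ → ℂ) : Prop :=
  ∀ i, M.Adm (v i) ∧
    M.NLe (fun k z => v i k z - modeR (F i) k z) (C * c + η) ∧
    M.NLe (v i) C ∧
    M.NLe (fun k => dz (v i k)) (C / ε ^ 2) ∧
    M.NLe (Table.gen lam v i) (C * ε ^ 2 / c) ∧
    M.NLe (fun k => dzb (Table.gen lam v i k)) (C / c)

def FamilyStmt : Prop :=
  ∀ (M : Table) (_ : FlowData M) (lam : ℝ) (F : Fin 2 → Phase → ℝ), EigenPair M lam F →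
    ∃ C > 0, ∀ c, 0 < c → c ≤ 1 → ∀ η > 0, ∃ ε0 > 0, ∀ ε, 0 < ε → ε < ε0 →
      ∃ v, FamBounds M lam F C c η ε v

/-- Approximation by admissible families with vanishing error. -/
def Approximable (M : Table) (lam : ℝ) (F : Fin 2 → Phase → ℝ) : Prop :=
  ∀ δ > 0, ∃ v : Fin 2 → ℤ → ℂ → ℂ, (∀ i, M.Adm (v i)) ∧
    (∀ i k, M.nq (fun z => v i k z - modeR (F i) k z) ≤ δ) ∧
    Summable (M.errTerm lam v) ∧ ∑' k, M.errTerm lam v k ≤ δ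

def AvgStmt : Prop :=
  ∀ (M : Table) (lam : ℝ) (F : Fin 2 → Phase → ℝ) (C : ℝ), 0 < C →
    (∀ i, Measurable (F i)) → (∃ B, ∀ i p, |F i p| ≤ B) →
    (∀ c, 0 < c → c ≤ 1 → ∀ η > 0, ∃ ε0 > 0, ∀ ε, 0 < ε → ε < ε0 →
      ∃ v, FamBounds M lam F C c η ε v) →
    Approximable M lam F

def ConstStmt : Prop :=
  ∀ (M : Table) (k : ℤ) (h : ℂ → ℂ), MemLp h 2 (volume.restrict M.dom) →
    (∀ δ > 0, ∃ f : ℂ → ℂ, ContDiff ℝ 2 f ∧ EdgePhase M k f ∧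
      M.nq (fun z => f z - h z) ≤ δ ∧ M.nq (dz f) ≤ δ ∧ M.nq (dzb f) ≤ δ) →
    ∃ c : ℂ, (∀ᵐ z ∂(volume.restrict M.dom), h z = c) ∧ ∀ j, (M.u j ^ k * c).im = 0

def EigenZeroStmt : Prop :=
  ∀ (M : Table) (lam : ℝ) (F : Fin 2 → Phase → ℝ), EigenPair M lam F → lam ≠ 0 →
    Approximable M lam F → ∀ i, ∀ᵐ p ∂M.m0, F i p = 0

def InvConstStmt : Prop :=
  ∀ (M : Table) (F : Fin 2 → Phase → ℝ), EigenPair M 0 F → NoPhase M →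
    Approximable M 0 F → ∀ i, ∃ c : ℝ, ∀ᵐ p ∂M.m0, F i p = c

def SpectralStmt : Prop :=
  ∀ (α : Type) (_ : MeasurableSpace α) (m : Measure α) (_ : IsProbabilityMeasure m)
    (Φ : ℝ → α → α), (∀ p, Φ 0 p = p) → (∀ s t p, Φ (s + t) p = Φ s (Φ t p)) →
    (∀ t, MeasurePreserving (Φ t) m m) →
    (∀ f : α → ℂ, Measurable f → (∃ B, ∀ p, ‖f p‖ ≤ B) →
      Tendsto (fun t => ∫ p, ‖f (Φ t p) - f p‖ ^ 2 ∂m) (𝓝 0) (𝓝 0)) →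
    IsErgodicFlow m Φ →
    (∀ (lam : ℝ) (f : α → ℂ), lam ≠ 0 → Measurable f → (∃ B, ∀ p, ‖f p‖ ≤ B) →
      (∀ t, ∀ᵐ p ∂m, f (Φ t p) = Complex.exp ((lam * t : ℝ) * Complex.I) * f p) →
      f =ᵐ[m] 0) →
    IsWeaklyMixingFlow m Φ

end Vale.Agent.P099
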