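import Mathlib
import Vale.Agent.P099.Spec

/-!
# P099: the cutoff near the vertices, slowly varying along the flow

`W p` is the supremum of `1 - |r| / T` over the rational times `r` at which the orbit of `p` is
within `2R` of a vertex. The set of orbits visiting a vertex within time `2T` is covered by
`O(T / R)` preimages of a neighbourhood of area `O(R²)`.
-/

noncomputable section

namespace Vale.Agent.P099

open MeasureTheory Set Complex Metric
open scoped ComplexConjugate

variable {M : Table}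

lemma Table.eq_of_ell {i j : Fin 3} (hij : i ≠ j) {v w : ℂ} (hvi : M.ell i v = 0)
    (hvj : M.ell j v = 0) (hwi : M.ell i w = 0) (hwj : M.ell j w = 0) : v = w := by
  have key : ∀ k, M.ell k v = 0 → M.ell k w = 0 →
      (v - w).im * Real.cos (M.β k) - (v - w).re * Real.sin (M.β k) = 0 := by
    intro k h1 h2
    simp only [Table.ell, Table.u, Complex.mul_im, Complex.conj_re, Complex.conj_im,
      Complex.exp_ofReal_mul_I_re, Complex.exp_ofReal_mul_I_im] at h1 h2
    rw [Complex.sub_im, Complex.sub_re]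
    linarith
  have h1 := key i hvi hwi
  have h2 := key j hvj hwj
  have hs : Real.sin (M.β i) * Real.cos (M.β j) - Real.cos (M.β i) * Real.sin (M.β j) ≠ 0 := by
    rw [← Real.sin_sub]; exact M.sin_ne i j hij
  have hre : (v - w).re *
      (Real.sin (M.β i) * Real.cos (M.β j) - Real.cos (M.β i) * Real.sin (M.β j)) = 0 := by
    linear_combination (-Real.cos (M.β j)) * h1 + Real.cos (M.β i) * h2
  have him : (v - w).im *
      (Real.sin (M.β i) * Real.cos (M.β j) - Real.cos (M.β i) * Real.sin (M.β j)) = 0 := by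
    linear_combination (-Real.sin (M.β j)) * h1 + Real.sin (M.β i) * h2
  rw [← sub_eq_zero]
  exact Complex.ext ((mul_eq_zero.1 hre).resolve_right hs) ((mul_eq_zero.1 him).resolve_right hs)

/-- The intersection point of two lines (junk if there is none). -/
def Table.meet (M : Table) (ij : Fin 3 × Fin 3) : ℂ :=
  Classical.epsilon fun v => M.ell ij.1 v = 0 ∧ M.ell ij.2 v = 0

lemma Table.near_subset (R : ℝ) :
    {z | M.Near R z} ⊆ ⋃ ij : Fin 3 × Fin 3, ball (M.meet ij) R := by
  rintro z ⟨i, j, hij, v, hi, hj, hd⟩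
  refine mem_iUnion.2 ⟨(i, j), ?_⟩
  have hm := Classical.epsilon_spec
    (p := fun v => M.ell i v = 0 ∧ M.ell j v = 0) ⟨v, hi, hj⟩
  rw [mem_ball, show M.meet (i, j) = v from (M.eq_of_ell hij hm.1 hm.2 hi hj)]
  exact hd

lemma Table.near_mono {R R' : ℝ} (h : R ≤ R') {z : ℂ} : M.Near R z → M.Near R' z :=
  fun ⟨i, j, hij, v, hi, hj, hd⟩ => ⟨i, j, hij, v, hi, hj, hd.trans_le h⟩

lemma Table.near_of_dist {R d : ℝ} {z z' : ℂ} (hd : dist z' z ≤ d) :
    M.Near R z → M.Near (R + d) z' :=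
  fun ⟨i, j, hij, v, hi, hj, h⟩ => ⟨i, j, hij, v, hi, hj,
    (dist_triangle z' z v).trans_lt (by linarith)⟩

lemma Table.isOpen_near (R : ℝ) : IsOpen {z | M.Near R z} := by
  have : {z | M.Near R z} =
      ⋃ (v : ℂ) (_ : ∃ i j, i ≠ j ∧ M.ell i v = 0 ∧ M.ell j v = 0), ball v R := by
    ext z
    simp only [Table.Near, mem_ofPred_eq, mem_iUnion, mem_ball, exists_prop]
    constructor
    · rintro ⟨i, j, hij, v, hi, hj, h⟩; exact ⟨v, ⟨i, j, hij, hi, hj⟩, h⟩
    · rintro ⟨v, ⟨i, j, hij, hi, hj⟩, h⟩; exact ⟨i, j, hij, v, hi, hj, h⟩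
  rw [this]
  exact isOpen_iUnion fun v => isOpen_iUnion fun _ => isOpen_ball

lemma Table.m0_near_le (R : ℝ) :
    M.m0 {p : Phase | M.Near R p.1} ≤
      9 * (ENNReal.ofReal R ^ 2 * ENNReal.ofReal Real.pi) := by
  have hset : {p : Phase | M.Near R p.1} = {z | M.Near R z} ×ˢ (univ : Set Dir) := by ext p; simp
  rw [hset, Table.m0, Measure.prod_prod, measure_univ, mul_one]
  refine (Measure.restrict_apply_le _ _).trans ((measure_mono (M.near_subset R)).trans
    ((measure_iUnion_fintype_le _ _).trans ?_))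
  simp only [Complex.volume_ball, ← NNReal.coe_real_pi, ENNReal.ofReal_coe_nnreal]
  simp

section
variable (D : FlowData M) (R T : ℝ)

/-- The weight of a visit at time `s`. -/
def visitWt (s : ℝ) : ℝ := max 0 (1 - |s| / T)

/-- One term of the cutoff. -/
def cutTerm (r : ℚ) (p : Phase) : ℝ :=
  (D.Φ r ⁻¹' {p | M.Near (2 * R) p.1}).indicator (fun _ => visitWt T r) p

/-- The cutoff. -/
def cutW (p : Phase) : ℝ := ⨆ r : ℚ, cutTerm D R T r p

variable {D R T}

lemma visitWt_mem (hT : 0 < T) (s : ℝ) : visitWt T s ∈ Icc (0:ℝ) 1 :=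
  ⟨le_max_left _ _, max_le zero_le_one (by
    have : 0 ≤ |s| / T := by positivity
    linarith)⟩

lemma visitWt_le (hT : 0 < T) (s s' : ℝ) : visitWt T s ≤ visitWt T s' + |s' - s| / T := by
  have h0 : 0 ≤ |s' - s| / T := by positivity
  refine max_le (add_nonneg (le_max_left _ _) h0) ?_
  have : |s'| / T ≤ |s| / T + |s' - s| / T := by
    rw [← add_div]
    exact div_le_div_of_nonneg_right (by linarith [abs_sub_abs_le_abs_sub s' s]) hT.le
  linarith [le_max_right 0 (1 - |s'| / T), show visitWt T s' = max 0 (1 - |s'| / T) from rfl]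

lemma cutTerm_mem (hT : 0 < T) (r : ℚ) (p : Phase) : cutTerm D R T r p ∈ Icc (0:ℝ) 1 := by
  rw [cutTerm]
  by_cases h : p ∈ D.Φ r ⁻¹' {p | M.Near (2 * R) p.1}
  · rw [indicator_of_mem h]; exact visitWt_mem hT _
  · rw [indicator_of_notMem h]; exact ⟨le_rfl, zero_le_one⟩

lemma le_cutW (hT : 0 < T) (r : ℚ) (p : Phase) : cutTerm D R T r p ≤ cutW D R T p :=
  le_ciSup (f := fun r => cutTerm D R T r p)
    ⟨1, by rintro _ ⟨r, rfl⟩; exact (cutTerm_mem hT r p).2⟩ r

lemma cutW_mem (hT : 0 < T) (p : Phase) : cutW D R T p ∈ Icc (0:ℝ) 1 :=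
  ⟨(cutTerm_mem hT 0 p).1.trans (le_cutW hT 0 p), ciSup_le fun r => (cutTerm_mem hT r p).2⟩

/-- Every real visiting time counts. -/
lemma visitWt_le_cutW (hT : 0 < T) {s : ℝ} {p : Phase} (h : M.Near (2 * R) (D.Φ s p).1) :
    visitWt T s ≤ cutW D R T p := by
  refine le_of_forall_pos_le_add fun δ hδ => ?_
  have hc : Continuous fun s => (D.Φ s p).1 :=
    (LipschitzWith.of_dist_le_mul (K := 1) fun s t => by
      simpa [Real.dist_eq] using D.lip p s t).continuous
  have ho : IsOpen {u : ℝ | M.Near (2 * R) (D.Φ u p).1} := (M.isOpen_near _).preimage hc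
  obtain ⟨η, hη, hball⟩ := Metric.isOpen_iff.1 ho s h
  have hm : 0 < min η (δ * T) := lt_min hη (mul_pos hδ hT)
  obtain ⟨r, hr1, hr2⟩ := exists_rat_btwn (show s < s + min η (δ * T) by linarith)
  have hd : |(r:ℝ) - s| < min η (δ * T) := by
    rw [abs_of_nonneg (by linarith : (0:ℝ) ≤ r - s)]; linarith
  have hmem : p ∈ D.Φ r ⁻¹' {p | M.Near (2 * R) p.1} :=
    hball (show (r:ℝ) ∈ Metric.ball s η by
      rw [Metric.mem_ball, Real.dist_eq]; exact hd.trans_le (min_le_left _ _))
  have h1 := le_cutW (D := D) (R := R) hT r p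
  rw [cutTerm, indicator_of_mem hmem] at h1
  have h2 := visitWt_le hT s (r:ℝ)
  have h3 : |(r:ℝ) - s| / T ≤ δ := (div_le_iff₀ hT).2 (hd.le.trans (min_le_right _ _))
  linarith

/-- The cutoff changes at speed at most `1 / T` along orbits. -/
lemma cutW_le_add (hT : 0 < T) (t : ℝ) (p : Phase) :
    cutW D R T (D.Φ t p) ≤ cutW D R T p + |t| / T := by
  refine ciSup_le fun r => ?_
  by_cases h : D.Φ t p ∈ D.Φ r ⁻¹' {p | M.Near (2 * R) p.1}
  · rw [cutTerm, indicator_of_mem h]
    rw [mem_preimage, ← D.group] at h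
    have h1 := visitWt_le_cutW hT h
    have h2 := visitWt_le hT (r:ℝ) ((r:ℝ) + t)
    rw [add_sub_cancel_left] at h2
    linarith
  · rw [cutTerm, indicator_of_notMem h]
    exact add_nonneg (cutW_mem hT p).1 (by positivity)

lemma exists_visit_of_cutW_ne (hT : 0 < T) {p : Phase} (h : cutW D R T p ≠ 0) :
    ∃ r : ℝ, |r| < T ∧ M.Near (2 * R) (D.Φ r p).1 := by
  by_contra hno
  push Not at hno
  refine h (le_antisymm (ciSup_le fun r => ?_) (cutW_mem hT p).1)
  by_cases hm : p ∈ D.Φ r ⁻¹' {p | M.Near (2 * R) p.1}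
  · rw [cutTerm, indicator_of_mem hm]
    have : T ≤ |(r:ℝ)| := not_lt.1 fun hlt => hno r hlt hm
    rw [visitWt, max_eq_left]
    rw [sub_nonpos, le_div_iff₀ hT]
    linarith
  · rw [cutTerm, indicator_of_notMem hm]

/-- The grid times covering `[-2T, 2T]`. -/
def grid (R T : ℝ) : Finset ℤ := Finset.Icc (-(⌈2 * T / R⌉ + 1)) (⌈2 * T / R⌉ + 1)

/-- The orbits visiting a neighbourhood of the vertices near a grid time. -/
def cutA (D : FlowData M) (R T : ℝ) : Set Phase :=
  ⋃ i ∈ grid R T, D.Φ ((i:ℝ) * R) ⁻¹' {p | M.Near (4 * R) p.1}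

lemma mem_cutA (hR : 0 < R) {p : Phase} {s : ℝ} (hs : |s| ≤ 2 * T)
    (h : M.Near (2 * R) (D.Φ s p).1) : p ∈ cutA D R T := by
  set i := ⌊s / R⌋
  have h1 : (i:ℝ) ≤ s / R := Int.floor_le _
  have h2 : s / R < i + 1 := Int.lt_floor_add_one _
  rw [le_div_iff₀ hR] at h1
  rw [div_lt_iff₀ hR] at h2
  have h3 := abs_le.1 hs
  have hup : i ≤ ⌈2 * T / R⌉ + 1 := by
    have : s / R ≤ 2 * T / R := div_le_div_of_nonneg_right h3.2 hR.le
    have := (Int.floor_mono this).trans (Int.floor_le_ceil _)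
    omega
  have hlo : -(⌈2 * T / R⌉ + 1) ≤ i := by
    refine Int.le_floor.2 ?_
    have := div_le_div_of_nonneg_right h3.1 hR.le
    rw [neg_div] at this
    push_cast
    linarith [Int.le_ceil (2 * T / R)]
  refine mem_iUnion₂.2 ⟨i, Finset.mem_Icc.2 ⟨hlo, hup⟩, M.near_mono (by linarith)
    (M.near_of_dist (d := R) ((D.lip p _ s).trans ?_) h)⟩
  rw [abs_le]; constructor <;> nlinarith

lemma m0_cutA_le (hR : 0 < R) (hRT : R ≤ T) :
    M.m0 (cutA D R T) ≤ ENNReal.ofReal (1584 * Real.pi * R * T) := by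
  refine (measure_biUnion_finset_le _ _).trans ?_
  have hS : MeasurableSet {p : Phase | M.Near (4 * R) p.1} :=
    ((M.isOpen_near _).preimage continuous_fst).measurableSet
  simp only [(D.pres _).measure_preimage hS.nullMeasurableSet, Finset.sum_const, nsmul_eq_mul]
  refine (mul_le_mul' le_rfl (M.m0_near_le (4 * R))).trans ?_
  have hcard : ((grid R T).card : ℝ) ≤ 11 * (T / R) := by
    have h0 : (0:ℤ) ≤ ⌈2 * T / R⌉ := Int.ceil_nonneg (by have := hR.trans_le hRT; positivity)
    have hc : (((grid R T).card : ℤ) : ℝ) = ((2 * ⌈2 * T / R⌉ + 3 : ℤ) : ℝ) := by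
      congr 1
      rw [grid, Int.card_Icc, Int.toNat_of_nonneg (by omega)]
      ring
    push_cast at hc
    rw [hc]
    have := Int.ceil_lt_add_one (2 * T / R)
    rw [mul_div_assoc] at this ⊢
    have : 1 ≤ T / R := (one_le_div hR).2 hRT
    linarith
  rw [← ENNReal.ofReal_natCast, ← ENNReal.ofReal_pow (by linarith),
    ← ENNReal.ofReal_mul (sq_nonneg _), ← ENNReal.ofReal_ofNat 9,
    ← ENNReal.ofReal_mul (by norm_num), ← ENNReal.ofReal_mul (Nat.cast_nonneg _)]
  refine ENNReal.ofReal_le_ofReal ((mul_le_mul_of_nonneg_right hcard (by positivity)).trans_eq ?_)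
  field_simp
  ring

end

/-- Cutoffs with small support exist. -/
theorem cutStmt_holds : CutStmt := by
  intro M D
  refine ⟨1584 * Real.pi, by positivity, fun R T hR hRT _ => ?_⟩
  have hT : 0 < T := hR.trans_le hRT
  have hoff : ∀ p, p ∉ cutA D R T → cutW D R T p = 0 := fun p hp => by
    by_contra h
    obtain ⟨r, hr, hn⟩ := exists_visit_of_cutW_ne hT h
    exact hp (mem_cutA hR (by linarith) hn)
  refine ⟨⟨cutW D R T, cutA D R T, ?_, ?_, cutW_mem hT, fun p hp => ?_, hoff, fun t ht => ?_⟩,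
    m0_cutA_le hR hRT⟩
  · refine Measurable.iSup fun r => ?_
    exact measurable_const.indicator
      ((D.pres _).measurable ((M.isOpen_near _).preimage continuous_fst).measurableSet)
  · exact Finset.measurableSet_biUnion _ fun i _ =>
      (D.pres _).measurable ((M.isOpen_near _).preimage continuous_fst).measurableSet
  · refine le_antisymm (cutW_mem hT p).2 ?_
    have h0 : M.Near (2 * R) (D.Φ 0 p).1 := by
      rw [D.zero]; exact M.near_mono (by linarith) hp
    simpa [visitWt] using visitWt_le_cutW hT h0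
  · filter_upwards [D.step] with p hp q hq
    rw [← hp t q hq]
    refine ⟨?_, fun hne => ?_⟩
    · rw [abs_le, one_div_mul_eq_div]
      have h1 := cutW_le_add (D := D) (R := R) hT t p
      have h2 := cutW_le_add (D := D) (R := R) hT (-t) (D.Φ t p)
      rw [← D.group, neg_add_cancel, D.zero, abs_neg] at h2
      constructor <;> linarith
    · by_contra hpA
      rw [hoff p hpA] at hne
      obtain ⟨r, hr, hn⟩ := exists_visit_of_cutW_ne hT hne
      rw [← D.group] at hn
      exact hpA (mem_cutA hR ((abs_add_le r t).trans (by linarith)) hn)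

end Vale.Agent.P099
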