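import Mathlib

/-!
# P099: statement level definitions for billiards in triangles

Phase space `ℂ × Dir`, `Dir = ℝ / 2πℤ`; measure area × uniform, normalised on the triangle.
-/

noncomputable section

namespace Vale.Agent.P099

open MeasureTheory Set
open scoped ComplexConjugate

instance twoPiPos : Fact (0 < 2 * Real.pi) := ⟨Real.two_pi_pos⟩

/-- Directions: angles modulo `2π`. -/
abbrev Dir := AddCircle (2 * Real.pi)

/-- The unit vector `(cos θ, sin θ)`. -/
def vec (θ : Dir) : ℂ := (AddCircle.toCircle θ : ℂ)

/-- The phase space: position and direction. -/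
abbrev Phase := ℂ × Dir

/-- The uniform probability measure on directions. -/
abbrev unifDir : Measure Dir := AddCircle.haarAddCircle

/-- A nondegenerate triangle in the plane. -/
structure Triangle where
  A : ℂ
  B : ℂ
  C : ℂ
  nondeg : ¬ Collinear ℝ ({A, B, C} : Set ℂ)

namespace Triangle

variable (T : Triangle)

/-- The three vertices. -/
def vertex : Fin 3 → ℂ := ![T.A, T.B, T.C]

/-- The open domain. -/
def dom : Set ℂ := interior (convexHull ℝ (Set.range T.vertex))

/-- The open side from vertex `j` to vertex `j + 1`. -/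
def side (j : Fin 3) : Set ℂ := openSegment ℝ (T.vertex j) (T.vertex (j + 1))

/-- The linear reflection in the direction of side `j`. -/
def reflVel (j : Fin 3) (v : ℂ) : ℂ :=
  (T.vertex (j + 1) - T.vertex j) / conj (T.vertex (j + 1) - T.vertex j) * conj v

/-- `dA dθ / (2π Area)` on the domain times the circle of directions. -/
def μ : Measure Phase := (volume T.dom)⁻¹ • ((volume.restrict T.dom).prod unifDir)

/-- Some interior angle is an irrational multiple of `π`. -/
def IsIrrational : Prop :=
  Irrational (EuclideanGeometry.angle T.B T.A T.C / Real.pi) ∨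
  Irrational (EuclideanGeometry.angle T.A T.B T.C / Real.pi) ∨
  Irrational (EuclideanGeometry.angle T.A T.C T.B / Real.pi)

/-- At time `t` the trajectory `γ` is either moving straight inside the domain, or is on an
open side and reflects specularly there. -/
def GoodAt (γ : ℝ → Phase) (t : ℝ) : Prop :=
  ((γ t).1 ∈ T.dom ∧ ∃ δ > 0, ∀ s : ℝ, |s| < δ →
      γ (t + s) = ((γ t).1 + (s : ℂ) * vec (γ t).2, (γ t).2)) ∨
  (∃ (j : Fin 3) (θin θout : Dir), (γ t).1 ∈ T.side j ∧
      vec θout = T.reflVel j (vec θin) ∧
      ∃ δ > 0, ∀ s : ℝ, 0 < s → s < δ →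
        (γ (t - s) = ((γ t).1 - (s : ℂ) * vec θin, θin) ∧ (γ (t - s)).1 ∈ T.dom) ∧
        (γ (t + s) = ((γ t).1 + (s : ℂ) * vec θout, θout) ∧ (γ (t + s)).1 ∈ T.dom))

/-- `Φ` is a billiard flow: off a null set of initial conditions, every orbit starts where it
should, has continuous position and is straight or specularly reflected at all times
(in particular it never meets a vertex). -/
def IsBilliardFlow (Φ : ℝ → Phase → Phase) : Prop :=
  ∃ Ω : Set Phase, MeasurableSet Ω ∧ T.μ Ωᶜ = 0 ∧
    ∀ p ∈ Ω, p.1 ∈ T.dom ∧ Φ 0 p = p ∧ Continuous (fun t => (Φ t p).1) ∧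
      ∀ t, T.GoodAt (fun r => Φ r p) t

end Triangle

/-- Invariant sets (mod null sets, for every time) have measure 0 or 1. -/
def IsErgodicFlow {α : Type*} [MeasurableSpace α] (m : Measure α) (Φ : ℝ → α → α) : Prop :=
  ∀ S : Set α, MeasurableSet S → (∀ t : ℝ, m (symmDiff (Φ t ⁻¹' S) S) = 0) →
    m S = 0 ∨ m S = 1

/-- The product flow is ergodic for the product measure. -/
def IsWeaklyMixingFlow {α : Type*} [MeasurableSpace α] (m : Measure α) (Φ : ℝ → α → α) : Prop :=
  IsErgodicFlow (m.prod m) (fun t p => (Φ t p.1, Φ t p.2))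

end Vale.Agent.P099
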