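import Vale.Agent.P099.Spec

/-!
# P099: the energy of the modes is constant along the chain

For a smooth admissible pair the quantity `E (k-1) + 2 E k + E (k+1) - lam ^ 2 a k` has increments
controlled by the error terms and tends to zero at infinity.
-/

noncomputable section

namespace Vale.Agent.P099

open MeasureTheory Set Complex Filter Topology
open scoped ComplexConjugate

namespace Table

variable {M : Table}

/-- Continuous functions are integrable on the domain. -/
lemma integrableOn_dom_of_continuous {h : ℂ → ℝ} (hh : Continuous h) :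
    IntegrableOn h M.dom :=
  (hh.continuousOn.integrableOn_compact (Bornology.IsBounded.isCompact_closure M.bounded)).mono_set
    subset_closure

lemma continuous_ip_integrand {f g : ℂ → ℂ} (hf : Continuous f) (hg : Continuous g) :
    Continuous fun z => (conj (f z) * g z).re :=
  Complex.continuous_re.comp ((Complex.continuous_conj.comp hf).mul hg)

lemma ip_symm (f g : ℂ → ℂ) : M.ip f g = M.ip g f := by
  refine integral_congr_ae (Eventually.of_forall fun z => ?_)
  simp only [mul_re, conj_re, conj_im]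
  ring

lemma nq_eq_ip (f : ℂ → ℂ) : M.nq f = M.ip f f := by
  refine integral_congr_ae (Eventually.of_forall fun z => ?_)
  show ‖f z‖ ^ 2 = (conj (f z) * f z).re
  rw [← Complex.normSq_eq_norm_sq, Complex.normSq_apply]
  simp only [mul_re, conj_re, conj_im]
  ring

lemma nq_nonneg' (f : ℂ → ℂ) : 0 ≤ M.nq f := integral_nonneg fun _ => sq_nonneg _

/-- A combination `a + r b + s d` on the right. -/
lemma ip_comb_right {f a b d : ℂ → ℂ} (hf : Continuous f) (ha : Continuous a) (hb : Continuous b)
    (hd : Continuous d) (r s : ℝ) :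
    M.ip f (fun z => a z + (r : ℂ) * b z + (s : ℂ) * d z) =
      M.ip f a + r * M.ip f b + s * M.ip f d := by
  have ia := (integrableOn_dom_of_continuous (M := M) (continuous_ip_integrand hf ha))
  have ib := (integrableOn_dom_of_continuous (M := M) (continuous_ip_integrand hf hb)).const_mul r
  have ic := (integrableOn_dom_of_continuous (M := M) (continuous_ip_integrand hf hd)).const_mul s
  calc M.ip f (fun z => a z + (r : ℂ) * b z + (s : ℂ) * d z)
      = ∫ z in M.dom, (conj (f z) * a z).re + r * (conj (f z) * b z).re +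
          s * (conj (f z) * d z).re := by
        refine integral_congr_ae (Eventually.of_forall fun z => ?_)
        simp only [mul_re, conj_re, conj_im, add_re, add_im, mul_im, ofReal_re, ofReal_im]
        ring
    _ = _ := by
        have iab : Integrable (fun z => (conj (f z) * a z).re + r * (conj (f z) * b z).re)
            (volume.restrict M.dom) := ia.add ib
        rw [integral_add iab ic, integral_add ia ib, integral_const_mul,
          integral_const_mul]
        rfl

/-- The squared norm of a combination. -/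
lemma nq_comb {a b d : ℂ → ℂ} (ha : Continuous a) (hb : Continuous b) (hd : Continuous d)
    (r s : ℝ) :
    M.nq (fun z => a z + (r : ℂ) * b z + (s : ℂ) * d z) =
      M.nq a + r ^ 2 * M.nq b + s ^ 2 * M.nq d + 2 * r * M.ip a b + 2 * s * M.ip a d +
        2 * r * s * M.ip b d := by
  have hc : Continuous fun z => a z + (r : ℂ) * b z + (s : ℂ) * d z :=
    (ha.add (continuous_const.mul hb)).add (continuous_const.mul hd)
  set c := fun z => a z + (r : ℂ) * b z + (s : ℂ) * d z with hcdef
  rw [nq_eq_ip c]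
  nth_rewrite 2 [hcdef]
  rw [ip_comb_right hc ha hb hd, ip_symm c a, ip_symm c b, ip_symm c d, hcdef,
    ip_comb_right ha ha hb hd, ip_comb_right hb ha hb hd, ip_comb_right hd ha hb hd,
    ← nq_eq_ip, ← nq_eq_ip, ← nq_eq_ip, ip_symm b a, ip_symm d a, ip_symm d b]
  ring

/-- The real inner product is controlled by the norms. -/
lemma abs_ip_le {f g : ℂ → ℂ} (hf : Continuous f) (hg : Continuous g) :
    2 * |M.ip f g| ≤ M.nq f + M.nq g := by
  have h : ∀ t : ℝ, t ^ 2 = 1 → 0 ≤ M.nq f + M.nq g + 2 * t * M.ip f g := by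
    intro t ht
    have := nq_nonneg' (M := M) (fun z => f z + (t : ℂ) * g z + ((0 : ℝ) : ℂ) * g z)
    rw [nq_comb hf hg hg, ht] at this
    linarith
  have h1 := h 1 (one_pow 2)
  have h2 := h (-1) (by norm_num)
  rcases abs_choice (M.ip f g) with e | e <;> rw [e] <;> linarith

lemma continuous_dz {f : ℂ → ℂ} (hf : ContDiff ℝ 2 f) : Continuous (dz f) ∧ Continuous (dzb f) := by
  have h : Continuous (fderiv ℝ f) := hf.continuous_fderiv (by norm_num)
  constructor
  · exact ((h.clm_apply continuous_const).sub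
      (continuous_const.mul (h.clm_apply continuous_const))).div_const 2
  · exact ((h.clm_apply continuous_const).add
      (continuous_const.mul (h.clm_apply continuous_const))).div_const 2

end Table

open Table

section Energy

variable {M : Table} {lam : ℝ} {v : Fin 2 → ℤ → ℂ → ℂ} (hv : ∀ i, M.Adm (v i))

include hv

lemma continuous_parts (i : Fin 2) (k : ℤ) :
    Continuous (v i k) ∧ Continuous (dz (v i k)) ∧ Continuous (dzb (v i k)) :=
  ⟨((hv i).smooth k).continuous, continuous_dz ((hv i).smooth k)⟩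

lemma continuous_gen (i : Fin 2) (k : ℤ) : Continuous (gen lam v i k) :=
  (((continuous_parts hv i (k - 1)).2.1).add (continuous_parts hv i (k + 1)).2.2).add
    (continuous_const.mul (continuous_parts hv (1 - i) k).1)

omit hv in
lemma errTerm_nonneg (k : ℤ) : 0 ≤ M.errTerm lam v k :=
  Finset.sum_nonneg fun _ _ =>
    add_nonneg (add_nonneg (abs_nonneg _) (nq_nonneg' _)) (abs_nonneg _)

/-- The error terms are summable. -/
lemma summable_errTerm (hD : DbarStmt) : Summable (M.errTerm lam v) := by
  have hshift : ∀ (d : ℤ) {f : ℤ → ℝ}, Summable f → Summable fun k => f (k + d) :=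
    fun d f hf => hf.comp_injective (add_left_injective d)
  set B : ℤ → ℝ := fun k => ∑ i : Fin 2,
    (M.nq (dz (v i (k - 1))) + M.nq (dz (v i (k + 1))) + M.nq (v (1 - i) k)) with hB
  have hBs : Summable B := summable_sum fun i _ =>
    (((hshift (-1) (hv i).sum1).congr fun k => by rw [← sub_eq_add_neg]).add
      (hshift 1 (hv i).sum1)).add (hv (1 - i)).sum0
  refine Summable.of_nonneg_of_le (errTerm_nonneg) (fun k => ?_)
    (hBs.mul_left (2 + 6 * (1 + lam ^ 2)))
  rw [hB, Finset.mul_sum]
  refine Finset.sum_le_sum fun i _ => ?_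
  have hg := continuous_gen (lam := lam) hv i k
  obtain ⟨-, ha, -⟩ := continuous_parts hv i (k - 1)
  obtain ⟨-, -, hb⟩ := continuous_parts hv i (k + 1)
  obtain ⟨hd, -, -⟩ := continuous_parts hv (1 - i) k
  set s := (![lam, -lam] i : ℝ) with hs
  have hs2 : s ^ 2 = lam ^ 2 := by rw [hs]; fin_cases i <;> simp
  have e : gen lam v i k = fun z => dz (v i (k - 1)) z + ((1 : ℝ) : ℂ) * dzb (v i (k + 1)) z +
      (s : ℂ) * v (1 - i) k z := by
    funext z; simp [gen, hs]
  have hn := nq_comb (M := M) ha hb hd 1 s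
  have h1 := abs_ip_le (M := M) ha hg
  have h2 := abs_ip_le (M := M) hd hg
  have h3 := abs_ip_le (M := M) ha hb
  have h4 := abs_ip_le (M := M) ha hd
  have h5 := abs_ip_le (M := M) hb hd
  rw [← e, hs2, hD M (v i) (hv i) (k + 1)] at hn
  rw [hD M (v i) (hv i) (k + 1)] at h3 h5
  have nA := nq_nonneg' (M := M) (dz (v i (k - 1)))
  have nB := nq_nonneg' (M := M) (dz (v i (k + 1)))
  have nC := nq_nonneg' (M := M) (v (1 - i) k)
  have hsabs : 2 * |s| ≤ 1 + lam ^ 2 := by nlinarith [sq_abs s, sq_nonneg (|s| - 1)]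
  have b3 : 2 * M.ip (dz (v i (k - 1))) (dzb (v i (k + 1))) ≤
      M.nq (dz (v i (k - 1))) + M.nq (dz (v i (k + 1))) :=
    le_trans (by linarith [le_abs_self (M.ip (dz (v i (k - 1))) (dzb (v i (k + 1))))]) h3
  have b4 : 4 * s * M.ip (dz (v i (k - 1))) (v (1 - i) k) ≤
      (1 + lam ^ 2) * (M.nq (dz (v i (k - 1))) + M.nq (v (1 - i) k)) := by
    calc 4 * s * M.ip (dz (v i (k - 1))) (v (1 - i) k)
        ≤ |4 * s * M.ip (dz (v i (k - 1))) (v (1 - i) k)| := le_abs_self _
      _ = 2 * |s| * (2 * |M.ip (dz (v i (k - 1))) (v (1 - i) k)|) := by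
          rw [abs_mul, abs_mul, abs_of_pos (by norm_num : (0 : ℝ) < 4)]; ring
      _ ≤ _ := mul_le_mul hsabs h4 (by positivity) (by positivity)
  have b5 : 4 * s * M.ip (dzb (v i (k + 1))) (v (1 - i) k) ≤
      (1 + lam ^ 2) * (M.nq (dz (v i (k + 1))) + M.nq (v (1 - i) k)) := by
    calc 4 * s * M.ip (dzb (v i (k + 1))) (v (1 - i) k)
        ≤ |4 * s * M.ip (dzb (v i (k + 1))) (v (1 - i) k)| := le_abs_self _
      _ = 2 * |s| * (2 * |M.ip (dzb (v i (k + 1))) (v (1 - i) k)|) := by
          rw [abs_mul, abs_mul, abs_of_pos (by norm_num : (0 : ℝ) < 4)]; ring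
      _ ≤ _ := mul_le_mul hsabs h5 (by positivity) (by positivity)
  nlinarith [sq_nonneg lam, mul_nonneg (sq_nonneg lam) nA, mul_nonneg (sq_nonneg lam) nB,
    mul_nonneg (sq_nonneg lam) nC]

/-- One step of the energy recursion. -/
lemma energy_step (hD : DbarStmt) (k : ℤ) :
    |M.en v (k + 1) - M.en v (k - 1) - lam ^ 2 * M.mass v k - 2 * lam * M.cpl v k| ≤
      (2 + 2 * |lam|) * M.errTerm lam v k := by
  have key : ∀ i : Fin 2, M.nq (dz (v i (k + 1))) =
      M.nq (dz (v i (k - 1))) + M.nq (gen lam v i k) + lam ^ 2 * M.nq (v (1 - i) k) -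
        2 * M.ip (dz (v i (k - 1))) (gen lam v i k) +
        2 * (![lam, -lam] i) * M.ip (dz (v i (k - 1))) (v (1 - i) k) -
        2 * (![lam, -lam] i) * M.ip (v (1 - i) k) (gen lam v i k) := by
    intro i
    have e : dzb (v i (k + 1)) = fun z => gen lam v i k z + ((-1 : ℝ) : ℂ) * dz (v i (k - 1)) z +
        ((-(![lam, -lam] i) : ℝ) : ℂ) * v (1 - i) k z := by
      funext z; simp [gen]; ring
    have hs2 : (-(![lam, -lam] i)) ^ 2 = lam ^ 2 := by fin_cases i <;> simp
    rw [← hD M (v i) (hv i) (k + 1), e, nq_comb (continuous_gen hv i k)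
      (continuous_parts hv i (k - 1)).2.1 (continuous_parts hv (1 - i) k).1, hs2,
      ip_symm (gen lam v i k) (dz (v i (k - 1))), ip_symm (gen lam v i k) (v (1 - i) k)]
    ring
  have k0 := key 0
  have k1 := key 1
  simp only [sub_zero, sub_self, Matrix.cons_val_zero, Matrix.cons_val_one] at k0 k1
  simp only [en, mass, cpl, errTerm, Fin.sum_univ_two, sub_zero, sub_self]
  have n0 := nq_nonneg' (M := M) (gen lam v 0 k)
  have n1 := nq_nonneg' (M := M) (gen lam v 1 k)
  set A₀ := M.ip (dz (v 0 (k - 1))) (gen lam v 0 k)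
  set A₁ := M.ip (dz (v 1 (k - 1))) (gen lam v 1 k)
  set B₀ := M.ip (v 1 k) (gen lam v 0 k)
  set B₁ := M.ip (v 0 k) (gen lam v 1 k)
  rw [k0, k1, abs_le]
  have hl := abs_nonneg lam
  have c0 : |lam * B₀| = |lam| * |B₀| := abs_mul _ _
  have c1 : |lam * B₁| = |lam| * |B₁| := abs_mul _ _
  have h0 := abs_le.1 (le_refl |lam * B₀|)
  have h1 := abs_le.1 (le_refl |lam * B₁|)
  have a0 := abs_le.1 (le_refl |A₀|)
  have a1 := abs_le.1 (le_refl |A₁|)
  constructor <;>
    nlinarith [mul_nonneg hl (abs_nonneg A₀), mul_nonneg hl (abs_nonneg A₁), mul_nonneg hl n0,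
      mul_nonneg hl n1, abs_nonneg B₀, abs_nonneg B₁]

/-- The recursion of the coupling. -/
lemma coupling_step (hI : IbpStmt) (k : ℤ) :
    |M.cpl v (k + 1) + M.cpl v k + lam * M.mass v k| ≤ M.errTerm lam v k := by
  have hibp : ∀ i j : Fin 2,
      M.ip (dz (v i k)) (v j (k + 1)) = - M.ip (v i k) (dzb (v j (k + 1))) := by
    intro i j
    have h := hI M (v i) (hv i) (k + 1) (v j (k + 1))
      (((hv j).smooth _).of_le (by norm_num)) fun q z hz hq => ((hv j).phase (k + 1) q z hz hq).1
    rwa [add_sub_cancel_right] at h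
  have key : ∀ i : Fin 2, M.ip (dz (v (1 - i) k)) (v i (k + 1)) =
      - M.ip (v (1 - i) k) (gen lam v i k) + M.ip (dz (v i (k - 1))) (v (1 - i) k) +
        (![lam, -lam] i) * M.nq (v (1 - i) k) := by
    intro i
    have e : dzb (v i (k + 1)) = fun z => gen lam v i k z + ((-1 : ℝ) : ℂ) * dz (v i (k - 1)) z +
        ((-(![lam, -lam] i) : ℝ) : ℂ) * v (1 - i) k z := by
      funext z; simp [gen]; ring
    rw [hibp, e, ip_comb_right (continuous_parts hv (1 - i) k).1 (continuous_gen hv i k)
      (continuous_parts hv i (k - 1)).2.1 (continuous_parts hv (1 - i) k).1,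
      ip_symm (v (1 - i) k) (dz (v i (k - 1))), ← nq_eq_ip]
    ring
  have k0 := key 0
  have k1 := key 1
  simp only [sub_zero, sub_self, Matrix.cons_val_zero, Matrix.cons_val_one] at k0 k1
  simp only [mass, cpl, errTerm, Fin.sum_univ_two, sub_zero, sub_self, add_sub_cancel_right]
  rw [k0, k1]
  have n0 := nq_nonneg' (M := M) (gen lam v 0 k)
  have n1 := nq_nonneg' (M := M) (gen lam v 1 k)
  rw [abs_le]
  constructor <;>
    linarith [abs_le.1 (le_refl |M.ip (v 1 k) (gen lam v 0 k)|),
      abs_le.1 (le_refl |M.ip (v 0 k) (gen lam v 1 k)|),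
      abs_nonneg (M.ip (dz (v 0 (k - 1))) (gen lam v 0 k)),
      abs_nonneg (M.ip (dz (v 1 (k - 1))) (gen lam v 1 k))]

end Energy

/-- `EnergyStmt`. -/
theorem energy_holds (hI : IbpStmt) (hD : DbarStmt) : EnergyStmt := by
  intro M lam v hv
  have hsum := summable_errTerm (lam := lam) hv hD
  refine ⟨hsum, fun k => ?_⟩
  set S := ∑' l, M.errTerm lam v l with hS
  have hle : ∀ j, M.errTerm lam v j ≤ S := fun j => hsum.le_tsum j fun i _ => errTerm_nonneg i
  have hl := abs_nonneg lam
  have hS0 : 0 ≤ S := (errTerm_nonneg k).trans (hle k)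
  refine ⟨?_, (coupling_step hv hI k).trans ((hle k).trans ?_)⟩
  swap
  · nlinarith
  set Q : ℤ → ℝ := fun j =>
    M.en v (j - 1) + 2 * M.en v j + M.en v (j + 1) - lam ^ 2 * M.mass v j with hQ
  set d : ℤ → ℝ := fun j =>
    (2 + 4 * |lam|) * M.errTerm lam v j + (2 + 2 * |lam|) * M.errTerm lam v (j + 1) with hd
  have hstep : ∀ j, |Q (j + 1) - Q j| ≤ d j := by
    intro j
    have e1 := abs_le.1 (energy_step (lam := lam) hv hD j)
    have e2 := abs_le.1 (energy_step (lam := lam) hv hD (j + 1))
    have e3 : |lam * (M.cpl v (j + 1) + M.cpl v j + lam * M.mass v j)| ≤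
        |lam| * M.errTerm lam v j := by
      rw [abs_mul]
      exact mul_le_mul_of_nonneg_left (coupling_step hv hI j) hl
    obtain ⟨e3, e3'⟩ := abs_le.1 e3
    simp only [hQ, hd, add_sub_cancel_right] at e2 ⊢
    rw [abs_le]
    constructor <;> linarith
  have hds : Summable d := (hsum.mul_left _).add
    ((hsum.comp_injective (add_left_injective (1 : ℤ))).mul_left _)
  have hd0 : ∀ j, 0 ≤ d j := fun j =>
    add_nonneg (mul_nonneg (by positivity) (errTerm_nonneg j))
      (mul_nonneg (by positivity) (errTerm_nonneg (j + 1)))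
  have hdS : ∑' j, d j ≤ 16 * (1 + |lam|) * S := by
    have hsh : ∑' j : ℤ, M.errTerm lam v (j + 1) = S :=
      (Equiv.addRight (1 : ℤ)).tsum_eq (M.errTerm lam v)
    have hsh' : Summable fun j : ℤ => M.errTerm lam v (j + 1) :=
      hsum.comp_injective (add_left_injective (1 : ℤ))
    rw [hd, (hsum.mul_left _).tsum_add (hsh'.mul_left _), tsum_mul_left, tsum_mul_left, hsh, ← hS]
    nlinarith
  have hfin : ∀ n : ℕ, |Q k| ≤ |Q (k + n)| + ∑ i ∈ Finset.range n, d (k + i) := by
    intro n
    induction n with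
    | zero => simp
    | succ n ih =>
      have h1 := hstep (k + n)
      rw [Finset.sum_range_succ]
      have h2 : Q (k + (n : ℤ)) = Q (k + n + 1) - (Q (k + n + 1) - Q (k + n)) := by ring
      have h3 : |Q (k + (n : ℤ))| ≤ |Q (k + n + 1)| + d (k + n) := by
        rw [h2]; exact (abs_sub _ _).trans (add_le_add le_rfl h1)
      push_cast
      rw [← add_assoc k (n : ℤ) 1]
      linarith
  have hinj : Function.Injective fun n : ℕ => k + (n : ℤ) := fun a b h => by simpa using h
  have hQs : Summable Q := by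
    have he : Summable (M.en v) := (hv 0).sum1.add (hv 1).sum1
    have hm : Summable (M.mass v) := (hv 0).sum0.add (hv 1).sum0
    refine (((he.comp_injective (sub_left_injective (b := (1 : ℤ)))).add (he.mul_left 2)).add
      (he.comp_injective (add_left_injective (1 : ℤ)))).sub (hm.mul_left _)
  have hlim : Tendsto (fun n : ℕ => |Q (k + n)|) atTop (𝓝 0) := by
    simpa using (hQs.comp_injective hinj).tendsto_atTop_zero.abs
  have hb : ∀ n : ℕ, |Q k| ≤ |Q (k + n)| + 16 * (1 + |lam|) * S := fun n =>
    (hfin n).trans (add_le_add le_rfl (le_trans (le_of_eq_of_le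
      (Finset.sum_map (Finset.range n) ⟨_, hinj⟩ d).symm
      (hds.sum_le_tsum _ fun i _ => hd0 i)) hdS))
  have h := ge_of_tendsto (hlim.add_const (16 * (1 + |lam|) * S)) (Eventually.of_forall hb)
  simpa using h

end Vale.Agent.P099
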