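import Vale.Agent.P099.FamilyBase

/-!
# P099: the approximating family
-/

noncomputable section

namespace Vale.Agent.P099

open MeasureTheory Set Complex Filter Topology
open scoped ComplexConjugate

lemma contDiff_nice {ψ : ℂ → ℂ} (hψ : NiceKer ψ) {n : ℕ∞} : ContDiff ℝ n ψ :=
  hψ.1.of_le (by exact_mod_cast le_top)

lemma integrable_fderiv_nice {ψ : ℂ → ℂ} (hψ : NiceKer ψ) : Integrable (fderiv ℝ ψ) :=
  ((contDiff_nice (n := 1) hψ).continuous_fderiv one_ne_zero).integrable_of_hasCompactSupport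
    (hψ.2.fderiv ℝ)

lemma dzb_add_mul {f g h : ℂ → ℂ} (hf : Differentiable ℝ f) (hg : Differentiable ℝ g)
    (hh : Differentiable ℝ h) (s : ℂ) (z : ℂ) :
    dzb (fun w => f w + g w + s * h w) z = dzb f z + dzb g z + s * dzb h z := by
  have e : fderiv ℝ (fun w => f w + g w + s * h w) z =
      fderiv ℝ f z + fderiv ℝ g z + s • fderiv ℝ h z := by
    have h1 : DifferentiableAt ℝ (fun w => f w + g w) z := (hf z).add (hg z)
    rw [fderiv_fun_add h1 ((hh z).const_mul s), fderiv_fun_add (hf z) (hg z),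
      fderiv_const_mul (hh z)]
  simp [dzb, e]
  ring

/-- The square total of the combination of one kernel applied to the cut pair. -/
lemma comb_bound (hSm : SmodeStmt) (hMB : ModeBoundStmt) {M : Table} {lam B R L : ℝ}
    {F : Fin 2 → Phase → ℝ} {X : Cut M R L} (hF : ∀ i, Measurable (F i))
    (hFB : ∀ i p, |F i p| ≤ B) {χ : ℂ → ℂ} (hχ : NiceKer χ)
    (hstep : ∀ᵐ θ ∂unifDir, ∀ z ∈ closure M.dom, ∀ i : Fin 2,
      ‖smDir χ (M.ext (cutPair X F i)) (z, θ) +
          ((![lam, -lam] i : ℝ) : ℂ) * sm χ (M.ext (cutPair X F (1 - i))) (z, θ)‖ ≤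
        8 * B * L * ∫ w, ‖χ (z - w)‖ * |M.ext (X.A.indicator 1) (w, θ)|) (i : Fin 2) :
    M.NLe (fun k z => smode (dz χ) (M.ext (cutPair X F i)) (k - 1) z +
        smode (dzb χ) (M.ext (cutPair X F i)) (k + 1) z +
        ((![lam, -lam] i : ℝ) : ℂ) * smode χ (M.ext (cutPair X F (1 - i))) k z)
      (1024 * B ^ 2 * L ^ 2 * (∫ y, ‖χ y‖) ^ 2 * M.m0.real X.A) := by
  have hG : ∀ l, Measurable (cutPair X F l) := fun l => (hF l).mul (measurable_const.sub X.measW)
  have hGB : ∀ l p, |cutPair X F l p| ≤ B := fun l p => by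
    obtain ⟨w0, w1⟩ := X.range p
    rw [cutPair, abs_mul]
    refine mul_le_of_le_one_right (abs_nonneg _) ?_ |>.trans (hFB l p)
    rw [abs_le]; constructor <;> linarith
  have hN : ∀ l, NiceFn (M.ext (cutPair X F l)) := fun l => M.niceFn_ext (hG l) (hGB l)
  set s : ℂ := ((![lam, -lam] i : ℝ) : ℂ)
  set hd : Phase → ℂ := smDir χ (M.ext (cutPair X F i))
  set hs : Phase → ℂ := sm χ (M.ext (cutPair X F (1 - i)))
  have md : Measurable hd := measurable_smDir (contDiff_nice hχ) (M.measurable_ext (hG i))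
  have ms : Measurable hs :=
    measurable_sm hχ.1.continuous (M.measurable_ext (hG (1 - i)))
  obtain ⟨Bd, hBd⟩ : ∃ Bd, ∀ p, ‖hd p‖ ≤ Bd :=
    ⟨_, norm_smDir_le (integrable_fderiv_nice hχ) (M.abs_ext_le (hGB i))⟩
  obtain ⟨Bs, hBs⟩ : ∃ Bs, ∀ p, ‖hs p‖ ≤ Bs :=
    ⟨_, norm_sm_le (hχ.1.continuous.integrable_of_hasCompactSupport hχ.2)
      (M.abs_ext_le (hGB (1 - i)))⟩
  have hb : ∀ p, ‖hd p + s * hs p‖ ≤ Bd + ‖s‖ * Bs := fun p =>
    (norm_add_le _ _).trans (add_le_add (hBd p)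
      (by rw [norm_mul]; exact mul_le_mul_of_nonneg_left (hBs p) (norm_nonneg _)))
  have hm : Measurable fun p => hd p + s * hs p := md.add (ms.const_mul s)
  have hNLe := (hMB M).1 _ hm ⟨_, hb⟩
  refine M.nLe_congr (fun k z _ => ?_) (M.nLe_mono hNLe ?_)
  · obtain ⟨-, -, -, -, h5⟩ := hSm χ (M.ext (cutPair X F i)) k hχ (hN i)
    obtain ⟨-, -, -, h4, -⟩ := hSm χ (M.ext (cutPair X F (1 - i))) k hχ (hN (1 - i))
    rw [mode_add_mul md ms hBd hBs s k z, h5 z, h4 z]
  set Aext := M.ext (X.A.indicator 1)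
  have hA1 : ∀ p, |X.A.indicator (1 : Phase → ℝ) p| ≤ 1 := fun p => by
    by_cases hp : p ∈ X.A <;> simp [hp]
  have hAm : Measurable Aext := M.measurable_ext (measurable_one.indicator X.measA)
  have hAN : NiceFn Aext := M.niceFn_ext (measurable_one.indicator X.measA) hA1
  set Q : Phase → ℝ := fun p => ∫ w, ‖χ (p.1 - w)‖ * |Aext (w, p.2)|
  have hQ0 : ∀ p, 0 ≤ Q p := fun p =>
    integral_nonneg fun w => mul_nonneg (norm_nonneg _) (abs_nonneg _)
  have hQm : Measurable Q := by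
    refine (StronglyMeasurable.integral_prod_right'
      (f := fun q : Phase × ℂ => ‖χ (q.1.1 - q.2)‖ * |Aext (q.2, q.1.2)|) ?_).measurable
    exact ((hχ.1.continuous.comp (by fun_prop)).norm.measurable.mul
      ((continuous_abs.measurable).comp (hAm.comp (by fun_prop)))).stronglyMeasurable
  have hQb : ∀ p, Q p ≤ 4 * 1 * ∫ y, ‖χ y‖ := fun p => by
    rw [← integral_const_mul]
    refine (integral_mono_of_nonneg (Eventually.of_forall fun w => by positivity)
      (((hχ.1.continuous.integrable_of_hasCompactSupport hχ.2).norm.comp_sub_left p.1).const_mul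
        (4 * 1))
      (Eventually.of_forall fun w => ?_)).trans
      (le_of_eq (integral_sub_left_eq_self (fun y => 4 * 1 * ‖χ y‖) volume p.1))
    simp only
    rw [mul_comm (4 * 1 : ℝ)]
    exact mul_le_mul_of_nonneg_left (M.abs_ext_le hA1 _) (norm_nonneg _)
  have hQi : Integrable (fun p => Q p ^ 2) M.m0 :=
    (integrable_const ((4 * 1 * ∫ y, ‖χ y‖) ^ 2)).mono' (hQm.pow_const 2).aestronglyMeasurable
      (Eventually.of_forall fun p => by
        rw [Real.norm_eq_abs, abs_pow, abs_of_nonneg (hQ0 p)]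
        exact pow_le_pow_left₀ (hQ0 p) (hQb p) 2)
  have hae : ∀ᵐ p ∂M.m0, ‖hd p + s * hs p‖ ^ 2 ≤ (8 * B * L) ^ 2 * Q p ^ 2 := by
    have h2 : ∀ᵐ p ∂M.m0, p.1 ∈ M.dom :=
      Measure.quasiMeasurePreserving_fst.ae (ae_restrict_mem M.isOpen_dom.measurableSet)
    filter_upwards [h2, Measure.quasiMeasurePreserving_snd.ae hstep] with p hp hθ
    rw [← mul_pow]
    exact pow_le_pow_left₀ (norm_nonneg _) (hθ p.1 (subset_closure hp) i) 2
  refine (integral_mono_of_nonneg (Eventually.of_forall fun p => sq_nonneg _)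
    (hQi.const_mul _) hae).trans ?_
  rw [integral_const_mul]
  refine (mul_le_mul_of_nonneg_left (((hMB M).2.1 χ Aext hχ hAN).2) (sq_nonneg _)).trans ?_
  calc (8 * B * L) ^ 2 * ((∫ y, ‖χ y‖) ^ 2 * ∫ p, Aext p ^ 2 ∂(volume.prod unifDir))
      ≤ (8 * B * L) ^ 2 * ((∫ y, ‖χ y‖) ^ 2 * (16 * M.m0.real X.A)) := by
        gcongr; exact M.ext_indicator_sq_le X.measA
    _ = _ := by ring

lemma ext_sub (M : Table) (f g : Phase → ℝ) (p : Phase) :
    M.ext (fun q => f q - g q) p = M.ext f p - M.ext g p := by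
  simp only [Table.ext, indicator_sub', ← Pi.sub_def, Pi.sub_apply, Finset.sum_sub_distrib]
  ring

lemma abs_ext_le_indicator (M : Table) {f : Phase → ℝ} {A : Set Phase} {B : ℝ}
    (hf : ∀ p, |f p| ≤ B * A.indicator 1 p) (p : Phase) :
    |M.ext f p| ≤ B * M.ext (A.indicator 1) p := by
  have h1 : ∀ q, |(M.dom ×ˢ (univ : Set Dir)).indicator f q| ≤
      B * (M.dom ×ˢ (univ : Set Dir)).indicator (A.indicator 1) q := fun q => by
    by_cases hq : q ∈ M.dom ×ˢ (univ : Set Dir)
    · rw [indicator_of_mem hq, indicator_of_mem hq]; exact hf q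
    · rw [indicator_of_notMem hq, indicator_of_notMem hq, abs_zero, mul_zero]
  rw [Table.ext, Table.ext, mul_add, Finset.mul_sum]
  exact (abs_add_le _ _).trans (add_le_add (h1 p)
    ((Finset.abs_sum_le_sum_abs _ _).trans (Finset.sum_le_sum fun j _ => h1 (M.rp j p))))

lemma modeR_sub {f g : Phase → ℝ} (hf : Measurable f) (hg : Measurable g) {B B' : ℝ}
    (hB : ∀ p, |f p| ≤ B) (hB' : ∀ p, |g p| ≤ B') (k : ℤ) (z : ℂ) :
    modeR (fun p => f p - g p) k z = modeR f k z - modeR g k z := by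
  have h := mode_add_mul (h := fun p => (f p : ℂ)) (g := fun p => (g p : ℂ))
    (Complex.measurable_ofReal.comp hf) (Complex.measurable_ofReal.comp hg)
    (fun p => by simpa using hB p) (fun p => by simpa using hB' p) (-1) k z
  simp only [neg_one_mul, ← sub_eq_add_neg] at h
  simpa [modeR] using h

lemma smode_sub {ψ : ℂ → ℂ} (hψ : NiceKer ψ) {f g : Phase → ℝ} (hf : Measurable f)
    (hg : Measurable g) {B B' : ℝ} (hB : ∀ p, |f p| ≤ B) (hB' : ∀ p, |g p| ≤ B') (k : ℤ) (z : ℂ) :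
    smode ψ (fun p => f p - g p) k z = smode ψ f k z - smode ψ g k z := by
  have hi : ∀ {u : Phase → ℝ} {b : ℝ}, Measurable u → (∀ p, |u p| ≤ b) →
      Integrable fun w => ψ (z - w) * modeR u k w := fun {u b} hu hb => by
    refine (((hψ.1.continuous.integrable_of_hasCompactSupport hψ.2).comp_sub_left z).norm.mul_const
      b).mono' ?_ (Eventually.of_forall fun w => ?_)
    · exact (hψ.1.continuous.comp (by fun_prop)).aestronglyMeasurable.mul
        (measurable_mode (Complex.measurable_ofReal.comp hu) k).aestronglyMeasurable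
    · rw [norm_mul]
      exact mul_le_mul_of_nonneg_left (norm_mode_le (fun p => by simpa using hb p) k w)
        (norm_nonneg _)
  simp only [smode, modeR_sub hf hg hB hB', mul_sub]
  exact integral_sub (hi hf hB) (hi hg hB')

/-- The family exists. -/
theorem family_holds (hK : KernelStmt) (hKR : KerRefStmt) (hSm : SmodeStmt) (hMB : ModeBoundStmt)
    (hRf : ReflectStmt) (hSB : StepBoundStmt) (_hDb : DbarStmt) (hCut : CutStmt) :
    FamilyStmt := by
  intro M D lam F hE
  obtain ⟨φ, Cφ, hCφ, hφ⟩ := hK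
  obtain ⟨B₀, hB₀⟩ := hE.bdd
  set B := |B₀|
  have hB : ∀ i p, |F i p| ≤ B := fun i p => (hB₀ i p).trans (le_abs_self _)
  obtain ⟨Kr, er, hKr, her, hr⟩ := hRf M
  obtain ⟨Ks, es, hKs, hes, hst⟩ := hSB M
  obtain ⟨Cc, hCc, hcut⟩ := hCut M D
  set K := max Ks (Kr + 12)
  have hKs' : Ks ≤ K := le_max_left _ _
  have hKr' : Kr + 12 ≤ K := le_max_right _ _
  have hK0 : 0 < K := by linarith
  obtain ⟨E, hE0, hEb⟩ := M.exists_ext_sq_le B
  set C := 32 * B ^ 2 * (Cc * K) + E + E * Cφ ^ 2 + 1024 * B ^ 2 * (Cc * K)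
    + 1024 * B ^ 2 * (Cc * K) * Cφ ^ 2 + 1 with hC
  have hCK : 0 ≤ B ^ 2 * (Cc * K) := by positivity
  refine ⟨C, by positivity, fun c hc _ η hη => ?_⟩
  -- the mollifier at the fixed functions
  have hφc : ∀ ε : ℝ, 0 < ε → Continuous (φ ε) ∧ (∀ y, 0 ≤ φ ε y) ∧
      (∀ y, ε ≤ ‖y‖ → φ ε y = 0) ∧ (∫ y, φ ε y) = 1 := fun ε hε =>
    ⟨(hφ ε hε).1.continuous, (hφ ε hε).2.2.1, (hφ ε hε).2.1, (hφ ε hε).2.2.2.1⟩
  have hmol : ∀ i, ∃ e > 0, ∀ ε, 0 < ε → ε < e → M.NLe
      (fun k z => smode (fun y => (φ ε y : ℂ)) (M.ext (F i)) k z - modeR (M.ext (F i)) k z)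
        (η / 2) := fun i =>
    (hMB M).2.2 φ hφc _ (M.niceFn_ext (hE.meas i) (hB i)) _ (by linarith)
  choose em hem hmol using hmol
  refine ⟨min (min (min er es) (min (em 0) (em 1))) (min (1 / K) (Real.sqrt (c / K))), ?_,
    fun ε hε hεlt => ?_⟩
  · exact lt_min (lt_min (lt_min her hes) (lt_min (hem 0) (hem 1)))
      (lt_min (by positivity) (Real.sqrt_pos.2 (by positivity)))
  simp only [lt_min_iff] at hεlt
  obtain ⟨⟨⟨h_er, h_es⟩, h_em0, h_em1⟩, h1K, hcK⟩ := hεlt
  have h_em : ∀ i, ε < em i := fun i => by fin_cases i <;> assumption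
  have hR1 : K * ε ≤ 1 := by
    rw [lt_div_iff₀ hK0] at h1K
    linarith
  have hRT : K * ε ≤ c / ε := by
    rw [le_div_iff₀ hε]
    have := (Real.lt_sqrt hε.le).1 hcK
    rw [lt_div_iff₀ hK0] at this
    nlinarith
  set L := 1 / (c / ε) with hLdef
  have hL : 0 ≤ L := by positivity
  obtain ⟨X, hXA⟩ : ∃ X : Cut M (K * ε) L, M.m0 X.A ≤ ENNReal.ofReal (Cc * (K * ε) * (c / ε)) :=
    hcut (K * ε) (c / ε) (by positivity) hRT hR1
  have hAc : M.m0.real X.A ≤ Cc * K * c := by
    refine (ENNReal.toReal_mono ENNReal.ofReal_ne_top hXA).trans (le_of_eq ?_)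
    rw [ENNReal.toReal_ofReal (by positivity)]
    field_simp
  obtain ⟨hsmooth, hsupp, hnn, hint, hsym, hgrad⟩ := hφ ε hε
  set ψ : ℂ → ℂ := fun y => (φ ε y : ℂ)
  obtain ⟨⟨hψn, hψ0⟩, ⟨hdn, hd1⟩, ⟨hbn, hb1⟩, hcomm, hdle, hble⟩ :=
    hKR M ε (φ ε) hε hsmooth hsupp hsym
  have hψint : ∫ y, ‖ψ y‖ = 1 := by
    rw [← hint]
    exact integral_congr_ae (Eventually.of_forall fun y => by
      simp [ψ, abs_of_nonneg (hnn y)])
  have hfint : Integrable fun y => ‖fderiv ℝ (φ ε) y‖ := by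
    refine ((hsmooth.continuous_fderiv (by simp)).integrable_of_hasCompactSupport
      (HasCompactSupport.fderiv ℝ ?_)).norm
    exact HasCompactSupport.intro (isCompact_closedBall (0 : ℂ) ε) fun y hy =>
      hsupp y (le_of_lt (by simpa using hy))
  have hdint : ∀ {χ : ℂ → ℂ}, NiceKer χ → (∀ y, ‖χ y‖ ≤ ‖fderiv ℝ (φ ε) y‖) →
      (∫ y, ‖χ y‖) ^ 2 ≤ Cφ ^ 2 / ε ^ 2 := fun {χ} _ h => by
    rw [← div_pow]
    exact pow_le_pow_left₀ (integral_nonneg fun y => norm_nonneg _)
      ((integral_mono_of_nonneg (Eventually.of_forall fun y => norm_nonneg _) hfint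
        (Eventually.of_forall h)).trans hgrad) 2
  set G : Fin 2 → Phase → ℝ := cutPair X F
  have hGm : ∀ l, Measurable (G l) := fun l => (hE.meas l).mul (measurable_const.sub X.measW)
  have hGB : ∀ l p, |G l p| ≤ B := fun l p => by
    obtain ⟨w0, w1⟩ := X.range p
    show |F l p * (1 - X.W p)| ≤ B
    rw [abs_mul]
    refine (mul_le_of_le_one_right (abs_nonneg _) ?_).trans (hB l p)
    rw [abs_le]; constructor <;> linarith
  have hN : ∀ l, NiceFn (M.ext (G l)) := fun l => M.niceFn_ext (hGm l) (hGB l)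
  have hEl : ∀ l, ∫ p, M.ext (G l) p ^ 2 ∂(volume.prod unifDir) ≤ E := fun l => hEb _ (hGB l)
  set v : Fin 2 → ℤ → ℂ → ℂ := fun i k => smode ψ (M.ext (G i)) k with hv
  have hvsm : ∀ i k, ContDiff ℝ 2 (v i k) ∧ dz (v i k) = smode (dz ψ) (M.ext (G i)) k ∧
      dzb (v i k) = smode (dzb ψ) (M.ext (G i)) k := fun i k =>
    ⟨(hSm ψ _ k hψn (hN i)).1, (hSm ψ _ k hψn (hN i)).2.1, (hSm ψ _ k hψn (hN i)).2.2.1⟩
  have hdz : ∀ i, M.NLe (fun k => dz (v i k)) (C / ε ^ 2) := fun i => by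
    have h := ((hMB M).2.1 (dz ψ) (M.ext (G i)) hdn (hN i)).1
    simp only [(hvsm i _).2.1]
    refine M.nLe_mono h ?_
    refine (mul_le_mul (hdint hdn hdle) (hEl i) (integral_nonneg fun p => sq_nonneg _)
      (by positivity)).trans ?_
    rw [div_mul_eq_mul_div]
    refine div_le_div_of_nonneg_right ?_ (by positivity)
    have : 0 ≤ B ^ 2 * (Cc * K) * Cφ ^ 2 := by positivity
    rw [hC]; linarith
  have hv0 : ∀ i, M.NLe (v i) C := fun i => by
    refine M.nLe_mono ((hMB M).2.1 ψ (M.ext (G i)) hψn (hN i)).1 ?_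
    rw [hψint, one_pow, one_mul]
    have : 0 ≤ E * Cφ ^ 2 := by positivity
    have : 0 ≤ B ^ 2 * (Cc * K) * Cφ ^ 2 := by positivity
    rw [hC]; linarith [hEl i]
  have hgen : ∀ {χ : ℂ → ℂ}, NiceKer χ → (∀ y, ε ≤ ‖y‖ → χ y = 0) → ∀ {Q : ℝ},
      1024 * B ^ 2 * L ^ 2 * (∫ y, ‖χ y‖) ^ 2 * (Cc * K * c) ≤ Q → ∀ i,
      M.NLe (fun k z => smode (dz χ) (M.ext (G i)) (k - 1) z +
        smode (dzb χ) (M.ext (G i)) (k + 1) z +
        ((![lam, -lam] i : ℝ) : ℂ) * smode χ (M.ext (G (1 - i))) k z) Q :=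
    fun {χ} hχ hχ0 {Q} hQ i => M.nLe_mono
      (comb_bound hSm hMB hE.meas hB hχ
        (hst ε hε h_es lam F B hE hB (K * ε) L X
          (mul_le_mul_of_nonneg_right hKs' hε.le) hL χ hχ hχ0) i)
      ((mul_le_mul_of_nonneg_left hAc (by positivity)).trans hQ)
  refine ⟨v, fun i => ⟨⟨fun k => (hvsm i k).1, ⟨Kr * ε, by positivity, ?_⟩, ?_,
    (hv0 i).1, (hdz i).1⟩, ?_, hv0 i, hdz i, ?_, ?_⟩⟩
  · -- zero near the vertices
    intro k z hz hnear
    have hvan : ∀ q : Phase, M.Near ((Kr + 12) * ε) q.1 → G i q = 0 := fun q hq => by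
      show F i q * (1 - X.W q) = 0
      rw [X.near q (M.near_mono_fam (mul_le_mul_of_nonneg_right hKr' hε.le) hq)]
      ring
    exact ((hr ε hε h_er (G i) (hGm i) ⟨B, hGB i⟩).2 hvan ψ hψn.1.continuous hψ0.2.1 z hz
      hnear).1 k
  · -- the phases
    intro k j z hz hzj
    have href := hr ε hε h_er (G i) (hGm i) ⟨B, hGB i⟩
    have key : ∀ (p : ℤ) (χ : ℂ → ℂ), RefKer M ε p χ →
        (M.u j ^ (k + p) * smode χ (M.ext (G i)) k z).im = 0 := fun p χ hχ => by
      by_cases hnear : M.Near (Kr * ε) z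
      · have hvan : ∀ q : Phase, M.Near ((Kr + 12) * ε) q.1 → G i q = 0 := fun q hq => by
          show F i q * (1 - X.W q) = 0
          rw [X.near q (M.near_mono_fam (mul_le_mul_of_nonneg_right hKr' hε.le) hq)]
          ring
        rw [(href.2 hvan χ hχ.1 hχ.2.1 z hz hnear).1 k]
        simp
      · exact href.1 p χ hχ k j z hz hzj hnear
    refine ⟨by simpa using key 0 ψ hψ0, ?_, ?_⟩
    · rw [(hvsm i k).2.1]; exact key 1 (dz ψ) hd1
    · rw [(hvsm i k).2.2, sub_eq_add_neg]; exact key (-1) (dzb ψ) hb1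
  · -- the distance to the profile
    set FW : Phase → ℝ := fun p => F i p * X.W p
    have hFWm : Measurable FW := (hE.meas i).mul X.measW
    have hFWA : ∀ p, |FW p| ≤ B * X.A.indicator 1 p := fun p => by
      by_cases hp : p ∈ X.A
      · rw [indicator_of_mem hp, Pi.one_apply, mul_one, abs_mul]
        refine (mul_le_of_le_one_right (abs_nonneg _) ?_).trans (hB i p)
        obtain ⟨w0, w1⟩ := X.range p
        rwa [abs_of_nonneg w0]
      · simp [FW, X.off p hp, hp]
    have hFWB : ∀ p, |FW p| ≤ B := fun p => (hFWA p).trans (by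
      by_cases hp : p ∈ X.A <;> simp [hp, B])
    have hWN := M.niceFn_ext hFWm hFWB
    have e1 : ∀ k, ∀ z ∈ M.dom, v i k z - modeR (F i) k z =
        (smode ψ (M.ext (F i)) k z - modeR (M.ext (F i)) k z) +
          (fun k z => -smode ψ (M.ext FW) k z) k z := fun k z hz => by
      have hG' : M.ext (G i) = fun p => M.ext (F i) p - M.ext FW p := by
        funext p
        rw [← ext_sub]
        congr 1
        funext q
        show F i q * (1 - X.W q) = F i q - F i q * X.W q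
        ring
      have hm : modeR (M.ext (F i)) k z = modeR (F i) k z := by
        simp only [modeR, mode, M.ext_eq_on_dom (F i) (p := (z, _)) hz]
      rw [hm, hv]
      simp only
      rw [hG', smode_sub hψn (M.measurable_ext (hE.meas i)) (M.measurable_ext hFWm)
        (M.abs_ext_le (hB i)) (M.abs_ext_le hFWB)]
      ring
    have hW : M.NLe (fun k z => -smode ψ (M.ext FW) k z) (16 * B ^ 2 * (Cc * K * c)) := by
      have h := ((hMB M).2.1 ψ (M.ext FW) hψn hWN).1
      have e : (fun k => M.nq (fun z => -smode ψ (M.ext FW) k z)) =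
          fun k => M.nq (smode ψ (M.ext FW) k) := funext fun k => by simp [Table.nq]
      rw [hψint, one_pow, one_mul] at h
      refine M.nLe_mono (A := ∫ p, M.ext FW p ^ 2 ∂(volume.prod unifDir))
        (by rw [Table.NLe, e]; exact h) ?_
      have hA1 : ∀ p, |X.A.indicator (1 : Phase → ℝ) p| ≤ 1 := fun p => by
        by_cases hp : p ∈ X.A <;> simp [hp]
      have hi1 : Integrable (fun p => M.ext (X.A.indicator 1) p ^ 2) (volume.prod unifDir) := by
        obtain ⟨hm, ⟨Bb, hb⟩, ρ, hρ⟩ := M.niceFn_ext (measurable_one.indicator X.measA) hA1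
        have hS : MeasurableSet (Metric.closedBall (0 : ℂ) ρ ×ˢ (univ : Set Dir)) :=
          measurableSet_closedBall.prod MeasurableSet.univ
        refine ((integrableOn_const (C := Bb ^ 2) ?_).integrable_indicator hS).mono'
          (hm.pow_const 2).aestronglyMeasurable (Eventually.of_forall fun p => ?_)
        · rw [Measure.prod_prod, measure_univ, mul_one]
          exact measure_closedBall_lt_top.ne
        · rw [Real.norm_eq_abs, abs_pow]
          by_cases hp : p ∈ Metric.closedBall (0 : ℂ) ρ ×ˢ (univ : Set Dir)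
          · rw [indicator_of_mem hp]
            exact pow_le_pow_left₀ (abs_nonneg _) (hb p) 2
          · rw [indicator_of_notMem hp, hρ p (le_of_lt (by simpa using hp))]
            simp
      refine (integral_mono_of_nonneg (Eventually.of_forall fun p => sq_nonneg _)
        (hi1.const_mul (B ^ 2)) (Eventually.of_forall fun p => ?_)).trans ?_
      · have h1 := abs_ext_le_indicator M hFWA p
        simp only
        rw [← mul_pow, ← sq_abs]
        exact pow_le_pow_left₀ (abs_nonneg _) h1 2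
      · rw [integral_const_mul]
        calc B ^ 2 * ∫ p, M.ext (X.A.indicator 1) p ^ 2 ∂(volume.prod unifDir)
            ≤ B ^ 2 * (16 * (Cc * K * c)) :=
              mul_le_mul_of_nonneg_left
                ((M.ext_indicator_sq_le X.measA).trans (by linarith)) (sq_nonneg _)
          _ = _ := by ring
    have hcont : ∀ G', NiceFn G' → ∀ k, Continuous (smode ψ G' k) := fun G' hG' k =>
      (hSm ψ G' k hψn hG').1.continuous
    have isq : ∀ {f : ℂ → ℂ}, Continuous f → IntegrableOn (fun z => ‖f z‖ ^ 2) M.dom :=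
      fun hf => ((hf.norm.pow 2).continuousOn.integrableOn_compact
        M.isBounded_dom.isCompact_closure).mono_set subset_closure
    refine M.nLe_congr e1 (M.nLe_mono (M.nLe_add (fun k => ?_) (fun k => ?_)
      (hmol i ε hε (h_em i)) hW) ?_)
    · have hm : ∀ p, ‖((M.ext (F i) p : ℝ) : ℂ)‖ ≤ 4 * B := fun p => by
        simpa using M.abs_ext_le (hB i) p
      have h1 := isq (hcont _ (M.niceFn_ext (hE.meas i) (hB i)) k)
      have h2 := integrableOn_mode_sq M
        (Complex.measurable_ofReal.comp (M.measurable_ext (hE.meas i))) hm k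
      refine ((h1.const_mul 2).add (h2.const_mul 2)).mono'
        (((hcont _ (M.niceFn_ext (hE.meas i) (hB i)) k).aestronglyMeasurable.sub
          (measurable_mode (Complex.measurable_ofReal.comp (M.measurable_ext (hE.meas i)))
            k).aestronglyMeasurable).norm.pow 2) (Eventually.of_forall fun z => ?_)
      simp only [Pi.add_apply, norm_pow, norm_norm]
      have := norm_sub_le (smode ψ (M.ext (F i)) k z) (modeR (M.ext (F i)) k z)
      show ‖smode ψ (M.ext (F i)) k z - modeR (M.ext (F i)) k z‖ ^ 2 ≤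
        2 * ‖smode ψ (M.ext (F i)) k z‖ ^ 2 + 2 * ‖modeR (M.ext (F i)) k z‖ ^ 2
      nlinarith [norm_nonneg (smode ψ (M.ext (F i)) k z - modeR (M.ext (F i)) k z),
        sq_nonneg (‖smode ψ (M.ext (F i)) k z‖ - ‖modeR (M.ext (F i)) k z‖)]
    · exact isq (hcont _ hWN k).neg
    · have h0 : 32 * B ^ 2 * (Cc * K) ≤ C := by
        have : 0 ≤ E * Cφ ^ 2 := by positivity
        have : 0 ≤ B ^ 2 * (Cc * K) * Cφ ^ 2 := by positivity
        rw [hC]; linarith
      have := mul_le_mul_of_nonneg_right h0 hc.le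
      linarith
  · -- the generator
    have e : Table.gen lam v i = fun k z => smode (dz ψ) (M.ext (G i)) (k - 1) z +
        smode (dzb ψ) (M.ext (G i)) (k + 1) z +
        ((![lam, -lam] i : ℝ) : ℂ) * smode ψ (M.ext (G (1 - i))) k z := by
      funext k z
      show dz (v i (k - 1)) z + dzb (v i (k + 1)) z + _ = _
      rw [(hvsm i (k - 1)).2.1, (hvsm i (k + 1)).2.2]
    rw [e]
    refine hgen hψn hψ0.2.1 ?_ i
    rw [hψint, show L = ε / c by simp [L]]
    calc 1024 * B ^ 2 * (ε / c) ^ 2 * 1 ^ 2 * (Cc * K * c) =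
          1024 * B ^ 2 * (Cc * K) * ε ^ 2 / c := by field_simp
      _ ≤ C * ε ^ 2 / c := by
          refine div_le_div_of_nonneg_right (mul_le_mul_of_nonneg_right ?_ (sq_nonneg ε)) hc.le
          have : 0 ≤ E * Cφ ^ 2 := by positivity
          have : 0 ≤ B ^ 2 * (Cc * K) * Cφ ^ 2 := by positivity
          rw [hC]; linarith
  · -- its derivative
    have e : (fun k => dzb (Table.gen lam v i k)) = fun k z =>
        smode (dz (dzb ψ)) (M.ext (G i)) (k - 1) z +
        smode (dzb (dzb ψ)) (M.ext (G i)) (k + 1) z +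
        ((![lam, -lam] i : ℝ) : ℂ) * smode (dzb ψ) (M.ext (G (1 - i))) k z := by
      funext k z
      have e0 : Table.gen lam v i k = fun w => smode (dz ψ) (M.ext (G i)) (k - 1) w +
          smode (dzb ψ) (M.ext (G i)) (k + 1) w +
          ((![lam, -lam] i : ℝ) : ℂ) * smode ψ (M.ext (G (1 - i))) k w := by
        funext w
        show dz (v i (k - 1)) w + dzb (v i (k + 1)) w + _ = _
        rw [(hvsm i (k - 1)).2.1, (hvsm i (k + 1)).2.2]
      obtain ⟨a1, -, a3, -⟩ := hSm (dz ψ) (M.ext (G i)) (k - 1) hdn (hN i)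
      obtain ⟨b1, -, b3, -⟩ := hSm (dzb ψ) (M.ext (G i)) (k + 1) hbn (hN i)
      obtain ⟨c1, -, c3, -⟩ := hSm ψ (M.ext (G (1 - i))) k hψn (hN (1 - i))
      rw [e0, dzb_add_mul (a1.differentiable two_ne_zero) (b1.differentiable two_ne_zero)
        (c1.differentiable two_ne_zero), a3, b3, c3, ← hcomm]
    rw [e]
    refine hgen hbn hb1.2.1 ?_ i
    rw [show L = ε / c by simp [L]]
    refine (mul_le_mul_of_nonneg_right
      (mul_le_mul_of_nonneg_left (hdint hbn hble) (by positivity)) (by positivity)).trans ?_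
    calc 1024 * B ^ 2 * (ε / c) ^ 2 * (Cφ ^ 2 / ε ^ 2) * (Cc * K * c) =
          1024 * B ^ 2 * (Cc * K) * Cφ ^ 2 / c := by field_simp
      _ ≤ C / c := by
          refine div_le_div_of_nonneg_right ?_ hc.le
          have : 0 ≤ E * Cφ ^ 2 := by positivity
          rw [hC]; linarith

end Vale.Agent.P099
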