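import Vale.Agent.P099.Spec

/-!
# P099: integration by parts on the table
-/

noncomputable section

namespace Vale.Agent.P099

open MeasureTheory Set Complex Filter Topology
open scoped ComplexConjugate

namespace Ibp

variable (M : Table)

/-- The differential of `ell j`. -/
def ellD (j : Fin 3) : ℂ →L[ℝ] ℝ :=
  Complex.imCLM.comp (ContinuousLinearMap.mul ℝ ℂ (conj (M.u j)))

lemma ellD_apply (j : Fin 3) (v : ℂ) : ellD M j v = (conj (M.u j) * v).im := rfl

lemma ell_hasFDeriv (j : Fin 3) (z : ℂ) : HasFDerivAt (M.ell j) (ellD M j) z :=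
  ((ellD M j).hasFDerivAt).add_const _

lemma ell_smooth (j : Fin 3) {n : WithTop ℕ∞} : ContDiff ℝ n (M.ell j) :=
  (ellD M j).contDiff.add contDiff_const

lemma ell_cont (j : Fin 3) : Continuous (M.ell j) := (ell_smooth M j (n := 0)).continuous

lemma dom_bounded : Bornology.IsBounded M.dom := M.bounded

lemma isOpen_dom : IsOpen M.dom := by
  simp only [Table.dom, Set.ofPred_forall]
  exact isOpen_iInter_of_finite fun j => isOpen_lt continuous_const (ell_cont M j)

lemma isCompact_closure_dom : IsCompact (closure M.dom) := (dom_bounded M).isCompact_closure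

lemma ell_nonneg {z : ℂ} (hz : z ∈ closure M.dom) (j : Fin 3) : 0 ≤ M.ell j z :=
  closure_minimal (fun w hw => (show 0 ≤ M.ell j w from (hw j).le))
    (isClosed_le continuous_const (ell_cont M j)) hz

lemma intOn {f : ℂ → ℝ} (hf : Continuous f) : IntegrableOn f M.dom volume :=
  (hf.continuousOn.integrableOn_compact (isCompact_closure_dom M)).mono_set subset_closure

lemma norm_u (j : Fin 3) : ‖M.u j‖ = 1 := Complex.norm_exp_ofReal_mul_I _

lemma conj_u_mul (j : Fin 3) : conj (M.u j) * M.u j = 1 := by
  rw [mul_comm, Complex.mul_conj, Complex.normSq_eq_norm_sq, norm_u]; norm_num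

/-- The strip of width `δ` at side `j` has area `O(δ)`. -/
lemma strip_le (j : Fin 3) : ∃ C : ℝ, 0 ≤ C ∧ ∀ δ : ℝ, 0 < δ →
    (volume {z | z ∈ M.dom ∧ M.ell j z < δ}).toReal ≤ C * δ := by
  obtain ⟨R, hR⟩ := (dom_bounded M).exists_norm_le
  refine ⟨2 * |R|, by positivity, fun δ hδ => ?_⟩
  set S := {z | z ∈ M.dom ∧ M.ell j z < δ}
  let e : ℂ ≃ₗᵢ[ℝ] ℂ := rotation (⟨conj (M.u j), mem_sphere_zero_iff_norm.2
    (by rw [Complex.norm_conj, norm_u])⟩ : Circle)
  have he : ∀ z, e z = conj (M.u j) * z := fun z => rfl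
  have hmp : MeasurePreserving e volume volume := e.measurePreserving
  set B := Icc (-|R|) |R| ×ℂ Icc (-M.b j) (δ - M.b j)
  have hsub : S ⊆ e ⁻¹' B := by
    rintro z ⟨hz, hlt⟩
    have h1 : ‖e z‖ ≤ |R| := by
      rw [e.norm_map]; exact (hR z hz).trans (le_abs_self R)
    have h2 : 0 < M.ell j z := hz j
    rw [mem_preimage, Complex.mem_reProdIm]
    have h3 : (e z).im = M.ell j z - M.b j := by
      rw [he]; simp only [Table.ell]; ring
    refine ⟨abs_le.1 ((Complex.abs_re_le_norm _).trans h1), ?_, ?_⟩ <;> rw [h3] <;> linarith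
  have hB : volume B = ENNReal.ofReal (2 * |R| * δ) := by
    have hpre : B = Complex.measurableEquivRealProd ⁻¹'
        (Icc (-|R|) |R| ×ˢ Icc (-M.b j) (δ - M.b j)) := by
      ext z; simp [B, Complex.mem_reProdIm, Complex.measurableEquivRealProd_apply, and_assoc]; tauto
    rw [hpre, Complex.volume_preserving_equiv_real_prod.measure_preimage
      (measurableSet_Icc.prod measurableSet_Icc).nullMeasurableSet, Measure.volume_eq_prod,
      Measure.prod_prod, Real.volume_Icc, Real.volume_Icc, ← ENNReal.ofReal_mul (show (0 : ℝ) ≤ |R| - -|R| by linarith [abs_nonneg R])]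
    congr 1; ring
  have hle : volume S ≤ ENNReal.ofReal (2 * |R| * δ) := by
    refine (measure_mono hsub).trans (le_of_eq ?_)
    rw [hmp.measure_preimage, hB]
    have : MeasurableSet B :=
      (Complex.measurable_re measurableSet_Icc).inter (Complex.measurable_im measurableSet_Icc)
    exact this.nullMeasurableSet
  exact ENNReal.toReal_le_of_le_ofReal (by positivity) hle

/-- The smooth cutoff at scale `δ`. -/
def cutFn (δ : ℝ) (z : ℂ) : ℝ := ∏ j, Real.smoothTransition (M.ell j z / δ)

lemma cutFn_smooth (δ : ℝ) : ContDiff ℝ 1 (cutFn M δ) :=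
  contDiff_prod fun j _ => Real.smoothTransition.contDiff.comp ((ell_smooth M j).div_const δ)

lemma cutFn_range (δ : ℝ) (z : ℂ) : 0 ≤ cutFn M δ z ∧ cutFn M δ z ≤ 1 :=
  ⟨Finset.prod_nonneg fun _ _ => Real.smoothTransition.nonneg _,
    Finset.prod_le_one (fun _ _ => Real.smoothTransition.nonneg _)
      fun _ _ => Real.smoothTransition.le_one _⟩

lemma cutFn_support {δ : ℝ} (hδ : 0 < δ) : Function.support (cutFn M δ) ⊆ M.dom := by
  intro z hz j
  by_contra h
  refine hz (Finset.prod_eq_zero (Finset.mem_univ j) (Real.smoothTransition.zero_of_nonpos ?_))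
  exact div_nonpos_of_nonpos_of_nonneg (not_lt.1 h) hδ.le

lemma cutFn_compact {δ : ℝ} (hδ : 0 < δ) : HasCompactSupport (cutFn M δ) :=
  HasCompactSupport.of_support_subset_isCompact (isCompact_closure_dom M)
    ((cutFn_support M hδ).trans subset_closure)

/-- The derivative of `smoothTransition` is bounded. -/
lemma exists_deriv_bound : ∃ K : ℝ, 0 ≤ K ∧ ∀ t, |deriv Real.smoothTransition t| ≤ K ∧
    (t ≤ 0 → deriv Real.smoothTransition t = 0) ∧ (1 < t → deriv Real.smoothTransition t = 0) := by
  have hc : Continuous (deriv Real.smoothTransition) :=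
    (Real.smoothTransition.contDiff (n := 1)).continuous_deriv le_rfl
  obtain ⟨K, hK⟩ := (isCompact_Icc (a := (0:ℝ)) (b := 1)).exists_bound_of_continuousOn hc.continuousOn
  have h0 : ∀ t, t < 0 → deriv Real.smoothTransition t = 0 := fun t ht => by
    have : Real.smoothTransition =ᶠ[𝓝 t] fun _ => (0 : ℝ) :=
      mem_of_superset (Iio_mem_nhds ht) fun s (hs : s < 0) =>
        Real.smoothTransition.zero_of_nonpos hs.le
    rw [this.deriv_eq]; simp
  have h1 : ∀ t, 1 < t → deriv Real.smoothTransition t = 0 := fun t ht => by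
    have : Real.smoothTransition =ᶠ[𝓝 t] fun _ => (1 : ℝ) :=
      mem_of_superset (Ioi_mem_nhds ht) fun s (hs : 1 < s) =>
        Real.smoothTransition.one_of_one_le hs.le
    rw [this.deriv_eq]; simp
  have h00 : deriv Real.smoothTransition 0 = 0 := by
    have ht : Tendsto (deriv Real.smoothTransition) (𝓝[<] 0) (𝓝 0) :=
      (tendsto_congr' (eventually_nhdsWithin_of_forall fun t ht => h0 t ht)).2 tendsto_const_nhds
    exact tendsto_nhds_unique ((hc.tendsto 0).mono_left nhdsWithin_le_nhds) ht
  refine ⟨max K 0, le_max_right _ _, fun t => ⟨?_, fun ht => ?_, h1 t⟩⟩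
  · rcases lt_or_ge t 0 with h | h
    · simp [h0 t h]
    rcases lt_or_ge 1 t with h' | h'
    · simp [h1 t h']
    exact (hK t ⟨h, h'⟩).trans (le_max_left _ _)
  · rcases ht.lt_or_eq with h | h
    · exact h0 t h
    · rw [h]; exact h00

lemma cutFn_fderiv (δ : ℝ) (z : ℂ) :
    fderiv ℝ (cutFn M δ) z = ∑ j, (∏ i ∈ Finset.univ.erase j,
      Real.smoothTransition (M.ell i z / δ)) •
        (deriv Real.smoothTransition (M.ell j z / δ) • (δ⁻¹ • ellD M j)) := by
  refine (HasFDerivAt.finsetProd (u := Finset.univ)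
    (g := fun j (z : ℂ) => Real.smoothTransition (M.ell j z / δ)) fun j _ => ?_).fderiv
  have h : HasFDerivAt (fun z => M.ell j z / δ) (δ⁻¹ • ellD M j) z := by
    simpa [div_eq_mul_inv] using (ell_hasFDeriv M j z).mul_const δ⁻¹
  exact ((Real.smoothTransition.contDiff (n := 1)).differentiable one_ne_zero _).hasDerivAt
    |>.comp_hasFDerivAt z h

/-- The divergence theorem on the table. -/
theorem int_re_dzb {h : ℂ → ℂ} (hh : ContDiff ℝ 1 h)
    (hb : ∀ j, ∀ z ∈ closure M.dom, M.ell j z = 0 → (M.u j * h z).im = 0) :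
    ∫ z in M.dom, (dzb h z).re = 0 := by
  set p := fun z => (h z).re with hp
  set q := fun z => (h z).im with hq
  have hpd : ContDiff ℝ 1 p := Complex.reCLM.contDiff.comp hh
  have hqd : ContDiff ℝ 1 q := Complex.imCLM.contDiff.comp hh
  have hdiff := hh.differentiable one_ne_zero
  have hpv : ∀ z v, fderiv ℝ p z v = (fderiv ℝ h z v).re := fun z v => by
    rw [show p = Complex.reCLM ∘ h from rfl,
      (Complex.reCLM.hasFDerivAt.comp z (hdiff z).hasFDerivAt).fderiv]
    rfl
  have hqv : ∀ z v, fderiv ℝ q z v = (fderiv ℝ h z v).im := fun z v => by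
    rw [show q = Complex.imCLM ∘ h from rfl,
      (Complex.imCLM.hasFDerivAt.comp z (hdiff z).hasFDerivAt).fderiv]
    rfl
  have hre : ∀ z, (dzb h z).re = (fderiv ℝ p z 1 - fderiv ℝ q z Complex.I) / 2 := fun z => by
    rw [hpv, hqv]; simp [dzb]; ring
  have hp1 : Continuous fun z => fderiv ℝ p z 1 :=
    (hpd.continuous_fderiv one_ne_zero).clm_apply continuous_const
  have hq1 : Continuous fun z => fderiv ℝ q z Complex.I :=
    (hqd.continuous_fderiv one_ne_zero).clm_apply continuous_const
  have hrec : Continuous fun z => (dzb h z).re := by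
    simp only [hre]; exact (hp1.sub hq1).div_const 2
  -- integration by parts against the cutoff
  have hibp : ∀ δ : ℝ, 0 < δ → ∀ (g : ℂ → ℝ) (v : ℂ), ContDiff ℝ 1 g →
      ∫ z, cutFn M δ z * fderiv ℝ g z v = -∫ z, fderiv ℝ (cutFn M δ) z v * g z := by
    intro δ hδ g v hg
    have hc := cutFn_compact M hδ
    have hcd := cutFn_smooth M δ
    have hd : Continuous fun z => fderiv ℝ (cutFn M δ) z v :=
      (hcd.continuous_fderiv one_ne_zero).clm_apply continuous_const
    refine integral_mul_fderiv_eq_neg_fderiv_mul_of_integrable ?_ ?_ ?_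
      (fun z _ => hcd.differentiable one_ne_zero z) (fun z _ => hg.differentiable one_ne_zero z)
    · exact (hd.mul hg.continuous).integrable_of_hasCompactSupport
        (HasCompactSupport.mul_right (hc.fderiv_apply ℝ v))
    · exact (hcd.continuous.mul ((hg.continuous_fderiv one_ne_zero).clm_apply
        continuous_const)).integrable_of_hasCompactSupport hc.mul_right
    · exact (hcd.continuous.mul hg.continuous).integrable_of_hasCompactSupport hc.mul_right
  obtain ⟨K, hK0, hK⟩ := exists_deriv_bound
  choose Cs hCs0 hCs using fun j => strip_le M j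
  set Ctot := ∑ j, K * Cs j with hCtot
  have hCtot0 : 0 ≤ Ctot := Finset.sum_nonneg fun j _ => mul_nonneg hK0 (hCs0 j)
  have hest : ∀ η : ℝ, 0 < η → ∃ δ₀ : ℝ, 0 < δ₀ ∧ ∀ δ : ℝ, 0 < δ → δ ≤ δ₀ →
      |∫ z, cutFn M δ z * (dzb h z).re| ≤ η * Ctot := by
    intro η hη
    -- small normal component near each side
    have hloc : ∀ j, ∃ d : ℝ, 0 < d ∧ ∀ z ∈ closure M.dom, M.ell j z ≤ d →
        |(M.u j * h z).im| ≤ η := by
      intro j
      set Kj := closure M.dom ∩ {z | η ≤ |(M.u j * h z).im|}
      have hKc : IsCompact Kj := (isCompact_closure_dom M).inter_right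
        (isClosed_le continuous_const
          (Complex.continuous_im.comp (continuous_const.mul hh.continuous)).abs)
      rcases Kj.eq_empty_or_nonempty with he | he
      · refine ⟨1, one_pos, fun z hz _ => ?_⟩
        by_contra hc
        exact Set.notMem_empty z (he ▸ ⟨hz, (not_le.1 hc).le⟩)
      · obtain ⟨w, hw, hmin⟩ := hKc.exists_isMinOn he (ell_cont M j).continuousOn
        have hwpos : 0 < M.ell j w := (ell_nonneg M hw.1 j).lt_of_ne fun h0 => by
          have h2 : η ≤ |(M.u j * h w).im| := hw.2
          rw [hb j w hw.1 h0.symm, abs_zero] at h2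
          linarith
        refine ⟨M.ell j w / 2, by linarith, fun z hz hzd => ?_⟩
        by_contra hc
        have : M.ell j w ≤ M.ell j z := hmin ⟨hz, (not_le.1 hc).le⟩
        linarith
    choose d hd0 hd using hloc
    refine ⟨min (d 0) (min (d 1) (d 2)), lt_min (hd0 0) (lt_min (hd0 1) (hd0 2)),
      fun δ hδ hδd => ?_⟩
    have hdj : ∀ j, δ ≤ d j := Fin.forall_fin_succ.2 ⟨hδd.trans (min_le_left _ _),
      Fin.forall_fin_two.2 ⟨hδd.trans ((min_le_right _ _).trans (min_le_left _ _)),
        hδd.trans ((min_le_right _ _).trans (min_le_right _ _))⟩⟩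
    have hcd := cutFn_smooth M δ
    have hc := cutFn_compact M hδ
    have i1 : Integrable fun z => cutFn M δ z * fderiv ℝ p z 1 :=
      (hcd.continuous.mul hp1).integrable_of_hasCompactSupport hc.mul_right
    have i2 : Integrable fun z => cutFn M δ z * fderiv ℝ q z Complex.I :=
      (hcd.continuous.mul hq1).integrable_of_hasCompactSupport hc.mul_right
    have hcf : ∀ v, Continuous fun z => fderiv ℝ (cutFn M δ) z v := fun v =>
      (hcd.continuous_fderiv one_ne_zero).clm_apply continuous_const
    have i3 : Integrable fun z => fderiv ℝ (cutFn M δ) z 1 * p z :=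
      ((hcf 1).mul hpd.continuous).integrable_of_hasCompactSupport
        (HasCompactSupport.mul_right (hc.fderiv_apply ℝ 1))
    have i4 : Integrable fun z => fderiv ℝ (cutFn M δ) z Complex.I * q z :=
      ((hcf Complex.I).mul hqd.continuous).integrable_of_hasCompactSupport
        (HasCompactSupport.mul_right (hc.fderiv_apply ℝ Complex.I))
    have heq : ∫ z, cutFn M δ z * (dzb h z).re =
        -(∫ z, (fderiv ℝ (cutFn M δ) z 1 * p z - fderiv ℝ (cutFn M δ) z Complex.I * q z)) / 2 := by
      have e : (fun z => cutFn M δ z * (dzb h z).re) = fun z =>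
          (cutFn M δ z * fderiv ℝ p z 1 - cutFn M δ z * fderiv ℝ q z Complex.I) / 2 :=
        funext fun z => by rw [hre]; ring
      rw [e, integral_div, integral_sub i1 i2, hibp δ hδ p 1 hpd, hibp δ hδ q Complex.I hqd,
        integral_sub i3 i4]
      ring
    let S : Fin 3 → Set ℂ := fun j => {z | z ∈ M.dom ∧ M.ell j z < δ * (1 + 1)}
    let S' : Fin 3 → Set ℂ := fun j => {z | z ∈ M.dom ∧ M.ell j z ≤ δ}
    have hSm : ∀ j, MeasurableSet (S' j) := fun j =>
      (isOpen_dom M).measurableSet.inter (isClosed_le (ell_cont M j) continuous_const).measurableSet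
    have hdomfin : volume M.dom < ⊤ := (dom_bounded M).measure_lt_top
    have hSi : ∀ j, Integrable ((S' j).indicator fun _ => η * K / δ) := fun j =>
      (integrable_indicator_iff (hSm j)).2 (integrableOn_const
        ((measure_mono (fun z hz => hz.1)).trans_lt hdomfin).ne)
    have hpt : ∀ z, |fderiv ℝ (cutFn M δ) z 1 * p z - fderiv ℝ (cutFn M δ) z Complex.I * q z| ≤
        ∑ j, (S' j).indicator (fun _ => η * K / δ) z := by
      intro z
      have e : fderiv ℝ (cutFn M δ) z 1 * p z - fderiv ℝ (cutFn M δ) z Complex.I * q z =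
          ∑ j, (∏ i ∈ Finset.univ.erase j, Real.smoothTransition (M.ell i z / δ)) *
            deriv Real.smoothTransition (M.ell j z / δ) * δ⁻¹ * (-(M.u j * h z).im) := by
        simp only [cutFn_fderiv, FunLike.coe_sum, Finset.sum_apply,
          smul_apply, smul_eq_mul, ellD_apply, Finset.sum_mul,
          ← Finset.sum_sub_distrib]
        refine Finset.sum_congr rfl fun j _ => ?_
        simp [hp, hq]; ring
      rw [e]
      refine (Finset.abs_sum_le_sum_abs _ _).trans (Finset.sum_le_sum fun j _ => ?_)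
      set Pj := ∏ i ∈ Finset.univ.erase j, Real.smoothTransition (M.ell i z / δ) with hPj
      set D := deriv Real.smoothTransition (M.ell j z / δ) with hD
      by_cases hz : Pj * D = 0
      · rw [mul_assoc Pj D, ← mul_assoc, hz, zero_mul, zero_mul, abs_zero]
        exact indicator_nonneg (fun _ _ => by positivity) _
      · rw [mul_eq_zero, not_or] at hz
        have hjpos : 0 < M.ell j z := by
          by_contra hc'
          exact hz.2 ((hK _).2.1 (div_nonpos_of_nonpos_of_nonneg (not_lt.1 hc') hδ.le))
        have hjle : M.ell j z ≤ δ := by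
          by_contra hc'
          exact hz.2 ((hK _).2.2 ((one_lt_div hδ).2 (not_le.1 hc')))
        have hmem : z ∈ M.dom := fun i => by
          rcases eq_or_ne i j with rfl | hij
          · exact hjpos
          by_contra hc'
          refine hz.1 (Finset.prod_eq_zero (Finset.mem_erase.2 ⟨hij, Finset.mem_univ i⟩)
            (Real.smoothTransition.zero_of_nonpos ?_))
          exact div_nonpos_of_nonpos_of_nonneg (not_lt.1 hc') hδ.le
        rw [indicator_of_mem (show z ∈ S' j from ⟨hmem, hjle⟩), abs_mul, abs_mul, abs_mul, abs_neg]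
        have h1 : |Pj| ≤ 1 := by
          rw [abs_of_nonneg (Finset.prod_nonneg fun _ _ => Real.smoothTransition.nonneg _)]
          exact Finset.prod_le_one (fun _ _ => Real.smoothTransition.nonneg _)
            fun _ _ => Real.smoothTransition.le_one _
        have h2 := hd j z (subset_closure hmem) (hjle.trans (hdj j))
        rw [abs_of_pos (inv_pos.2 hδ)]
        calc |Pj| * |D| * δ⁻¹ * |(M.u j * h z).im| ≤ 1 * K * δ⁻¹ * η := by
              gcongr; exact (hK _).1
          _ = η * K / δ := by ring
    have hint : ∀ j, ∫ z, (S' j).indicator (fun _ => η * K / δ) z ≤ η * K * (Cs j * 2) := fun j => by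
      rw [integral_indicator (hSm j), setIntegral_const, smul_eq_mul]
      have hss : S' j ⊆ {z | z ∈ M.dom ∧ M.ell j z < 2 * δ} := fun z hz =>
        ⟨hz.1, lt_of_le_of_lt hz.2 (by linarith)⟩
      have : (volume (S' j)).toReal ≤ Cs j * (2 * δ) :=
        (ENNReal.toReal_mono ((measure_mono (fun z hz => hz.1)).trans_lt hdomfin).ne
          (measure_mono hss)).trans (hCs j (2 * δ) (by linarith))
      calc (volume : Measure ℂ).real (S' j) * (η * K / δ) ≤ Cs j * (2 * δ) * (η * K / δ) :=
            mul_le_mul_of_nonneg_right this (by positivity)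
        _ = η * K * (Cs j * 2) := by field_simp
    rw [heq, abs_div, abs_neg, abs_two, div_le_iff₀ two_pos]
    refine (abs_integral_le_integral_abs).trans ((integral_mono (i3.sub i4).abs
      (integrable_finsetSum _ fun j _ => hSi j) hpt).trans ?_)
    rw [integral_finsetSum _ fun j _ => hSi j, hCtot, Finset.mul_sum, Finset.sum_mul]
    refine Finset.sum_le_sum fun j _ => (hint j).trans (le_of_eq ?_)
    ring
  -- let the cutoff tend to the indicator of the domain
  set e : ℕ → ℝ := fun n => 1 / ((n : ℝ) + 1)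
  have he0 : ∀ n, 0 < e n := fun n => by simp only [e]; positivity
  have het : Tendsto e atTop (𝓝 0) := tendsto_one_div_add_atTop_nhds_zero_nat
  have hlim : Tendsto (fun n => ∫ z, cutFn M (e n) z * (dzb h z).re) atTop
      (𝓝 (∫ z in M.dom, (dzb h z).re)) := by
    rw [← integral_indicator (isOpen_dom M).measurableSet]
    refine tendsto_integral_of_dominated_convergence
      (M.dom.indicator fun z => |(dzb h z).re|)
      (fun n => ((cutFn_smooth M _).continuous.mul hrec).aestronglyMeasurable)
      ((integrable_indicator_iff (isOpen_dom M).measurableSet).2 (intOn M hrec.abs))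
      (fun n => Eventually.of_forall fun z => ?_) (Eventually.of_forall fun z => ?_)
    · by_cases hz : z ∈ M.dom
      · rw [indicator_of_mem hz, Real.norm_eq_abs, abs_mul, abs_of_nonneg (cutFn_range M _ z).1]
        exact mul_le_of_le_one_left (abs_nonneg _) (cutFn_range M _ z).2
      · rw [indicator_of_notMem hz,
          Function.notMem_support.1 fun h' => hz (cutFn_support M (he0 n) h'), zero_mul, norm_zero]
    · by_cases hz : z ∈ M.dom
      · rw [indicator_of_mem hz]
        refine tendsto_const_nhds.congr' ?_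
        filter_upwards [(eventually_all (l := atTop)).2 fun j =>
          het.eventually (ge_mem_nhds (hz j))] with n hn
        rw [cutFn, Finset.prod_eq_one fun j _ => Real.smoothTransition.one_of_one_le
          ((one_le_div (he0 n)).2 (hn j)), one_mul]
      · rw [indicator_of_notMem hz]
        refine tendsto_const_nhds.congr' (Eventually.of_forall fun n => ?_)
        simp [Function.notMem_support.1 fun h' => hz (cutFn_support M (he0 n) h')]
  refine eq_of_abs_sub_eq_zero ?_
  rw [sub_zero]
  refine le_antisymm (le_of_forall_pos_le_add fun η hη => ?_) (abs_nonneg _)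
  obtain ⟨δ₀, hδ₀, hd⟩ := hest (η / (Ctot + 1)) (by positivity)
  rw [zero_add]
  refine le_of_tendsto hlim.abs ?_
  filter_upwards [het.eventually (ge_mem_nhds hδ₀)] with n hn
  refine (hd (e n) (he0 n) hn).trans ?_
  rw [div_mul_eq_mul_div, div_le_iff₀ (by positivity)]
  nlinarith

/-! ### Calculus of `dz` and `dzb` -/

lemma dzb_conj_mul {f g : ℂ → ℂ} (hf : Differentiable ℝ f) (hg : Differentiable ℝ g) (z : ℂ) :
    dzb (fun w => conj (f w) * g w) z = conj (dz f z) * g z + conj (f z) * dzb g z := by
  have hc : HasFDerivAt (fun w => conj (f w))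
      (Complex.conjCLE.toContinuousLinearMap.comp (fderiv ℝ f z)) z :=
    Complex.conjCLE.toContinuousLinearMap.hasFDerivAt.comp z (hf z).hasFDerivAt
  have h : HasFDerivAt (fun w => conj (f w) * g w) _ z := hc.mul (hg z).hasFDerivAt
  simp only [dzb, dz, h.fderiv]
  simp [map_sub, map_div₀, map_ofNat]
  ring

lemma dzb_mul_conj {f g : ℂ → ℂ} (hf : Differentiable ℝ f) (hg : Differentiable ℝ g) (z : ℂ) :
    dzb (fun w => f w * conj (g w)) z = dzb f z * conj (g z) + f z * conj (dz g z) := by
  have hc : HasFDerivAt (fun w => conj (g w))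
      (Complex.conjCLE.toContinuousLinearMap.comp (fderiv ℝ g z)) z :=
    Complex.conjCLE.toContinuousLinearMap.hasFDerivAt.comp z (hg z).hasFDerivAt
  have h : HasFDerivAt (fun w => f w * conj (g w)) _ z := (hf z).hasFDerivAt.mul hc
  simp only [dzb, dz, h.fderiv]
  simp [map_sub, map_div₀, map_ofNat]
  ring

lemma contDiff_dz {f : ℂ → ℂ} (hf : ContDiff ℝ 2 f) : ContDiff ℝ 1 (dz f) := by
  have h := hf.fderiv_right (m := 1) (by norm_num)
  exact ((h.clm_apply contDiff_const).sub
    (contDiff_const.mul (h.clm_apply contDiff_const))).div_const 2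

lemma contDiff_dzb {f : ℂ → ℂ} (hf : ContDiff ℝ 2 f) : ContDiff ℝ 1 (dzb f) := by
  have h := hf.fderiv_right (m := 1) (by norm_num)
  exact ((h.clm_apply contDiff_const).add
    (contDiff_const.mul (h.clm_apply contDiff_const))).div_const 2

lemma dzb_dz_comm {f : ℂ → ℂ} (hf : ContDiff ℝ 2 f) (z : ℂ) :
    dzb (dz f) z = dz (dzb f) z := by
  have h : Differentiable ℝ (fderiv ℝ f) :=
    (hf.fderiv_right (m := 1) (by norm_num)).differentiable one_ne_zero
  set H := fderiv ℝ (fderiv ℝ f) z
  have hsymm : H 1 Complex.I = H Complex.I 1 :=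
    (hf.contDiffAt.isSymmSndFDerivAt (by simp)).eq 1 Complex.I
  have hd : ∀ v, HasFDerivAt (fun w => fderiv ℝ f w v) (H.flip v) z := fun v => by
    have := (h z).hasFDerivAt.clm_apply (hasFDerivAt_const v z)
    simpa using this
  have e1 : HasFDerivAt (dz f)
      ((2 : ℂ)⁻¹ • (H.flip 1 - Complex.I • H.flip Complex.I)) z := by
    refine (((hd 1).sub ((hd Complex.I).const_smul Complex.I)).const_smul
      (2 : ℂ)⁻¹).congr_of_eventuallyEq (Eventually.of_forall fun w => ?_)
    simp [dz, div_eq_inv_mul]
  have e2 : HasFDerivAt (dzb f)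
      ((2 : ℂ)⁻¹ • (H.flip 1 + Complex.I • H.flip Complex.I)) z := by
    refine (((hd 1).add ((hd Complex.I).const_smul Complex.I)).const_smul
      (2 : ℂ)⁻¹).congr_of_eventuallyEq (Eventually.of_forall fun w => ?_)
    simp [dzb, div_eq_inv_mul]
  simp only [dzb, dz, e1.fderiv, e2.fderiv, FunLike.coe_smul, Pi.smul_apply,
    sub_apply, add_apply, ContinuousLinearMap.flip_apply,
    smul_eq_mul, hsymm]
  ring

/-- Integration by parts for two functions with phases `k - 1` and `k`. -/
lemma ibp_pair {f g : ℂ → ℂ} (hf : ContDiff ℝ 1 f) (hg : ContDiff ℝ 1 g) (k : ℤ)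
    (hfp : EdgePhase M (k - 1) f) (hgp : EdgePhase M k g) :
    M.ip (dz f) g = -M.ip f (dzb g) ∧ M.ip (dzb g) f = -M.ip g (dz f) := by
  have hu : ∀ j, M.u j ≠ 0 := fun j => Complex.exp_ne_zero _
  have hcu : ∀ j (n : ℤ), conj (M.u j ^ n) = (M.u j ^ n)⁻¹ := fun j n => by
    rw [← inv_zpow, map_zpow₀, eq_inv_of_mul_eq_one_left (conj_u_mul M j)]
  have hphase : ∀ j z, M.u j * (conj (f z) * g z) =
      conj (M.u j ^ (k - 1) * f z) * (M.u j ^ k * g z) := fun j z => by
    rw [map_mul, hcu]
    have : (M.u j ^ (k - 1))⁻¹ * M.u j ^ k = M.u j := by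
      rw [← zpow_neg, ← zpow_add₀ (hu j), show -(k - 1) + k = 1 by ring, zpow_one]
    calc M.u j * (conj (f z) * g z) = ((M.u j ^ (k - 1))⁻¹ * M.u j ^ k) * (conj (f z) * g z) := by
          rw [this]
      _ = _ := by ring
  have hz := int_re_dzb M
    ((Complex.conjCLE.toContinuousLinearMap.contDiff.comp hf).mul hg) fun j z hz hz0 => by
      show (M.u j * (conj (f z) * g z)).im = 0
      rw [hphase, Complex.mul_im, Complex.conj_re, Complex.conj_im, hfp j z hz hz0,
        hgp j z hz hz0]
      ring
  have hdf := hf.differentiable one_ne_zero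
  have hdg := hg.differentiable one_ne_zero
  have c1 : Continuous (dz f) := by
    have := hf.continuous_fderiv one_ne_zero
    exact ((this.clm_apply continuous_const).sub
      (continuous_const.mul (this.clm_apply continuous_const))).div_const _
  have c2 : Continuous (dzb g) := by
    have := hg.continuous_fderiv one_ne_zero
    exact ((this.clm_apply continuous_const).add
      (continuous_const.mul (this.clm_apply continuous_const))).div_const _
  have hsum : M.ip (dz f) g + M.ip f (dzb g) = 0 := by
    have i1 : IntegrableOn (fun z => (conj (dz f z) * g z).re) M.dom volume :=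
      intOn M (Complex.continuous_re.comp ((Complex.continuous_conj.comp c1).mul hg.continuous))
    have i2 : IntegrableOn (fun z => (conj (f z) * dzb g z).re) M.dom volume :=
      intOn M (Complex.continuous_re.comp ((Complex.continuous_conj.comp hf.continuous).mul c2))
    rw [Table.ip, Table.ip, ← integral_add i1 i2]
    refine (integral_congr_ae (Eventually.of_forall fun z => ?_)).trans hz
    show _ = (dzb (fun w => conj (f w) * g w) z).re
    rw [dzb_conj_mul hdf hdg, Complex.add_re]
  refine ⟨by linarith, ?_⟩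
  have hsw : ∀ a b : ℂ → ℂ, M.ip a b = M.ip b a := fun a b => by
    refine integral_congr_ae (Eventually.of_forall fun z => ?_)
    simp [Complex.mul_re]; ring
  rw [hsw (dzb g) f, hsw g (dz f)]
  linarith

lemma nq_eq_ip (f : ℂ → ℂ) : M.nq f = M.ip f f := by
  refine integral_congr_ae (Eventually.of_forall fun z => ?_)
  show ‖f z‖ ^ 2 = (conj (f z) * f z).re
  rw [mul_comm, Complex.mul_conj, Complex.normSq_eq_norm_sq, Complex.ofReal_re]

end Ibp

open Ibp in
theorem ibp_holds : IbpStmt := fun M a ha k b hb hbp =>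
  (ibp_pair M ((ha.smooth (k - 1)).of_le (by norm_num)) hb k
    (fun j z hz h0 => (ha.phase (k - 1) j z hz h0).1) hbp).1

open Ibp in
theorem dbar_holds : DbarStmt := fun M a ha k => by
  have h2 := ha.smooth k
  have h1 : ContDiff ℝ 1 (a k) := h2.of_le (by norm_num)
  have hp : EdgePhase M k (a k) := fun j z hz h0 => (ha.phase k j z hz h0).1
  have hpd : EdgePhase M (k + 1) (dz (a k)) := fun j z hz h0 => (ha.phase k j z hz h0).2.1
  have hpb : EdgePhase M (k - 1) (dzb (a k)) := fun j z hz h0 => (ha.phase k j z hz h0).2.2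
  have e1 := (ibp_pair M h1 (contDiff_dz h2) (k + 1) (by rwa [add_sub_cancel_right]) hpd).1
  have e2 := (ibp_pair M (contDiff_dzb h2) h1 k hpb hp).2
  rw [nq_eq_ip, nq_eq_ip, e2, e1, show dzb (dz (a k)) = dz (dzb (a k)) from
    funext (dzb_dz_comm h2)]

end Vale.Agent.P099
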