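import Vale.Agent.P099.Spec

/-!
# P099: mollifiers, their derivatives, and modes of convolutions
-/

noncomputable section

namespace Vale.Agent.P099

open MeasureTheory Set Complex Filter Topology
open scoped ComplexConjugate Convolution

/-- A radial bump supported in the unit disc. -/
def bump0 (y : ℂ) : ℝ := Real.smoothTransition (1 - ‖y‖ ^ 2)

lemma contDiff_bump0 : ContDiff ℝ ((⊤ : ℕ∞) : WithTop ℕ∞) bump0 :=
  Real.smoothTransition.contDiff.comp (contDiff_const.sub (contDiff_norm_sq ℝ))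

lemma bump0_eq_zero {y : ℂ} (h : 1 ≤ ‖y‖) : bump0 y = 0 :=
  Real.smoothTransition.zero_of_nonpos (sub_nonpos.2 (one_le_pow₀ h))

lemma compact_bump0 : HasCompactSupport bump0 :=
  HasCompactSupport.intro (isCompact_closedBall (0 : ℂ) 1) fun y hy => by
    rw [Metric.mem_closedBall, dist_zero_right, not_le] at hy
    exact bump0_eq_zero hy.le

lemma integral_bump0_pos : 0 < ∫ y, bump0 y := by
  refine contDiff_bump0.continuous.integral_pos_of_hasCompactSupport_nonneg_nonzero
    compact_bump0 (fun y => Real.smoothTransition.nonneg _) (x := 0) ?_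
  simp [bump0, Real.smoothTransition.one_of_one_le]

theorem kernelStmt_holds : KernelStmt := by
  set I := ∫ y, bump0 y with hI
  have hI0 : 0 < I := integral_bump0_pos
  set J := ∫ y, ‖fderiv ℝ bump0 y‖ with hJ
  have hJ0 : 0 ≤ J := integral_nonneg fun y => norm_nonneg _
  refine ⟨fun ε y => (ε ^ 2 * I)⁻¹ * bump0 (ε⁻¹ • y), J / I + 1, by positivity,
    fun ε hε => ⟨?_, fun y hy => ?_, fun y => ?_, ?_, fun ω y hω => ?_, ?_⟩⟩
  · exact contDiff_const.mul (contDiff_bump0.comp (contDiff_const_smul _))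
  · dsimp only
    rw [bump0_eq_zero, mul_zero]
    rw [norm_smul, norm_inv, Real.norm_eq_abs, abs_of_pos hε, ← div_eq_inv_mul, one_le_div hε]
    exact hy
  · exact mul_nonneg (by positivity) (Real.smoothTransition.nonneg _)
  · rw [integral_const_mul, Measure.integral_comp_inv_smul_of_nonneg volume bump0 hε.le,
      Complex.finrank_real_complex, smul_eq_mul, ← hI]
    field_simp
  · simp only [bump0, norm_smul, norm_mul, Complex.norm_conj, hω, one_mul]
  · have e : ∀ y, ‖fderiv ℝ (fun y => (ε ^ 2 * I)⁻¹ * bump0 (ε⁻¹ • y)) y‖ =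
        (ε ^ 2 * I)⁻¹ * ε⁻¹ * ‖fderiv ℝ bump0 (ε⁻¹ • y)‖ := fun y => by
      have hd : DifferentiableAt ℝ (fun z : ℂ => bump0 (ε⁻¹ • z)) y :=
        ((contDiff_bump0.comp (contDiff_const_smul _)).differentiable (by simp)) y
      rw [fderiv_const_mul hd, fderiv_comp_smul, norm_smul, norm_smul, Real.norm_eq_abs,
        Real.norm_eq_abs, abs_of_pos (by positivity : (0 : ℝ) < (ε ^ 2 * I)⁻¹),
        abs_of_pos (inv_pos.2 hε), mul_assoc]
    simp only [e]
    rw [integral_const_mul, Measure.integral_comp_inv_smul_of_nonneg volume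
      (fun y => ‖fderiv ℝ bump0 y‖) hε.le, Complex.finrank_real_complex, smul_eq_mul, ← hJ,
      le_div_iff₀ hε]
    refine le_trans (le_of_eq ?_) (le_add_of_nonneg_right zero_le_one)
    field_simp

/-! ### Derivatives of radial kernels -/

lemma dz_ofReal {φ : ℂ → ℝ} {y : ℂ} (h : DifferentiableAt ℝ φ y) :
    dz (fun y => (φ y : ℂ)) y = ((fderiv ℝ φ y 1 : ℂ) - I * fderiv ℝ φ y I) / 2 ∧
      dzb (fun y => (φ y : ℂ)) y = ((fderiv ℝ φ y 1 : ℂ) + I * fderiv ℝ φ y I) / 2 := by
  have e : fderiv ℝ (fun y => (φ y : ℂ)) y = ofRealCLM.comp (fderiv ℝ φ y) :=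
    (ofRealCLM.hasFDerivAt.comp y h.hasFDerivAt).fderiv
  simp [dz, dzb, e]

lemma norm_half_le {L : ℂ →L[ℝ] ℝ} {s : ℂ} (hs : ‖s‖ = 1) :
    ‖((L 1 : ℂ) + s * L I) / 2‖ ≤ ‖L‖ := by
  rw [norm_div, Complex.norm_ofNat, div_le_iff₀ (by norm_num : (0 : ℝ) < 2)]
  refine (norm_add_le _ _).trans ?_
  rw [norm_mul, hs, one_mul, Complex.norm_real, Complex.norm_real]
  have h1 := L.le_opNorm 1
  have h2 := L.le_opNorm I
  simp only [norm_one, norm_I, mul_one] at h1 h2
  linarith

/-- The gradient of an invariant kernel is equivariant. -/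
lemma fderiv_refl {φ : ℂ → ℝ} (hφ : Differentiable ℝ φ) {ω : ℂ}
    (hinv : ∀ y, φ (ω * conj y) = φ y) (y h : ℂ) :
    fderiv ℝ φ (ω * conj y) (ω * conj h) = fderiv ℝ φ y h := by
  set R : ℂ →L[ℝ] ℂ := (ContinuousLinearMap.mul ℝ ℂ ω).comp (conjCLE : ℂ →L[ℝ] ℂ)
  have hR : ∀ z, R z = ω * conj z := fun z => rfl
  have hfun : φ ∘ R = φ := funext fun z => by rw [Function.comp_apply, hR, hinv]
  have h1 := (hφ (R y)).hasFDerivAt.comp y R.hasFDerivAt
  rw [hfun] at h1
  rw [h1.fderiv]
  rfl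

lemma reim_apply (L : ℂ →L[ℝ] ℝ) (z : ℂ) : L z = z.re * L 1 + z.im * L I := by
  conv_lhs =>
    rw [show z = z.re • (1 : ℂ) + z.im • I by simp [Complex.real_smul, Complex.re_add_im]]
  rw [map_add, map_smul, map_smul, smul_eq_mul, smul_eq_mul]

lemma dz_refl {φ : ℂ → ℝ} (hφ : Differentiable ℝ φ) {ω : ℂ} (hω : ‖ω‖ = 1)
    (hinv : ∀ y, φ (ω * conj y) = φ y) (y : ℂ) :
    dz (fun y => (φ y : ℂ)) (ω * conj y) = conj ω * conj (dz (fun y => (φ y : ℂ)) y) ∧
      dzb (fun y => (φ y : ℂ)) (ω * conj y) = ω * conj (dzb (fun y => (φ y : ℂ)) y) := by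
  rw [(dz_ofReal (hφ y)).1, (dz_ofReal (hφ y)).2, (dz_ofReal (hφ _)).1, (dz_ofReal (hφ _)).2]
  set L := fderiv ℝ φ (ω * conj y)
  have e1 : fderiv ℝ φ y 1 = ω.re * L 1 + ω.im * L I := by
    rw [← fderiv_refl hφ hinv, map_one, mul_one, reim_apply]
  have e2 : fderiv ℝ φ y I = ω.im * L 1 - ω.re * L I := by
    rw [← fderiv_refl hφ hinv, conj_I, reim_apply]
    simp [Complex.mul_re, Complex.mul_im]
    ring
  have h1 : ω.re ^ 2 + ω.im ^ 2 = 1 := by
    have := Complex.normSq_eq_norm_sq ω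
    rw [hω, Complex.normSq_apply] at this
    linarith
  rw [e1, e2]
  constructor <;> refine Complex.ext ?_ ?_ <;>
    simp only [Complex.add_re, Complex.add_im, Complex.sub_re, Complex.sub_im, Complex.mul_re,
      Complex.mul_im, Complex.I_re, Complex.I_im, Complex.ofReal_re, Complex.ofReal_im,
      Complex.conj_re, Complex.conj_im, Complex.div_re, Complex.div_im, Complex.re_ofNat,
      Complex.im_ofNat, Complex.normSq_ofNat] <;>
    first
      | ring1
      | linear_combination (L 1 / 2) * h1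
      | linear_combination -(L 1 / 2) * h1
      | linear_combination (L I / 2) * h1
      | linear_combination -(L I / 2) * h1

lemma niceKer_dz {ψ : ℂ → ℂ} (h : NiceKer ψ) : NiceKer (dz ψ) ∧ NiceKer (dzb ψ) := by
  have hd : ContDiff ℝ ((⊤ : ℕ∞) : WithTop ℕ∞) (fderiv ℝ ψ) := h.1.fderiv_right (by simp)
  have h1 := hd.clm_apply (contDiff_const (c := (1 : ℂ)))
  have h2 := hd.clm_apply (contDiff_const (c := I))
  have hc := h.2.fderiv ℝ
  refine ⟨⟨(h1.sub (contDiff_const.mul h2)).div_const 2, hc.mono fun z hz h0 => hz ?_⟩,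
    ⟨(h1.add (contDiff_const.mul h2)).div_const 2, hc.mono fun z hz h0 => hz ?_⟩⟩ <;>
  simp [dz, dzb, h0]

lemma fderiv_eq_zero_outside {φ : ℂ → ℝ} {ε : ℝ} (hε : 0 < ε)
    (hφ : ContDiff ℝ ((⊤ : ℕ∞) : WithTop ℕ∞) φ)
    (h0 : ∀ y, ε ≤ ‖y‖ → φ y = 0) {y : ℂ} (hy : ε ≤ ‖y‖) : fderiv ℝ φ y = 0 := by
  have hopen : ∀ z : ℂ, ε < ‖z‖ → fderiv ℝ φ z = 0 := fun z hz => by
    have e : φ =ᶠ[𝓝 z] fun _ => 0 :=
      ((isOpen_lt continuous_const continuous_norm).mem_nhds hz : _) |> fun hmem =>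
        Filter.mem_of_superset hmem fun w hw => h0 w (le_of_lt hw)
    rw [e.fderiv_eq, fderiv_fun_const]; rfl
  have hc : Continuous (fderiv ℝ φ) := hφ.continuous_fderiv (by simp)
  have ht : Tendsto (fun t : ℝ => fderiv ℝ φ (t • y)) (𝓝[>] 1)
      (𝓝 (fderiv ℝ φ ((1 : ℝ) • y))) :=
    ((hc.comp (continuous_id.smul continuous_const)).tendsto 1).mono_left nhdsWithin_le_nhds
  have h1 : Tendsto (fun t : ℝ => fderiv ℝ φ (t • y)) (𝓝[>] 1) (𝓝 0) := by
    refine tendsto_const_nhds.congr' ?_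
    filter_upwards [self_mem_nhdsWithin] with t ht
    have ht : (1 : ℝ) < t := ht
    refine (hopen _ ?_).symm
    rw [norm_smul, Real.norm_eq_abs, abs_of_pos (by linarith)]
    nlinarith
  simpa using tendsto_nhds_unique ht h1

theorem kerRefStmt_holds : KerRefStmt := by
  intro M ε φ hε hφ h0 hinv ψ
  have hd : Differentiable ℝ φ := hφ.differentiable (by simp)
  have hsupp : HasCompactSupport φ :=
    HasCompactSupport.intro (isCompact_closedBall (0 : ℂ) ε) fun y hy => by
      rw [Metric.mem_closedBall, dist_zero_right, not_le] at hy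
      exact h0 y hy.le
  have hψ : NiceKer ψ :=
    ⟨ofRealCLM.contDiff.comp hφ, hsupp.comp_left (g := ((↑) : ℝ → ℂ)) Complex.ofReal_zero⟩
  have hu : ∀ j, ‖M.u j * M.u j‖ = 1 := fun j => by
    simp [Table.u, Complex.norm_exp_ofReal_mul_I]
  have hu0 : ∀ j, M.u j ≠ 0 := fun j => Complex.exp_ne_zero _
  have hz : ∀ j, conj (M.u j * M.u j) = M.u j ^ (-2 : ℤ) := fun j => by
    rw [← Complex.inv_eq_conj (hu j), show (-2 : ℤ) = -((2 : ℕ) : ℤ) by norm_num, zpow_neg,
      zpow_natCast, pow_two]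
  obtain ⟨hk1, hk2⟩ := niceKer_dz hψ
  refine ⟨⟨hψ, hψ.1.continuous, fun y hy => ?_, fun j y => ?_⟩,
    ⟨hk1, hk1.1.continuous, fun y hy => ?_, fun j y => ?_⟩,
    ⟨hk2, hk2.1.continuous, fun y hy => ?_, fun j y => ?_⟩, ?_, fun y => ?_, fun y => ?_⟩
  · simp [ψ, h0 y hy]
  · simp [ψ, Table.rlin, hinv _ y (hu j)]
  · simp [ψ, (dz_ofReal (hd y)).1, fderiv_eq_zero_outside hε hφ h0 hy]
  · rw [show (-2 * 1 : ℤ) = -2 by norm_num, ← hz]
    exact (dz_refl hd (hu j) (fun z => hinv _ z (hu j)) y).1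
  · simp [ψ, (dz_ofReal (hd y)).2, fderiv_eq_zero_outside hε hφ h0 hy]
  · rw [show (-2 * -1 : ℤ) = ((2 : ℕ) : ℤ) by norm_num, zpow_natCast, pow_two]
    exact (dz_refl hd (hu j) (fun z => hinv _ z (hu j)) y).2
  · funext y
    have hD : DifferentiableAt ℝ (fderiv ℝ ψ) y :=
      (hψ.1.fderiv_right (m := 1)
        (WithTop.coe_le_coe.2 (le_top : ((1 : ℕ∞) + 1) ≤ ⊤))).differentiable one_ne_zero y
    have hle : minSmoothness ℝ 2 ≤ ((⊤ : ℕ∞) : WithTop ℕ∞) := by
      rw [minSmoothness_of_isRCLikeNormedField]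
      exact WithTop.coe_le_coe.2 (le_top : (2 : ℕ∞) ≤ ⊤)
    have hs : IsSymmSndFDerivAt ℝ ψ y := hψ.1.contDiffAt.isSymmSndFDerivAt hle
    have h1 : ∀ v, HasFDerivAt (fun z => fderiv ℝ ψ z v)
        ((fderiv ℝ (fderiv ℝ ψ) y).flip v) y := fun v => by
      simpa using hD.hasFDerivAt.clm_apply (hasFDerivAt_const v y)
    have ea : fderiv ℝ (dz ψ) y = (2 : ℂ)⁻¹ • ((fderiv ℝ (fderiv ℝ ψ) y).flip 1 -
        I • (fderiv ℝ (fderiv ℝ ψ) y).flip I) := by
      refine ((((h1 1).sub ((h1 I).const_smul I)).const_smul (2 : ℂ)⁻¹).congr_of_eventuallyEq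
        (Eventually.of_forall fun z => ?_)).fderiv
      simp [dz, div_eq_inv_mul]
    have eb : fderiv ℝ (dzb ψ) y = (2 : ℂ)⁻¹ • ((fderiv ℝ (fderiv ℝ ψ) y).flip 1 +
        I • (fderiv ℝ (fderiv ℝ ψ) y).flip I) := by
      refine ((((h1 1).add ((h1 I).const_smul I)).const_smul (2 : ℂ)⁻¹).congr_of_eventuallyEq
        (Eventually.of_forall fun z => ?_)).fderiv
      simp [dzb, div_eq_inv_mul]
    show (fderiv ℝ (dzb ψ) y 1 - I * fderiv ℝ (dzb ψ) y I) / 2 =
      (fderiv ℝ (dz ψ) y 1 + I * fderiv ℝ (dz ψ) y I) / 2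
    rw [ea, eb]
    simp [hs 1 I]
    ring
  · rw [(dz_ofReal (hd y)).1, sub_eq_add_neg, ← neg_mul]
    exact norm_half_le (by simp)
  · rw [(dz_ofReal (hd y)).2]
    exact norm_half_le Complex.norm_I

/-! ### Modes of convolutions -/

lemma measurable_modeR {G : Phase → ℝ} (hG : Measurable G) (k : ℤ) :
    StronglyMeasurable (modeR G k) := by
  have h : StronglyMeasurable fun p : Phase => fourier (-k) p.2 • ((G p : ℝ) : ℂ) :=
    (((fourier (-k)).continuous.measurable.comp measurable_snd).smul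
      (Complex.measurable_ofReal.comp hG)).stronglyMeasurable
  exact h.integral_prod_right' (ν := unifDir)

lemma modeR_bounds {G : Phase → ℝ} (hG : NiceFn G) (k : ℤ) :
    Integrable (modeR G k) := by
  obtain ⟨hm, ⟨B, hB⟩, R, hR⟩ := hG
  have hb : ∀ w, ‖modeR G k w‖ ≤ B := fun w => by
    refine (norm_integral_le_of_norm_le_const (C := B) (Eventually.of_forall fun θ => ?_)).trans
      (by simp)
    rw [norm_smul, Complex.norm_real, fourier_apply, Circle.norm_coe, one_mul]
    exact hB _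
  have hz : ∀ w, w ∉ Metric.closedBall (0 : ℂ) R → modeR G k w = 0 := fun w hw => by
    rw [Metric.mem_closedBall, dist_zero_right, not_le] at hw
    simp [modeR, mode, fourierCoeff, hR (w, _) hw.le]
  refine (integrableOn_iff_integrable_of_support_subset fun w hw => ?_).1
    (Measure.integrableOn_of_bounded (M := B) (isCompact_closedBall (0 : ℂ) R).measure_lt_top.ne
      (measurable_modeR hm k).aestronglyMeasurable (ae_of_all _ hb))
  by_contra h
  exact hw (hz w h)

lemma smode_eq_conv (ψ : ℂ → ℂ) (G : Phase → ℝ) (k : ℤ) :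
    smode ψ G k = modeR G k ⋆[ContinuousLinearMap.mul ℝ ℂ, volume] ψ := by
  funext z
  simp only [smode, convolution_def, ContinuousLinearMap.mul_apply']
  congr 1; funext w; ring

lemma smode_deriv {ψ : ℂ → ℂ} {G : Phase → ℝ} (k : ℤ) (hψ : NiceKer ψ) (hG : NiceFn G)
    (z h : ℂ) :
    fderiv ℝ (smode ψ G k) z h = smode (fun y => fderiv ℝ ψ y h) G k z := by
  have hf := (modeR_bounds hG k).locallyIntegrable
  have h1 : ContDiff ℝ 1 ψ := hψ.1.of_le (by simp)
  rw [smode_eq_conv, smode_eq_conv,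
    (hψ.2.hasFDerivAt_convolution_right _ hf h1 z).fderiv,
    convolution_precompR_apply _ hf (hψ.2.fderiv ℝ) (h1.continuous_fderiv one_ne_zero)]

lemma smode_lin {ψ₁ ψ₂ : ℂ → ℂ} {G : Phase → ℝ} (k : ℤ) (h₁ : Continuous ψ₁)
    (c₁ : HasCompactSupport ψ₁) (h₂ : Continuous ψ₂) (c₂ : HasCompactSupport ψ₂) (hG : NiceFn G)
    (a b z : ℂ) :
    smode (fun y => a * ψ₁ y + b * ψ₂ y) G k z = a * smode ψ₁ G k z + b * smode ψ₂ G k z := by
  have hi : ∀ ψ : ℂ → ℂ, Continuous ψ → HasCompactSupport ψ →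
      Integrable fun w => ψ (z - w) * modeR G k w := fun ψ hc hs => by
    obtain ⟨C, hC⟩ := hs.exists_bound_of_continuous hc
    exact (modeR_bounds hG k).bdd_mul (c := C)
      (hc.comp (continuous_const.sub continuous_id)).aestronglyMeasurable
      (ae_of_all _ fun w => hC _)
  simp only [smode]
  rw [← integral_const_mul, ← integral_const_mul,
    ← integral_add ((hi _ h₁ c₁).const_mul a) ((hi _ h₂ c₂).const_mul b)]
  congr 1; funext w; ring

lemma smode_eq_mode {ψ : ℂ → ℂ} {G : Phase → ℝ} (k : ℤ) (hc : Continuous ψ)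
    (hs : HasCompactSupport ψ) (hG : NiceFn G) (z : ℂ) :
    smode ψ G k z = mode (sm ψ G) k z := by
  obtain ⟨hm, ⟨B, hB⟩, R, hR⟩ := hG
  obtain ⟨C, hC⟩ := hs.exists_bound_of_continuous hc
  simp only [smode, mode, modeR, sm, fourierCoeff, smul_eq_mul, ← integral_const_mul]
  rw [integral_integral_swap]
  · congr 1; funext w; congr 1; funext θ; ring
  · have hdom : Integrable (fun p : ℂ × Dir =>
        (Metric.closedBall (0 : ℂ) R).indicator (fun _ => C * B) p.1) (volume.prod unifDir) :=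
      Integrable.comp_fst ((integrable_indicator_iff measurableSet_closedBall).2
        (integrableOn_const (isCompact_closedBall (0 : ℂ) R).measure_lt_top.ne)) unifDir
    have hmeas : Measurable fun p : ℂ × Dir =>
        ψ (z - p.1) * (fourier (-k) p.2 * (G p : ℂ)) :=
      (hc.measurable.comp (measurable_const.sub measurable_fst)).mul
        (((fourier (-k)).continuous.measurable.comp measurable_snd).mul
          (Complex.measurable_ofReal.comp hm))
    refine hdom.mono' hmeas.aestronglyMeasurable (Eventually.of_forall fun p => ?_)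
    obtain ⟨w, θ⟩ := p
    simp only [Function.uncurry, norm_mul, Complex.norm_real]
    by_cases hw : w ∈ Metric.closedBall (0 : ℂ) R
    · rw [indicator_of_mem hw, fourier_apply, Circle.norm_coe, one_mul]
      exact mul_le_mul (hC _) (hB _) (norm_nonneg _) ((norm_nonneg _).trans (hC 0))
    · rw [indicator_of_notMem hw]
      rw [Metric.mem_closedBall, dist_zero_right, not_le] at hw
      simp [hR (w, θ) hw.le]

lemma fourier_shift (k : ℤ) (θ : Dir) :
    fourier (-(k - 1)) θ = fourier (-k) θ * vec θ ∧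
      fourier (-(k + 1)) θ = fourier (-k) θ * conj (vec θ) := by
  constructor
  · rw [show -(k - 1) = -k + 1 by ring, fourier_add, fourier_one]; rfl
  · rw [show -(k + 1) = -k + -1 by ring, fourier_add, fourier_neg (n := 1), fourier_one]; rfl

theorem smodeStmt_holds : SmodeStmt := by
  intro ψ G k hψ hG
  obtain ⟨hk1, hk2⟩ := niceKer_dz hψ
  have hf := (modeR_bounds hG k).locallyIntegrable
  have hψ1 : Continuous fun y => fderiv ℝ ψ y (1 : ℂ) :=
    (hψ.1.continuous_fderiv (by simp)).clm_apply continuous_const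
  have hψI : Continuous fun y => fderiv ℝ ψ y I :=
    (hψ.1.continuous_fderiv (by simp)).clm_apply continuous_const
  have c1 : HasCompactSupport fun y => fderiv ℝ ψ y (1 : ℂ) := hψ.2.fderiv_apply ℝ 1
  have cI : HasCompactSupport fun y => fderiv ℝ ψ y I := hψ.2.fderiv_apply ℝ I
  refine ⟨?_, ?_, ?_, smode_eq_mode k hψ.1.continuous hψ.2 hG, fun z => ?_⟩
  · rw [smode_eq_conv]
    exact hψ.2.contDiff_convolution_right (n := 2) _ hf
      (hψ.1.of_le (WithTop.coe_le_coe.2 (le_top : (2 : ℕ∞) ≤ ⊤)))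
  · funext z
    have e : dz ψ = fun y => (1 / 2 : ℂ) * fderiv ℝ ψ y 1 + (-I / 2) * fderiv ℝ ψ y I := by
      funext y; simp only [dz]; ring
    rw [e, smode_lin k hψ1 c1 hψI cI hG, ← smode_deriv k hψ hG, ← smode_deriv k hψ hG]
    simp only [dz]; ring
  · funext z
    have e : dzb ψ = fun y => (1 / 2 : ℂ) * fderiv ℝ ψ y 1 + (I / 2) * fderiv ℝ ψ y I := by
      funext y; simp only [dzb]; ring
    rw [e, smode_lin k hψ1 c1 hψI cI hG, ← smode_deriv k hψ hG, ← smode_deriv k hψ hG]
    simp only [dzb]; ring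
  · rw [smode_eq_mode _ hk1.1.continuous hk1.2 hG, smode_eq_mode _ hk2.1.continuous hk2.2 hG]
    simp only [mode, fourierCoeff, smul_eq_mul]
    obtain ⟨hm, ⟨B, hB⟩, R, hR⟩ := hG
    have hint : ∀ κ : ℂ → ℂ, NiceKer κ → ∀ n : ℤ,
        Integrable (fun θ => fourier n θ * sm κ G (z, θ)) unifDir := fun κ hκ n => by
      obtain ⟨C, hC⟩ := hκ.2.exists_bound_of_continuous hκ.1.continuous
      have hsm : StronglyMeasurable fun θ => sm κ G (z, θ) := by
        have h : StronglyMeasurable fun p : Dir × ℂ => κ (z - p.2) * (G (p.2, p.1) : ℂ) :=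
          ((hκ.1.continuous.measurable.comp (measurable_const.sub measurable_snd)).mul
            (Complex.measurable_ofReal.comp
              (hm.comp (measurable_snd.prodMk measurable_fst)))).stronglyMeasurable
        exact h.integral_prod_right' (ν := (volume : Measure ℂ))
      refine Integrable.of_bound ((fourier n).continuous.aestronglyMeasurable.mul
        hsm.aestronglyMeasurable) (C * B * volume.real (Metric.closedBall (0 : ℂ) R))
        (ae_of_all _ fun θ => ?_)
      rw [norm_mul, fourier_apply, Circle.norm_coe, one_mul]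
      show ‖∫ w, κ (z - w) * (G (w, θ) : ℂ)‖ ≤ _
      rw [← setIntegral_eq_integral_of_forall_compl_eq_zero (s := Metric.closedBall (0 : ℂ) R)
        fun w hw => by
          rw [Metric.mem_closedBall, dist_zero_right, not_le] at hw
          simp [hR (w, θ) hw.le]]
      refine norm_setIntegral_le_of_norm_le_const
        (isCompact_closedBall (0 : ℂ) R).measure_lt_top fun w _ => ?_
      rw [norm_mul, Complex.norm_real]
      exact mul_le_mul (hC _) (hB _) (norm_nonneg _) ((norm_nonneg _).trans (hC 0))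
    rw [← integral_add (hint _ hk1 _) (hint _ hk2 _)]
    congr 1; funext θ
    rw [(fourier_shift k θ).1, (fourier_shift k θ).2, mul_assoc, mul_assoc, ← mul_add]
    congr 1
    simp only [sm, smDir, ← integral_const_mul]
    have hi : ∀ κ : ℂ → ℂ, NiceKer κ → Integrable fun w => κ (z - w) * (G (w, θ) : ℂ) :=
      fun κ hκ => by
        obtain ⟨C, hC⟩ := hκ.2.exists_bound_of_continuous hκ.1.continuous
        refine (integrableOn_iff_integrable_of_support_subset fun w hw => ?_).1
          (Measure.integrableOn_of_bounded (M := C * B)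
            (isCompact_closedBall (0 : ℂ) R).measure_lt_top.ne
            (((hκ.1.continuous.measurable.comp (measurable_const.sub measurable_id)).mul
              (Complex.measurable_ofReal.comp
                (hm.comp (measurable_id.prodMk measurable_const)))).aestronglyMeasurable)
            (ae_of_all _ fun w => ?_))
        · by_contra h
          rw [Metric.mem_closedBall, dist_zero_right, not_le] at h
          exact hw (by simp [hR (w, θ) h.le])
        · rw [norm_mul, Complex.norm_real]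
          exact mul_le_mul (hC _) (hB _) (norm_nonneg _) ((norm_nonneg _).trans (hC 0))
    rw [← integral_add ((hi _ hk1).const_mul _) ((hi _ hk2).const_mul _)]
    congr 1; funext w
    set L := fderiv ℝ ψ (z - w) with hL
    have hv : vec θ = (vec θ).re • (1 : ℂ) + (vec θ).im • I := by
      simp [Complex.real_smul, Complex.re_add_im]
    have hLv : L (vec θ) = (vec θ).re • L 1 + (vec θ).im • L I := by
      conv_lhs => rw [hv]
      rw [map_add, map_smul, map_smul]
    simp only [dz, dzb, ← hL, hLv, Complex.real_smul, Complex.re_eq_add_conj,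
      Complex.im_eq_sub_conj]
    field_simp
    ring_nf
    simp only [I_sq]
    ring

end Vale.Agent.P099
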