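import Vale.Agent.P099.Spec

/-!
# P099: Bessel, Young and approximation bounds for the direction modes
-/

noncomputable section

namespace Vale.Agent.P099

open MeasureTheory Set Complex Filter Topology
open scoped ComplexConjugate

private theorem dom_lt_top (M : Table) : volume M.dom < ⊤ :=
  M.bounded.measure_lt_top

private theorem m0_finite (M : Table) : IsFiniteMeasure M.m0 := by
  have : IsFiniteMeasure (volume.restrict M.dom) := isFiniteMeasure_restrict.2 (dom_lt_top M).ne
  unfold Table.m0
  infer_instance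

private theorem m0_eq (M : Table) :
    M.m0 = ((volume : Measure ℂ).prod unifDir).restrict (M.dom ×ˢ univ) :=
  Measure.restrict_prod_eq_prod_univ _

/-- Integrability of a bounded measurable function against a finite measure. -/
private theorem int_of_bdd {α E : Type*} [MeasurableSpace α] [NormedAddCommGroup E]
    {m : Measure α} [IsFiniteMeasure m] {f : α → E} (hf : AEStronglyMeasurable f m) (B : ℝ)
    (hB : ∀ p, ‖f p‖ ≤ B) : Integrable f m :=
  Integrable.mono' (integrable_const B) hf (Eventually.of_forall hB)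

/-- Bessel's inequality for the modes, integrated over the domain. -/
private theorem mode_bessel (M : Table) (h : Phase → ℂ) (hm : Measurable h)
    (hb : ∃ B, ∀ p, ‖h p‖ ≤ B) : M.NLe (mode h) (∫ p, ‖h p‖ ^ 2 ∂M.m0) := by
  obtain ⟨B, hB⟩ := hb
  have : IsFiniteMeasure (volume.restrict M.dom) := isFiniteMeasure_restrict.2 (dom_lt_top M).ne
  have hmeas : ∀ k, StronglyMeasurable (mode h k) := by
    intro k
    have hunc : StronglyMeasurable (Function.uncurry fun (z : ℂ) (θ : Dir) =>
        fourier (-k) θ • h (z, θ)) :=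
      ((((fourier (-k)).continuous.measurable).comp measurable_snd).smul
        hm).stronglyMeasurable
    exact hunc.integral_prod_right
  have hbd : ∀ k z, ‖mode h k z‖ ≤ B := by
    intro k z
    refine (norm_integral_le_of_norm_le_const (C := B)
      (Eventually.of_forall fun θ => ?_)).trans (by simp)
    rw [norm_smul, fourier_apply, Circle.norm_coe, one_mul]
    exact hB _
  have hsl : ∀ z, MemLp (fun θ => h (z, θ)) 2 (AddCircle.haarAddCircle : Measure Dir) := fun z =>
    MemLp.of_bound (hm.comp measurable_prodMk_left).aestronglyMeasurable B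
      (Eventually.of_forall fun θ => hB _)
  have hpt : ∀ z, ∀ s : Finset ℤ, ∑ k ∈ s, ‖mode h k z‖ ^ 2 ≤ ∫ θ, ‖h (z, θ)‖ ^ 2 ∂unifDir := by
    intro z s
    have hs := hasSum_sq_fourierCoeff ((hsl z).toLp _)
    rw [fourierCoeff_congr_ae (hsl z).coeFn_toLp] at hs
    have he : (∫ t, ‖(hsl z).toLp _ t‖ ^ 2 ∂unifDir) = ∫ θ, ‖h (z, θ)‖ ^ 2 ∂unifDir := by
      refine integral_congr_ae ?_
      filter_upwards [(hsl z).coeFn_toLp] with t ht
      rw [ht]
    rw [he] at hs
    exact sum_le_hasSum s (fun k _ => sq_nonneg _) hs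
  have hint : ∀ k, Integrable (fun z => ‖mode h k z‖ ^ 2) (volume.restrict M.dom) := fun k =>
    int_of_bdd ((hmeas k).norm.pow 2).aestronglyMeasurable (B ^ 2) fun z => by
      rw [Real.norm_of_nonneg (sq_nonneg _)]
      exact pow_le_pow_left₀ (norm_nonneg _) (hbd k z) 2
  have hp : Integrable (fun p : Phase => ‖h p‖ ^ 2) ((volume.restrict M.dom).prod unifDir) :=
    int_of_bdd (hm.norm.pow_const 2).aestronglyMeasurable (B ^ 2) fun p => by
      rw [Real.norm_of_nonneg (sq_nonneg _)]
      exact pow_le_pow_left₀ (norm_nonneg _) (hB p) 2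
  have hfin : ∀ s : Finset ℤ, ∑ k ∈ s, M.nq (mode h k) ≤ ∫ p, ‖h p‖ ^ 2 ∂M.m0 := by
    intro s
    unfold Table.nq Table.m0
    rw [← integral_finsetSum s (fun k _ => hint k), integral_prod _ hp]
    exact integral_mono (integrable_finsetSum s fun k _ => hint k) hp.integral_prod_left
      fun z => hpt z s
  have hnn : ∀ k, 0 ≤ M.nq (mode h k) := fun k => integral_nonneg fun z => sq_nonneg _
  exact ⟨summable_of_sum_le hnn hfin, Real.tsum_le_of_sum_le hnn hfin⟩

private theorem nle_mono {M : Table} {f g : ℤ → ℂ → ℂ} {A B : ℝ} (hf : M.NLe f A)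
    (he : ∀ k z, g k z = f k z) (hAB : A ≤ B) : M.NLe g B := by
  have : g = f := funext fun k => funext fun z => he k z
  subst this
  exact ⟨hf.1, hf.2.trans hAB⟩

/-- Cauchy–Schwarz with a nonnegative weight. -/
private theorem sq_weight_le {a b : ℂ → ℝ} (ha : ∀ w, 0 ≤ a w) (h1 : Integrable a)
    (h2 : Integrable fun w => a w * b w) (h3 : Integrable fun w => a w * b w ^ 2) :
    (∫ w, a w * b w) ^ 2 ≤ (∫ w, a w) * ∫ w, a w * b w ^ 2 := by
  have hd : discrim (∫ w, a w) (-2 * ∫ w, a w * b w) (∫ w, a w * b w ^ 2) ≤ 0 := by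
    refine discrim_le_zero fun t => ?_
    have h0 : 0 ≤ ∫ w, a w * (b w - t) ^ 2 :=
      integral_nonneg fun w => mul_nonneg (ha w) (sq_nonneg _)
    have he : (fun w => a w * (b w - t) ^ 2) =
        fun w => t * t * a w + (-2 * t) * (a w * b w) + a w * b w ^ 2 := by
      funext w; ring
    rw [he, integral_add _ h3, integral_add (h1.const_mul _) (h2.const_mul _),
      integral_const_mul, integral_const_mul] at h0
    · linarith
    · exact (h1.const_mul _).add (h2.const_mul _)
  unfold discrim at hd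
  nlinarith

section Kernel

variable {ψ : ℂ → ℂ} {G : Phase → ℝ}

private theorem ker_int (hc : Continuous ψ) (hs : HasCompactSupport ψ) : Integrable ψ :=
  hc.integrable_of_hasCompactSupport hs

private theorem slice_int (hc : Continuous ψ) (hs : HasCompactSupport ψ) (hG : NiceFn G)
    (z : ℂ) (θ : Dir) : Integrable fun w => ψ (z - w) * (G (w, θ) : ℂ) := by
  obtain ⟨B, hB⟩ := hG.2.1
  refine ((ker_int hc hs).comp_sub_left z).mul_bdd (c := B) ?_ ?_
  · exact (measurable_ofReal.comp (hG.1.comp measurable_prodMk_right)).aestronglyMeasurable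
  · exact Eventually.of_forall fun w => by rw [norm_real]; exact hB _

private theorem sm_meas (hc : Continuous ψ) (hG : Measurable G) : Measurable (sm ψ G) := by
  have hunc : StronglyMeasurable (Function.uncurry fun (p : Phase) (w : ℂ) =>
      ψ (p.1 - w) * (G (w, p.2) : ℂ)) := by
    refine (Measurable.mul ?_ ?_).stronglyMeasurable
    · exact hc.measurable.comp ((measurable_fst.comp measurable_fst).sub measurable_snd)
    · exact measurable_ofReal.comp
        (hG.comp (measurable_snd.prodMk (measurable_snd.comp measurable_fst)))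
  exact hunc.integral_prod_right.measurable

private theorem sm_le (p : Phase) :
    ‖sm ψ G p‖ ≤ ∫ w, ‖ψ (p.1 - w)‖ * |G (w, p.2)| := by
  refine (norm_integral_le_integral_norm _).trans (le_of_eq ?_)
  exact integral_congr_ae (Eventually.of_forall fun w => by simp [norm_real])

private theorem abs_conv_le (hc : Continuous ψ) (hs : HasCompactSupport ψ) (hG : NiceFn G)
    {B : ℝ} (hB : ∀ p, |G p| ≤ B) (p : Phase) :
    (∫ w, ‖ψ (p.1 - w)‖ * |G (w, p.2)|) ≤ (∫ y, ‖ψ y‖) * B := by
  rw [← integral_sub_left_eq_self (fun y => ‖ψ y‖) volume p.1, ← integral_mul_const]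
  refine integral_mono ?_ (((ker_int hc hs).comp_sub_left p.1).norm.mul_const B) fun w => ?_
  · exact (slice_int hc hs hG p.1 p.2).norm.congr
      (Eventually.of_forall fun w => by simp [norm_real])
  · exact mul_le_mul_of_nonneg_left (hB _) (norm_nonneg _)

private theorem sm_bdd (hc : Continuous ψ) (hs : HasCompactSupport ψ) (hG : NiceFn G) :
    ∃ B, ∀ p, ‖sm ψ G p‖ ≤ B := by
  obtain ⟨B, hB⟩ := hG.2.1
  exact ⟨(∫ y, ‖ψ y‖) * B, fun p => (sm_le p).trans (abs_conv_le hc hs hG hB p)⟩

private theorem smode_eq (hc : Continuous ψ) (hs : HasCompactSupport ψ) (hG : NiceFn G)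
    (k : ℤ) (z : ℂ) : smode ψ G k z = mode (sm ψ G) k z := by
  obtain ⟨B, hB⟩ := hG.2.1
  have hjoint : Integrable (Function.uncurry fun (θ : Dir) (w : ℂ) =>
      fourier (-k) θ * (ψ (z - w) * (G (w, θ) : ℂ))) (unifDir.prod volume) := by
    have hd : Integrable (fun q : Dir × ℂ => B * ‖ψ (z - q.2)‖) (unifDir.prod volume) :=
      (integrable_const B).mul_prod ((ker_int hc hs).comp_sub_left z).norm
    refine hd.mono' ?_ (Eventually.of_forall fun q => ?_)
    · refine (Measurable.mul ((fourier (-k)).continuous.measurable.comp measurable_fst)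
        (Measurable.mul (hc.measurable.comp (measurable_const.sub measurable_snd))
          (measurable_ofReal.comp (hG.1.comp
            (measurable_snd.prodMk measurable_fst))))).aestronglyMeasurable
    · simp only [Function.uncurry, norm_mul, fourier_apply, Circle.norm_coe, one_mul, norm_real,
        Real.norm_eq_abs]
      rw [mul_comm B]
      exact mul_le_mul_of_nonneg_left (hB _) (norm_nonneg _)
  unfold mode smode modeR mode sm fourierCoeff
  simp only [smul_eq_mul, ← integral_const_mul]
  rw [integral_integral_swap hjoint]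
  refine integral_congr_ae (Eventually.of_forall fun w => ?_)
  refine integral_congr_ae (Eventually.of_forall fun θ => ?_)
  ring

/-- The square of the function in a bounded range is integrable. -/
private theorem sq_int (hG : NiceFn G) :
    Integrable (fun p => G p ^ 2) ((volume : Measure ℂ).prod unifDir) := by
  obtain ⟨hm, ⟨B, hB⟩, R, hR⟩ := hG
  refine IntegrableOn.integrable_of_forall_notMem_eq_zero
    (s := Metric.closedBall (0 : ℂ) R ×ˢ (univ : Set Dir)) ?_ ?_
  · refine Integrable.mono' (g := fun _ => B ^ 2) (integrableOn_const ?_ ?_)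
      (hm.pow_const 2).aestronglyMeasurable (Eventually.of_forall fun p => ?_)
    · rw [Measure.prod_prod]
      exact ENNReal.mul_ne_top measure_closedBall_lt_top.ne (measure_ne_top _ _)
    · simp
    · rw [Real.norm_of_nonneg (sq_nonneg _), ← sq_abs]
      exact pow_le_pow_left₀ (abs_nonneg _) (hB p) 2
  · intro p hp
    have : R ≤ ‖p.1‖ := by
      simp only [mem_prod, mem_univ, and_true, Metric.mem_closedBall, dist_zero_right, not_le] at hp
      exact hp.le
    simp [hR p this]

/-- Young's inequality. -/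
private theorem young (hc : Continuous ψ) (hs : HasCompactSupport ψ) (hG : NiceFn G) (M : Table) :
    (∫ p, (∫ w, ‖ψ (p.1 - w)‖ * |G (w, p.2)|) ^ 2 ∂M.m0) ≤
      (∫ y, ‖ψ y‖) ^ 2 * ∫ p, G p ^ 2 ∂(volume.prod unifDir) := by
  obtain ⟨B, hB⟩ := hG.2.1
  have hk : Integrable fun y => ‖ψ y‖ := (ker_int hc hs).norm
  have hG2 := sq_int hG
  have htr : ∀ y : ℂ, MeasurePreserving (fun p : Phase => (p.1 - y, p.2))
      (volume.prod unifDir) (volume.prod unifDir) := fun y =>
    (measurePreserving_sub_right volume y).prod (MeasurePreserving.id unifDir)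
  have hH : Measurable fun q : Phase × ℂ => ‖ψ q.2‖ * G (q.1.1 - q.2, q.1.2) ^ 2 :=
    (hc.measurable.comp measurable_snd).norm.mul
      ((hG.1.comp (((measurable_fst.comp measurable_fst).sub measurable_snd).prodMk
        (measurable_snd.comp measurable_fst))).pow_const 2)
  have hslice : ∀ y : ℂ, Integrable (fun p : Phase => ‖ψ y‖ * G (p.1 - y, p.2) ^ 2)
      (volume.prod unifDir) := fun y =>
    ((htr y).integrable_comp_of_integrable hG2).const_mul _
  have hval : ∀ y : ℂ, (∫ p : Phase, G (p.1 - y, p.2) ^ 2 ∂(volume.prod unifDir)) =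
      ∫ p, G p ^ 2 ∂(volume.prod unifDir) := by
    intro y
    have h := integral_map (μ := (volume : Measure ℂ).prod unifDir)
      (htr y).measurable.aemeasurable
      (f := fun p => G p ^ 2) (hG.1.pow_const 2).aestronglyMeasurable
    rw [(htr y).map_eq] at h
    exact h.symm
  have hHint : Integrable (fun q : Phase × ℂ => ‖ψ q.2‖ * G (q.1.1 - q.2, q.1.2) ^ 2)
      ((volume.prod unifDir).prod volume) := by
    rw [integrable_prod_iff' hH.aestronglyMeasurable]
    refine ⟨Eventually.of_forall hslice, ?_⟩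
    have : (fun y : ℂ => ∫ p : Phase, ‖‖ψ y‖ * G (p.1 - y, p.2) ^ 2‖ ∂(volume.prod unifDir)) =
        fun y => ‖ψ y‖ * ∫ p, G p ^ 2 ∂(volume.prod unifDir) := by
      funext y
      rw [← hval y, ← integral_const_mul]
      refine integral_congr_ae (Eventually.of_forall fun p => ?_)
      exact Real.norm_of_nonneg (mul_nonneg (norm_nonneg _) (sq_nonneg _))
    simp only [this]
    exact hk.mul_const _
  set Q : Phase → ℝ := fun p => (∫ y, ‖ψ y‖) * ∫ y, ‖ψ y‖ * G (p.1 - y, p.2) ^ 2 with hQ
  have hQi : Integrable Q (volume.prod unifDir) := hHint.integral_prod_left.const_mul _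
  have hQv : (∫ p, Q p ∂(volume.prod unifDir)) =
      (∫ y, ‖ψ y‖) ^ 2 * ∫ p, G p ^ 2 ∂(volume.prod unifDir) := by
    simp only [hQ]
    rw [integral_const_mul, integral_integral_swap hHint]
    simp only [integral_const_mul, hval, integral_mul_const]
    ring
  have hle : ∀ p : Phase, (∫ w, ‖ψ (p.1 - w)‖ * |G (w, p.2)|) ^ 2 ≤ Q p := by
    intro p
    simp only [hQ]
    have he : (∫ w, ‖ψ (p.1 - w)‖ * |G (w, p.2)|) = ∫ y, ‖ψ y‖ * |G (p.1 - y, p.2)| := by
      rw [← integral_sub_left_eq_self (fun y => ‖ψ y‖ * |G (p.1 - y, p.2)|) volume p.1]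
      simp only [sub_sub_cancel]
    rw [he]
    have hsl : Measurable fun y : ℂ => G (p.1 - y, p.2) :=
      hG.1.comp ((measurable_const.sub measurable_id).prodMk measurable_const)
    have h := sq_weight_le (a := fun y => ‖ψ y‖) (b := fun y => |G (p.1 - y, p.2)|)
      (fun y => norm_nonneg _) hk
      (hk.mul_bdd (c := B) hsl.abs.aestronglyMeasurable
        (Eventually.of_forall fun y => by rw [Real.norm_eq_abs, abs_abs]; exact hB _))
      (hk.mul_bdd (c := B ^ 2) (hsl.abs.pow_const 2).aestronglyMeasurable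
        (Eventually.of_forall fun y => by
          rw [Real.norm_of_nonneg (sq_nonneg _)]
          exact pow_le_pow_left₀ (abs_nonneg _) (hB _) 2))
    simpa only [sq_abs] using h
  have hQn : ∀ p, 0 ≤ Q p := fun p => (sq_nonneg _).trans (hle p)
  calc (∫ p, (∫ w, ‖ψ (p.1 - w)‖ * |G (w, p.2)|) ^ 2 ∂M.m0)
      ≤ ∫ p, Q p ∂M.m0 := by
        refine integral_mono_of_nonneg (Eventually.of_forall fun p => sq_nonneg _) ?_
          (Eventually.of_forall hle)
        rw [m0_eq]
        exact hQi.integrableOn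
    _ ≤ ∫ p, Q p ∂(volume.prod unifDir) := by
        rw [m0_eq]
        exact setIntegral_le_integral hQi (Eventually.of_forall hQn)
    _ = _ := hQv

private theorem sm_sq_le (hc : Continuous ψ) (hs : HasCompactSupport ψ) (hG : NiceFn G)
    (M : Table) :
    (∫ p, ‖sm ψ G p‖ ^ 2 ∂M.m0) ≤
      (∫ y, ‖ψ y‖) ^ 2 * ∫ p, G p ^ 2 ∂(volume.prod unifDir) := by
  have := m0_finite M
  obtain ⟨B, hB⟩ := hG.2.1
  refine (integral_mono_of_nonneg (Eventually.of_forall fun p => sq_nonneg _) ?_
    (Eventually.of_forall fun p => pow_le_pow_left₀ (norm_nonneg _) (sm_le p) 2)).trans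
    (young hc hs hG M)
  have hunc : StronglyMeasurable (Function.uncurry fun (p : Phase) (w : ℂ) =>
      ‖ψ (p.1 - w)‖ * |G (w, p.2)|) := by
    refine (Measurable.mul ?_ ?_).stronglyMeasurable
    · exact (hc.measurable.comp ((measurable_fst.comp measurable_fst).sub measurable_snd)).norm
    · exact (hG.1.comp (measurable_snd.prodMk (measurable_snd.comp measurable_fst))).abs
  refine int_of_bdd (hunc.integral_prod_right.pow 2).aestronglyMeasurable
    (((∫ y, ‖ψ y‖) * B) ^ 2) fun p => ?_
  rw [Real.norm_of_nonneg (sq_nonneg _)]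
  exact pow_le_pow_left₀ (integral_nonneg fun w => mul_nonneg (norm_nonneg _) (abs_nonneg _))
    (abs_conv_le hc hs hG hB p) 2

end Kernel

/-- Approximation in the mean square by mollification. -/
private theorem smode_approx (M : Table) (φ : ℝ → ℂ → ℝ)
    (hφ : ∀ ε : ℝ, 0 < ε → Continuous (φ ε) ∧ (∀ y, 0 ≤ φ ε y) ∧
      (∀ y, ε ≤ ‖y‖ → φ ε y = 0) ∧ (∫ y, φ ε y) = 1)
    (G : Phase → ℝ) (hG : NiceFn G) (η : ℝ) (hη : 0 < η) :
    ∃ ε0 > 0, ∀ ε, 0 < ε → ε < ε0 →
      M.NLe (fun k z => smode (fun y => (φ ε y : ℂ)) G k z - modeR G k z) η := by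
  have := m0_finite M
  set μ : Measure Phase := (volume : Measure ℂ).prod unifDir with hμ
  have hG2 := sq_int hG
  have hLp : MemLp G (ENNReal.ofReal 2) μ := by
    rw [show ENNReal.ofReal 2 = 2 by simp, memLp_two_iff_integrable_sq hG.1.aestronglyMeasurable]
    exact hG2
  set V : ℝ := M.m0.real univ with hV
  have hV0 : 0 ≤ V := measureReal_nonneg
  obtain ⟨g, gs, gd, gc, -⟩ :=
    hLp.exists_hasCompactSupport_integral_rpow_sub_le (by norm_num) (by linarith : 0 < η / 12)
  have gd' : (∫ p, (G p - g p) ^ 2 ∂μ) ≤ η / 12 := by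
    refine le_of_eq_of_le (integral_congr_ae (Eventually.of_forall fun p => ?_)) gd
    simp [sq_abs]
  have gnice : NiceFn g := by
    refine ⟨gc.measurable, ?_, ?_⟩
    · obtain ⟨B, hB⟩ := gs.exists_bound_of_continuous gc
      exact ⟨B, fun p => by simpa using hB p⟩
    · obtain ⟨R, hR⟩ := (gs.image continuous_fst).isBounded.subset_closedBall (0 : ℂ)
      refine ⟨R + 1, fun p hp => ?_⟩
      by_contra hne
      have hin := hR ⟨p, subset_tsupport g hne, rfl⟩
      simp only [Metric.mem_closedBall, dist_zero_right] at hin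
      linarith
  have dnice : NiceFn fun p => G p - g p := by
    obtain ⟨B1, hB1⟩ := hG.2.1
    obtain ⟨B2, hB2⟩ := gnice.2.1
    obtain ⟨R1, hR1⟩ := hG.2.2
    obtain ⟨R2, hR2⟩ := gnice.2.2
    exact ⟨hG.1.sub gnice.1, ⟨B1 + B2, fun p => (abs_sub _ _).trans (add_le_add (hB1 p) (hB2 p))⟩,
      max R1 R2, fun p hp => by
        simp [hR1 p (le_of_max_le_left hp), hR2 p (le_of_max_le_right hp)]⟩
  set δ : ℝ := Real.sqrt (η / (6 * (V + 1))) with hδ
  have hδ0 : 0 < δ := Real.sqrt_pos.2 (by positivity)
  obtain ⟨ε0, hε0, huc⟩ :=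
    Metric.uniformContinuous_iff.1 (gs.uniformContinuous_of_continuous gc) δ hδ0
  refine ⟨ε0, hε0, fun ε hε hεε => ?_⟩
  obtain ⟨φc, φn, φs, φ1⟩ := hφ ε hε
  set ψ : ℂ → ℂ := fun y => (φ ε y : ℂ) with hψ
  have hc : Continuous ψ := continuous_ofReal.comp φc
  have hs : HasCompactSupport ψ := HasCompactSupport.intro (isCompact_closedBall 0 ε) fun y hy => by
    simp only [Metric.mem_closedBall, dist_zero_right, not_le] at hy
    simp [hψ, φs y hy.le]
  have hn1 : (∫ y, ‖ψ y‖) = 1 := by
    rw [← φ1]
    exact integral_congr_ae (Eventually.of_forall fun y => by simp [hψ, abs_of_nonneg (φn y)])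
  have hc1 : (∫ y, ψ y) = 1 := by
    simp only [hψ, integral_complex_ofReal, φ1, ofReal_one]
  set h : Phase → ℂ := fun p => sm ψ G p - (G p : ℂ) with hh
  obtain ⟨B, hB⟩ := hG.2.1
  obtain ⟨B', hB'⟩ := sm_bdd hc hs hG
  have hhm : Measurable h := (sm_meas hc hG.1).sub (measurable_ofReal.comp hG.1)
  have hhb : ∀ p, ‖h p‖ ≤ B' + B := fun p =>
    (norm_sub_le _ _).trans (add_le_add (hB' p) (by rw [norm_real]; exact hB p))
  have hsq : (∫ p, ‖h p‖ ^ 2 ∂M.m0) ≤ η := by
    have hpt : ∀ p : Phase, ‖h p‖ ≤ ‖sm ψ (fun p => G p - g p) p‖ + δ + |G p - g p| := by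
      intro p
      have hsplit : sm ψ G p = sm ψ (fun p => G p - g p) p + sm ψ g p := by
        unfold sm
        rw [← integral_add (slice_int hc hs dnice p.1 p.2) (slice_int hc hs gnice p.1 p.2)]
        refine integral_congr_ae (Eventually.of_forall fun w => ?_)
        push_cast
        ring
      have hg : ‖sm ψ g p - (g p : ℂ)‖ ≤ δ := by
        have h1 : (g p : ℂ) = ∫ w, ψ (p.1 - w) * (g p : ℂ) := by
          rw [integral_mul_const, integral_sub_left_eq_self ψ volume p.1, hc1, one_mul]
        have h2 : sm ψ g p - (g p : ℂ) = ∫ w, ψ (p.1 - w) * ((g (w, p.2) - g p : ℝ) : ℂ) := by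
          rw [h1]
          unfold sm
          rw [← integral_sub (slice_int hc hs gnice p.1 p.2)
            (((ker_int hc hs).comp_sub_left p.1).mul_const _)]
          refine integral_congr_ae (Eventually.of_forall fun w => ?_)
          push_cast
          ring
        rw [h2]
        refine (norm_integral_le_of_norm_le
          (((ker_int hc hs).comp_sub_left p.1).norm.mul_const δ)
          (Eventually.of_forall fun w => ?_)).trans (le_of_eq ?_)
        · rw [norm_mul, norm_real (g (w, p.2) - g p), Real.norm_eq_abs (g (w, p.2) - g p)]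
          by_cases hw : ε ≤ ‖p.1 - w‖
          · simp [hψ, φs _ hw]
          · refine mul_le_mul_of_nonneg_left (le_of_lt ?_) (by positivity)
            rw [← Real.dist_eq]
            refine huc ?_
            rw [Prod.dist_eq, dist_self, max_eq_left dist_nonneg, dist_eq_norm, norm_sub_rev]
            exact lt_trans (not_le.1 hw) hεε
        · rw [integral_mul_const, integral_sub_left_eq_self (fun y => ‖ψ y‖) volume p.1, hn1,
            one_mul]
      have : h p = sm ψ (fun p => G p - g p) p + (sm ψ g p - (g p : ℂ)) -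
          ((G p - g p : ℝ) : ℂ) := by
        simp only [hh, hsplit]
        push_cast
        ring
      rw [this]
      refine (norm_sub_le _ _).trans ?_
      rw [norm_real, Real.norm_eq_abs]
      linarith [norm_add_le (sm ψ (fun p => G p - g p) p) (sm ψ g p - (g p : ℂ))]
    obtain ⟨B1, hB1⟩ := sm_bdd hc hs dnice
    obtain ⟨B2, hB2⟩ := dnice.2.1
    have hP : Integrable (fun p => ‖sm ψ (fun p => G p - g p) p‖ ^ 2) M.m0 :=
      int_of_bdd ((sm_meas hc dnice.1).norm.pow_const 2).aestronglyMeasurable (B1 ^ 2) fun p => by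
        rw [Real.norm_of_nonneg (sq_nonneg _)]
        exact pow_le_pow_left₀ (norm_nonneg _) (hB1 p) 2
    have hQ : Integrable (fun p => (G p - g p) ^ 2) M.m0 := by
      rw [m0_eq]
      exact (sq_int dnice).integrableOn
    have hmid : ∀ p : Phase, ‖h p‖ ^ 2 ≤
        3 * ‖sm ψ (fun p => G p - g p) p‖ ^ 2 + 3 * δ ^ 2 + 3 * (G p - g p) ^ 2 := by
      intro p
      refine (pow_le_pow_left₀ (norm_nonneg _) (hpt p) 2).trans ?_
      rw [← sq_abs (G p - g p)]
      nlinarith [sq_nonneg (‖sm ψ (fun p => G p - g p) p‖ - δ),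
        sq_nonneg (δ - |G p - g p|),
        sq_nonneg (‖sm ψ (fun p => G p - g p) p‖ - |G p - g p|)]
    have hmono := integral_mono_of_nonneg (μ := M.m0)
      (Eventually.of_forall fun p => sq_nonneg ‖h p‖)
      (((hP.const_mul 3).add (integrable_const (3 * δ ^ 2))).add (hQ.const_mul 3))
      (Eventually.of_forall hmid)
    refine hmono.trans ?_
    simp only [Pi.add_apply]
    have hP' : Integrable (fun p => 3 * ‖sm ψ (fun p => G p - g p) p‖ ^ 2 + 3 * δ ^ 2) M.m0 :=
      (hP.const_mul 3).add (integrable_const _)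
    rw [integral_add hP' (hQ.const_mul 3),
      integral_add (hP.const_mul 3) (integrable_const _), integral_const_mul, integral_const_mul,
      integral_const, smul_eq_mul, ← hV]
    have h1 : (∫ p, ‖sm ψ (fun p => G p - g p) p‖ ^ 2 ∂M.m0) ≤ η / 12 := by
      refine (sm_sq_le hc hs dnice M).trans ?_
      rw [hn1, one_pow, one_mul]
      exact gd'
    have h2 : (∫ p, (G p - g p) ^ 2 ∂M.m0) ≤ η / 12 := by
      refine le_trans ?_ gd'
      rw [m0_eq]
      exact setIntegral_le_integral (sq_int dnice) (Eventually.of_forall fun p => sq_nonneg _)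
    have h3 : V * (3 * δ ^ 2) ≤ η / 2 := by
      rw [hδ, Real.sq_sqrt (by positivity)]
      rw [show V * (3 * (η / (6 * (V + 1)))) = (η / 2) * (V / (V + 1)) by field_simp; ring]
      exact mul_le_of_le_one_right (by linarith) ((div_le_one (by linarith)).2 (by linarith))
    simp only [integral_const_mul] at *
    linarith
  refine nle_mono (mode_bessel M h hhm ⟨_, hhb⟩) (fun k z => ?_) hsq
  have hi : ∀ f : Phase → ℂ, Measurable f → ∀ C : ℝ, (∀ p, ‖f p‖ ≤ C) →
      Integrable (fun θ => f (z, θ)) unifDir := fun f hf C hC =>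
    int_of_bdd (hf.comp measurable_prodMk_left).aestronglyMeasurable C fun θ => hC _
  rw [smode_eq hc hs hG]
  unfold modeR mode fourierCoeff
  rw [← integral_sub ((hi _ (sm_meas hc hG.1) B' hB').fourier_smul _)
    ((hi (fun p => (G p : ℂ)) (measurable_ofReal.comp hG.1) B
      (fun p => by rw [norm_real]; exact hB p)).fourier_smul _)]
  refine integral_congr_ae (Eventually.of_forall fun θ => ?_)
  simp only [hh, smul_eq_mul]
  ring

/-- The mode bounds: Bessel, Young, and approximation. -/
theorem mode_bound_holds : ModeBoundStmt := by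
  intro M
  refine ⟨fun h hm hb => mode_bessel M h hm hb, fun ψ G hψ hG => ?_,
    fun φ hφ G hG η hη => smode_approx M φ hφ G hG η hη⟩
  have hc : Continuous ψ := hψ.1.continuous
  have hs : HasCompactSupport ψ := hψ.2
  exact ⟨nle_mono (mode_bessel M (sm ψ G) (sm_meas hc hG.1) (sm_bdd hc hs hG))
    (fun k z => smode_eq hc hs hG k z) (sm_sq_le hc hs hG M), young hc hs hG M⟩

end Vale.Agent.P099
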