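import Vale.Agent.P099.Geom

/-!
# P099: symmetry of the smoothed extension on the sides

A kernel of reflection degree `p` smoothed against the even extension gives modes with phase
`k + p` on each side; near the vertices everything vanishes.
-/

noncomputable section

namespace Vale.Agent.P099

open MeasureTheory Set Complex Metric
open scoped ComplexConjugate

lemma fourier_sub_arg (n : ℤ) (x y : Dir) :
    fourier n (x - y) = fourier n x * fourier (-n) y := by
  simp only [fourier_apply, sub_eq_add_neg, smul_add, smul_neg, neg_smul,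
    AddCircle.toCircle_add, Circle.coe_mul]

/-- Fourier coefficients of a reflected real function. -/
lemma fourierCoeff_reflect (f : Dir → ℝ) (c : Dir) (k : ℤ) :
    fourierCoeff (fun θ => (f (c - θ) : ℂ)) k =
      fourier (-k) c * conj (fourierCoeff (fun θ => (f θ : ℂ)) k) := by
  simp only [fourierCoeff, smul_eq_mul]
  conv_lhs => rw [← integral_sub_left_eq_self _ AddCircle.haarAddCircle c]
  rw [← integral_conj, ← integral_const_mul]
  refine integral_congr_ae (Filter.Eventually.of_forall fun θ => ?_)
  simp only [sub_sub_cancel, map_mul, Complex.conj_ofReal, fourier_sub_arg]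
  rw [fourier_neg (n := -k)]
  ring

namespace Table

variable (M : Table)

lemma u_ne_zero (j : Fin 3) : M.u j ≠ 0 := Complex.exp_ne_zero _

lemma fourier_two_beta (j : Fin 3) (k : ℤ) :
    fourier k ((2 * M.β j : ℝ) : Dir) = M.u j ^ (2 * k) := by
  rw [fourier_coe_apply, u, ← Complex.exp_int_mul]
  congr 1
  have : (Real.pi : ℂ) ≠ 0 := by exact_mod_cast Real.pi_ne_zero
  push_cast
  field_simp

/-- The modes of a reflection invariant function have the reflection phase. -/
lemma modeR_refl (G : Phase → ℝ) (j : Fin 3) (k : ℤ) (w : ℂ)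
    (hG : ∀ θ, G (M.rp j (w, θ)) = G (w, θ)) :
    modeR G k (M.refl j w) = M.u j ^ (-2 * k) * conj (modeR G k w) := by
  have e : (fun θ => (G (M.refl j w, θ) : ℂ)) =
      fun θ => (G (w, ((2 * M.β j : ℝ) : Dir) - θ) : ℂ) := by
    funext θ
    have h := hG (M.reflDir j θ)
    rw [rp, reflDir_reflDir] at h
    rw [h]
    rfl
  show fourierCoeff (fun θ => (G (M.refl j w, θ) : ℂ)) k = _
  rw [e, fourierCoeff_reflect (fun θ => G (w, θ)), fourier_two_beta, neg_mul, mul_neg]
  rfl

lemma conj_u_zpow (j : Fin 3) (n : ℤ) : conj (M.u j ^ n) = M.u j ^ (-n) := by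
  rw [map_zpow₀, zpow_neg, ← inv_zpow]
  congr 1
  exact eq_inv_of_mul_eq_one_left ((mul_comm _ _).trans (M.u_mul_conj j))

/-- The smoothed modes on a side away from the vertices. -/
lemma im_smode_of_side {ε : ℝ} {p : ℤ} {ψ : ℂ → ℂ} (hψ : RefKer M ε p ψ) (h : Phase → ℝ)
    (k : ℤ) (j : Fin 3) {z : ℂ} (hz : z ∈ closure M.dom) (hj : M.ell j z = 0)
    (hn : ¬ M.Near (M.geomK * ε) z) :
    (M.u j ^ (k + p) * smode ψ (M.ext h) k z).im = 0 := by
  obtain ⟨-, hsupp, hsym⟩ := hψ
  set L : ℂ ≃ₗᵢ[ℝ] ℂ := Complex.conjLIE.trans (rotation (Circle.exp (2 * M.β j))) with hLdef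
  have hL : ∀ y, L y = M.rlin j y := fun y => by
    simp only [hLdef, LinearIsometryEquiv.trans_apply, Complex.conjLIE_apply, rotation_apply,
      Circle.coe_exp, rlin, u, ← Complex.exp_add]
    push_cast
    ring_nf
  set a : ℂ → ℂ := modeR (M.ext h) k with ha
  set S := smode ψ (M.ext h) k z with hS
  have hS1 : S = ∫ y, ψ y * a (z - y) := by
    rw [hS, smode, ← integral_sub_left_eq_self _ volume z]
    simp [ha]
  have hS2 : (∫ y, ψ (L y) * a (z - L y)) = ∫ y, ψ y * a (z - y) := by
    have hmp : MeasurePreserving (⇑L) (volume : Measure ℂ) volume := L.measurePreserving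
    exact hmp.integral_comp L.toHomeomorph.measurableEmbedding (fun y => ψ y * a (z - y))
  have hmain : S = M.u j ^ (-(2 * (k + p))) * conj S := by
    calc S = ∫ y, ψ (L y) * a (z - L y) := by rw [hS2, hS1]
      _ = ∫ y, M.u j ^ (-(2 * (k + p))) * conj (ψ y * a (z - y)) := by
        refine integral_congr_ae (Filter.Eventually.of_forall fun y => ?_)
        show ψ (L y) * a (z - L y) = _
        beta_reduce
        rw [hL, hsym]
        by_cases hy : ε ≤ ‖y‖
        · simp [hsupp y hy]
        · rw [not_le] at hy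
          have hd : dist (z - y) z < ε := by simpa [dist_eq_norm] using hy
          have hs := fun i (hi : i ≠ j) => M.ell_pos_of_dist_lt le_rfl hz hj hn hd hi
          rw [← M.refl_sub_of_ell j hj, ha,
            M.modeR_refl (M.ext h) j k (z - y) fun θ => M.ext_rp_of_single h θ hs, map_mul,
            show -(2 * (k + p)) = -2 * p + -2 * k by ring, zpow_add₀ (M.u_ne_zero j)]
          ring
      _ = M.u j ^ (-(2 * (k + p))) * conj S := by
        rw [integral_const_mul, integral_conj, ← hS1]
  rw [← Complex.conj_eq_iff_im, map_mul, conj_u_zpow]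
  conv_rhs => rw [hmain, ← mul_assoc, ← zpow_add₀ (M.u_ne_zero j),
    show k + p + -(2 * (k + p)) = -(k + p) by ring]

end Table

/-- Phases on the sides and vanishing near the vertices of the smoothed extension. -/
theorem reflectStmt_holds : ReflectStmt := by
  intro M
  refine ⟨M.geomK, 1, M.one_le_geomK, one_pos, fun ε hε _ h _ _ => ⟨?_, ?_⟩⟩
  · exact fun p ψ hψ k j z hz hj hn => M.im_smode_of_side hψ h k j hz hj hn
  · intro hh ψ _ hsupp z hz hN
    have hzero : ∀ θ, ∀ w, ‖z - w‖ < ε → M.ext h (w, θ) = 0 := fun θ w hw => by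
      refine M.ext_eq_zero_of_near h θ hz hN (r := ε) (by rwa [dist_comm, dist_eq_norm]) ?_
      exact fun q ⟨i, i', hii, v, h1, h2, hd⟩ =>
        hh q ⟨i, i', hii, v, h1, h2, hd.trans_le (by linarith)⟩
    refine ⟨fun k => ?_, hzero⟩
    refine integral_eq_zero_of_ae (Filter.Eventually.of_forall fun w => ?_)
    show ψ (z - w) * modeR (M.ext h) k w = 0
    by_cases hw : ε ≤ ‖z - w‖
    · rw [hsupp _ hw, zero_mul]
    · rw [not_le] at hw
      simp [modeR, mode, hzero _ w hw, fourierCoeff]

end Vale.Agent.P099
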