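import Vale.Agent.P099.Spec

/-!
# P099: weak mixing from ergodicity and absence of eigenfunctions

An invariant set `S` of the product flow gives a compact operator on `L²` commuting with the
Koopman group; its nonzero eigenspaces are finite dimensional, so they contain eigenfunctions of
the flow, which must be constant.
-/

noncomputable section

namespace Vale.Agent.P099

open MeasureTheory Set Complex Filter Topology
open scoped ComplexConjugate

namespace SpectralB

/-- Continuous characters of `ℝ` into the unit circle are exponentials. -/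
lemma char_eq_exp {χ : ℝ → ℂ} (hc : Continuous χ) (hmul : ∀ s t, χ (s + t) = χ s * χ t)
    (h0 : χ 0 = 1) (hn : ∀ t, ‖χ t‖ = 1) :
    ∃ lam : ℝ, ∀ t : ℝ, χ t = Complex.exp ((lam * t : ℝ) * Complex.I) := by
  have hd : HasDerivAt (fun x => ∫ s in (0:ℝ)..x, χ s) (χ 0) 0 :=
    intervalIntegral.integral_hasDerivAt_right (hc.intervalIntegrable 0 0)
      hc.aestronglyMeasurable.stronglyMeasurableAtFilter hc.continuousAt
  obtain ⟨a, ha⟩ : ∃ a, (∫ s in (0:ℝ)..a, χ s) ≠ 0 := by
    by_contra hcon
    push Not at hcon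
    rw [funext hcon] at hd
    have := hd.unique (hasDerivAt_const 0 (0 : ℂ))
    rw [h0] at this
    exact one_ne_zero this
  set c := ∫ s in (0:ℝ)..a, χ s with hcdef
  have hshift : ∀ t, χ t * c = (∫ s in (0:ℝ)..(t + a), χ s) - ∫ s in (0:ℝ)..t, χ s := by
    intro t
    rw [intervalIntegral.integral_interval_sub_left (hc.intervalIntegrable _ _)
      (hc.intervalIntegrable _ _), hcdef, ← intervalIntegral.integral_const_mul]
    simp only [← hmul]
    rw [intervalIntegral.integral_comp_add_left χ t]
    simp
  set k := (χ a - 1) / c with hk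
  have hder : ∀ t, HasDerivAt χ (k * χ t) t := by
    intro t
    have h1 : HasDerivAt (fun x => (∫ s in (0:ℝ)..(x + a), χ s) - ∫ s in (0:ℝ)..x, χ s)
        (χ (t + a) - χ t) t := by
      have e1 : ∀ y, HasDerivAt (fun x => ∫ s in (0:ℝ)..x, χ s) (χ y) y := fun y =>
        intervalIntegral.integral_hasDerivAt_right (hc.intervalIntegrable 0 y)
          hc.aestronglyMeasurable.stronglyMeasurableAtFilter hc.continuousAt
      exact ((e1 (t + a)).comp_add_const t a).sub (e1 t)
    have heq : χ = fun x => ((∫ s in (0:ℝ)..(x + a), χ s) - ∫ s in (0:ℝ)..x, χ s) / c :=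
      funext fun x => (eq_div_iff ha).2 (hshift x)
    have h2 := h1.div_const c
    rw [← heq] at h2
    refine h2.congr_deriv ?_
    rw [hk, hmul]; field_simp
  have hE : ∀ t : ℝ, HasDerivAt (fun x : ℝ => Complex.exp (-(k * x)))
      (-k * Complex.exp (-(k * t))) t := by
    intro t
    have h := (((hasDerivAt_id (t : ℂ)).comp_ofReal).const_mul k).neg.cexp
    refine h.congr_deriv ?_
    simp
    ring
  have hconst : ∀ t : ℝ, χ t * Complex.exp (-(k * t)) = 1 := by
    intro t
    have hz : ∀ x, HasDerivAt (fun x : ℝ => χ x * Complex.exp (-(k * x))) 0 x := fun x => by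
      refine ((hder x).mul (hE x)).congr_deriv ?_
      ring
    have h := is_const_of_deriv_eq_zero (fun x => (hz x).differentiableAt) (fun x => (hz x).deriv)
      t 0
    simpa [h0] using h
  have hexp : ∀ t : ℝ, χ t = Complex.exp (k * t) := fun t => by
    have h := hconst t
    rw [Complex.exp_neg, mul_inv_eq_one₀ (Complex.exp_ne_zero _)] at h
    exact h
  refine ⟨k.im, fun t => ?_⟩
  have hre : k.re = 0 := by
    have h := hn 1
    rw [hexp, Complex.norm_exp] at h
    simpa using h
  rw [hexp]
  congr 1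
  apply Complex.ext <;> simp [hre]

/-- A finite dimensional nonzero space invariant under commuting operators has a common
eigenvector. -/
lemma exists_common_eigen {V : Type*} [AddCommGroup V] [Module ℂ V] (U : ℝ → V →ₗ[ℂ] V)
    (hcomm : ∀ s t v, U s (U t v) = U t (U s v)) (E : Submodule ℂ V) [FiniteDimensional ℂ E]
    (hE : E ≠ ⊥) (hinv : ∀ t, ∀ v ∈ E, U t v ∈ E) :
    ∃ v ∈ E, v ≠ 0 ∧ ∀ t, ∃ c : ℂ, U t v = c • v := by
  classical
  have hex : ∃ n, ∃ W : Submodule ℂ V, W ≠ ⊥ ∧ W ≤ E ∧ (∀ t, ∀ v ∈ W, U t v ∈ W) ∧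
      Module.finrank ℂ W = n := ⟨_, E, hE, le_rfl, hinv, rfl⟩
  obtain ⟨W, hW0, hWE, hWinv, hWn⟩ := Nat.find_spec hex
  have : FiniteDimensional ℂ W := Submodule.finiteDimensional_of_le hWE
  have : Nontrivial W := Submodule.nontrivial_iff_ne_bot.2 hW0
  have hscal : ∀ t, ∃ c : ℂ, ∀ v ∈ W, U t v = c • v := by
    intro t
    obtain ⟨c, hc⟩ := Module.End.exists_eigenvalue ((U t).restrict (hWinv t))
    obtain ⟨w, hw⟩ := hc.exists_hasEigenvector
    set W' := W ⊓ LinearMap.ker (U t - c • LinearMap.id) with hW'
    have hmem : ∀ v, v ∈ W' ↔ v ∈ W ∧ U t v = c • v := fun v => by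
      simp [hW', sub_eq_zero]
    have hne : W' ≠ ⊥ := by
      refine Submodule.ne_bot_iff _ |>.2 ⟨w, (hmem w).2 ⟨w.2, ?_⟩, by simpa using hw.2⟩
      simpa using congrArg Subtype.val hw.apply_eq_smul
    have hinv' : ∀ s, ∀ v ∈ W', U s v ∈ W' := fun s v hv => by
      rw [hmem] at hv ⊢
      exact ⟨hWinv s v hv.1, by rw [hcomm, hv.2, map_smul]⟩
    have hmin := Nat.find_min' hex ⟨W', hne, inf_le_left.trans hWE, hinv', rfl⟩
    rw [← hWn] at hmin
    have heq : W' = W := Submodule.eq_of_le_of_finrank_le inf_le_left hmin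
    exact ⟨c, fun v hv => ((hmem v).1 (heq ▸ hv)).2⟩
  obtain ⟨v, hv, hv0⟩ := (Submodule.ne_bot_iff _).1 hW0
  exact ⟨v, hWE hv, hv0, fun t => (hscal t).imp fun c hc => hc v hv⟩

variable {α : Type} [MeasurableSpace α] {m : Measure α} [IsProbabilityMeasure m]

/-- `L²` of the probability space. -/
abbrev H (m : Measure α) := Lp ℂ 2 m

/-- Invariant functions of an ergodic flow are constant. -/
lemma const_of_invariant {Φ : ℝ → α → α} (herg : IsErgodicFlow m Φ) {f : α → ℂ}
    (hf : Measurable f) (hinv : ∀ t, ∀ᵐ p ∂m, f (Φ t p) = f p) :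
    ∃ c : ℂ, f =ᵐ[m] fun _ => c := by
  refine Filter.exists_eventuallyEq_const_of_forall_separating (l := ae m) MeasurableSet
    fun U hU => ?_
  have hS : MeasurableSet (f ⁻¹' U) := hf hU
  rcases herg (f ⁻¹' U) hS (fun t => by
    rw [measure_symmDiff_eq_zero_iff]
    filter_upwards [hinv t] with p hp
    show (f (Φ t p) ∈ U) = (f p ∈ U)
    rw [hp]) with h | h
  · right
    rwa [ae_iff, show {p | ¬ f p ∉ U} = f ⁻¹' U by ext; simp]
  · left
    rw [← prob_compl_eq_zero_iff hS] at h
    exact h

/-- The constant one. -/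
def one (m : Measure α) [IsProbabilityMeasure m] : H m :=
  indicatorConstLp 2 MeasurableSet.univ (measure_ne_top m _) (1 : ℂ)

lemma coe_one : (one m : α → ℂ) =ᵐ[m] fun _ => (1 : ℂ) :=
  indicatorConstLp_coeFn.trans (by simp)

lemma coe_smul_one (c : ℂ) : (↑↑(c • one m) : α → ℂ) =ᵐ[m] fun _ => c := by
  filter_upwards [Lp.coeFn_smul c (one m), coe_one (m := m)] with x h1 h2
  rw [h1, Pi.smul_apply, h2, smul_eq_mul, mul_one]

lemma inner_one (g : H m) : inner ℂ (one m) g = ∫ x, g x ∂m := by
  rw [one, L2.inner_indicatorConstLp_one, setIntegral_univ]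

lemma inner_one_one : inner ℂ (one m) (one m) = 1 := by
  rw [inner_one, integral_congr_ae coe_one]; simp

/-- Integral of `g` over the slices of `D`. -/
def slice (D : Set (α × α)) (g : α → ℂ) (m : Measure α) (x : α) : ℂ :=
  ∫ y in Prod.mk x ⁻¹' D, g y ∂m

variable {D : Set (α × α)}

lemma slice_congr {g g' : α → ℂ} (h : g =ᵐ[m] g') : slice D g m = slice D g' m :=
  funext fun _ => integral_congr_ae (ae_restrict_of_ae h)

lemma norm_slice_le (hD : MeasurableSet D) (g : H m) (x : α) :
    ‖slice D g m x‖ ≤ Real.sqrt (m.real (Prod.mk x ⁻¹' D)) * ‖g‖ := by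
  rw [slice, ← L2.inner_indicatorConstLp_one (measurable_prodMk_left hD) (measure_ne_top m _) g]
  refine (norm_inner_le_norm _ _).trans (le_of_eq ?_)
  rw [norm_indicatorConstLp (by norm_num) (by norm_num), norm_one, one_mul, Real.sqrt_eq_rpow]
  norm_num

lemma measurable_slice (hD : MeasurableSet D) (g : H m) : StronglyMeasurable (slice D g m) := by
  have h : StronglyMeasurable fun p : α × α => D.indicator (fun p => (g : α → ℂ) p.2) p :=
    ((Lp.stronglyMeasurable g).comp_measurable measurable_snd).indicator hD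
  have heq : slice D g m = fun x => ∫ y, D.indicator (fun p => (g : α → ℂ) p.2) (x, y) ∂m := by
    funext x
    rw [slice, ← integral_indicator (measurable_prodMk_left hD)]
    rfl
  rw [heq]
  exact h.integral_prod_right'

lemma memLp_slice (hD : MeasurableSet D) (g : H m) : MemLp (slice D g m) 2 m :=
  MemLp.of_bound (measurable_slice hD g).aestronglyMeasurable ‖g‖ <| Eventually.of_forall fun x =>
    (norm_slice_le hD g x).trans <| mul_le_of_le_one_left (norm_nonneg _) <|
      Real.sqrt_le_one.2 measureReal_le_one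

lemma integrableOn_coe (g : H m) (s : Set α) : IntegrableOn g s m :=
  ((Lp.memLp g).integrable (by norm_num)).integrableOn

/-- The integral operator with kernel `1_D`. -/
def opLin (D : Set (α × α)) (hD : MeasurableSet D) : H m →ₗ[ℂ] H m where
  toFun g := (memLp_slice hD g).toLp _
  map_add' g h := by
    rw [← MemLp.toLp_add (memLp_slice hD g) (memLp_slice hD h)]
    refine MemLp.toLp_congr _ _ (Eventually.of_forall fun x => ?_)
    show slice D (↑↑(g + h)) m x = slice D g m x + slice D h m x
    rw [slice_congr (Lp.coeFn_add g h)]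
    exact integral_add (integrableOn_coe g _) (integrableOn_coe h _)
  map_smul' c g := by
    rw [RingHom.id_apply, ← MemLp.toLp_const_smul c (memLp_slice hD g)]
    refine MemLp.toLp_congr _ _ (Eventually.of_forall fun x => ?_)
    show slice D (↑↑(c • g)) m x = c • slice D g m x
    rw [slice_congr (Lp.coeFn_smul c g)]
    exact integral_smul c _

lemma prod_real_eq (hD : MeasurableSet D) :
    Integrable (fun x => m.real (Prod.mk x ⁻¹' D)) m ∧
      (m.prod m).real D = ∫ x, m.real (Prod.mk x ⁻¹' D) ∂m := by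
  have hmeas : Measurable fun x => m (Prod.mk x ⁻¹' D) := measurable_measure_prodMk_left hD
  refine ⟨Integrable.of_bound hmeas.ennreal_toReal.aestronglyMeasurable 1
    (Eventually.of_forall fun x => by
      simpa [Real.norm_eq_abs, abs_of_nonneg measureReal_nonneg] using measureReal_le_one), ?_⟩
  rw [measureReal_def, Measure.prod_apply hD,
    ← integral_toReal hmeas.aemeasurable (Eventually.of_forall fun x => measure_lt_top _ _)]
  rfl

lemma norm_opLin_le (hD : MeasurableSet D) (g : H m) :
    ‖opLin D hD g‖ ≤ Real.sqrt ((m.prod m).real D) * ‖g‖ := by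
  refine (sq_le_sq₀ (norm_nonneg _) (by positivity)).1 ?_
  rw [mul_pow, Real.sq_sqrt measureReal_nonneg]
  have h1 : ‖opLin D hD g‖ ^ 2 = ∫ x, ‖slice D g m x‖ ^ 2 ∂m := by
    have := @inner_self_eq_norm_sq ℂ (H m) _ _ _ (opLin D hD g)
    rw [← this, L2.inner_def, ← integral_re (L2.integrable_inner _ _)]
    refine integral_congr_ae ?_
    filter_upwards [(memLp_slice hD g).coeFn_toLp] with x hx
    simp only [opLin, LinearMap.coe_mk, AddHom.coe_mk, hx, inner_self_eq_norm_sq]
  rw [h1, (prod_real_eq (m := m) hD).2, ← integral_mul_const]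
  refine integral_mono ((memLp_slice hD g).norm.integrable_sq)
    ((prod_real_eq hD).1.mul_const _) fun x => ?_
  calc ‖slice D g m x‖ ^ 2
      ≤ (Real.sqrt (m.real (Prod.mk x ⁻¹' D)) * ‖g‖) ^ 2 :=
        pow_le_pow_left₀ (norm_nonneg _) (norm_slice_le hD g x) 2
    _ = m.real (Prod.mk x ⁻¹' D) * ‖g‖ ^ 2 := by
        rw [mul_pow, Real.sq_sqrt measureReal_nonneg]

/-- The integral operator as a continuous linear map. -/
def op (m : Measure α) [IsProbabilityMeasure m] (D : Set (α × α)) (hD : MeasurableSet D) :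
    H m →L[ℂ] H m :=
  (opLin D hD).mkContinuous (Real.sqrt ((m.prod m).real D)) (norm_opLin_le hD)

lemma op_coe (hD : MeasurableSet D) (g : H m) : ↑↑(op m D hD g) =ᵐ[m] slice D g m :=
  (memLp_slice hD g).coeFn_toLp

lemma norm_op_le (hD : MeasurableSet D) : ‖op m D hD‖ ≤ Real.sqrt ((m.prod m).real D) :=
  LinearMap.mkContinuous_norm_le _ (Real.sqrt_nonneg _) _

lemma op_add {D D' : Set (α × α)} (hD : MeasurableSet D) (hD' : MeasurableSet D')
    (hdis : Disjoint D D') : op m (D ∪ D') (hD.union hD') = op m D hD + op m D' hD' := by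
  ext1 g
  refine Lp.ext ?_
  filter_upwards [op_coe (hD.union hD') g, op_coe hD g, op_coe hD' g,
    Lp.coeFn_add (op m D hD g) (op m D' hD' g)] with x h1 h2 h3 h4
  rw [h1]
  show _ = ((op m D hD g + op m D' hD' g : H m) : α → ℂ) x
  rw [h4, Pi.add_apply, h2, h3, slice, slice, slice, preimage_union]
  exact setIntegral_union (hdis.preimage _) (measurable_prodMk_left hD')
    (integrableOn_coe g _) (integrableOn_coe g _)

lemma compact_id : IsCompactOperator (id : ℂ → ℂ) :=
  (isCompactOperator_id_iff_finiteDimensional (𝕜 := ℂ) (E := ℂ)).2 inferInstance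

lemma compact_rect {A B : Set α} (hA : MeasurableSet A) (hB : MeasurableSet B) :
    IsCompactOperator (op m (A ×ˢ B) (hA.prod hB)) := by
  set a : H m := indicatorConstLp 2 hA (measure_ne_top m _) (1 : ℂ)
  set b : H m := indicatorConstLp 2 hB (measure_ne_top m _) (1 : ℂ)
  have heq : op m (A ×ˢ B) (hA.prod hB)
      = (ContinuousLinearMap.toSpanSingleton ℂ a).comp (innerSL ℂ b) := by
    ext1 g
    refine Lp.ext ?_
    filter_upwards [op_coe (hA.prod hB) g, Lp.coeFn_smul (inner ℂ b g) a,
      (indicatorConstLp_coeFn : (a : α → ℂ) =ᵐ[m] _)] with x h1 h2 h3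
    rw [h1]
    show _ = (((inner ℂ b g) • a : H m) : α → ℂ) x
    rw [h2, Pi.smul_apply, h3, L2.inner_indicatorConstLp_one, slice]
    by_cases hx : x ∈ A
    · rw [mk_preimage_prod_right hx, indicator_of_mem hx]; simp
    · rw [mk_preimage_prod_right_eq_empty hx, indicator_of_notMem hx]; simp
  rw [heq]
  exact (compact_id.comp_clm (innerSL ℂ b)).clm_comp (ContinuousLinearMap.toSpanSingleton ℂ a)

lemma compact_op (D : Set (α × α)) (hD : MeasurableSet D) : IsCompactOperator (op m D hD) := by
  induction D, hD using MeasurableSpace.induction_on_inter generateFrom_prod.symm isPiSystem_prod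
    with
  | empty =>
    have h : op m (∅ : Set (α × α)) .empty = 0 := by
      rw [← norm_le_zero_iff]
      exact (norm_op_le _).trans (by simp)
    rw [h]
    exact isCompactOperator_zero
  | basic D hD =>
    obtain ⟨A, hA, B, hB, rfl⟩ := hD
    exact compact_rect hA hB
  | compl D hD ih =>
    have huniv : IsCompactOperator (op m (Set.univ : Set (α × α)) .univ) := by
      have h := compact_rect (m := m) (MeasurableSet.univ (α := α)) (MeasurableSet.univ (α := α))
      simpa only [univ_prod_univ] using h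
    have h := op_add (m := m) hD hD.compl disjoint_compl_right
    simp only [union_compl_self] at h
    rw [eq_sub_of_add_eq' h.symm]
    exact huniv.sub ih
  | iUnion f hdis hf ih =>
    have hA : ∀ n, MeasurableSet (accumulate f n) := fun n =>
      MeasurableSet.biUnion (to_countable _) fun i _ => hf i
    have hcomp : ∀ n, IsCompactOperator (op m (accumulate f n) (hA n)) := by
      intro n
      induction n with
      | zero =>
        have : accumulate f 0 = f 0 := accumulate_zero_nat f
        simp only [this]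
        exact ih 0
      | succ n ihn =>
        have hd : Disjoint (accumulate f n) (f (n + 1)) := by
          rw [accumulate_def, disjoint_iUnion₂_left]
          exact fun i hi => hdis (by omega)
        have h := op_add (m := m) (hA n) (hf (n + 1)) hd
        simp only [← accumulate_succ] at h
        rw [h]
        exact ihn.add (ih (n + 1))
    refine isCompactOperator_of_tendsto (l := (atTop : Filter ℕ)) ?_ (Eventually.of_forall hcomp)
    rw [tendsto_iff_norm_sub_tendsto_zero]
    have hU : MeasurableSet (⋃ i, f i) := .iUnion hf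
    have hsub : ∀ n, accumulate f n ⊆ ⋃ i, f i := fun n =>
      iUnion₂_subset fun i _ => subset_iUnion f i
    have hle : ∀ n, ‖op m (accumulate f n) (hA n) - op m (⋃ i, f i) hU‖
        ≤ Real.sqrt ((m.prod m).real ((⋃ i, f i) \ accumulate f n)) := by
      intro n
      have h := op_add (m := m) (hA n) (hU.diff (hA n)) disjoint_sdiff_right
      simp only [union_diff_cancel (hsub n)] at h
      rw [h, sub_add_cancel_left, norm_neg]
      exact norm_op_le _
    refine squeeze_zero (fun n => norm_nonneg _) hle ?_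
    have ht : Tendsto (fun n => (m.prod m).real ((⋃ i, f i) \ accumulate f n)) atTop (𝓝 0) := by
      have h1 : Tendsto (fun n => (m.prod m).real (accumulate f n)) atTop
          (𝓝 ((m.prod m).real (⋃ i, f i))) :=
        (ENNReal.tendsto_toReal (measure_ne_top _ _)).comp tendsto_measure_iUnion_accumulate
      have h2 := (tendsto_const_nhds (x := (m.prod m).real (⋃ i, f i))).sub h1
      rw [sub_self] at h2
      refine h2.congr fun n => ?_
      rw [measureReal_sdiff (hsub n) (hA n)]
    simpa using ht.sqrt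

/-- The Koopman isometries. -/
def koop {Φ : ℝ → α → α} (hpres : ∀ t, MeasurePreserving (Φ t) m m) (t : ℝ) : H m →ₗᵢ[ℂ] H m :=
  Lp.compMeasurePreservingₗᵢ ℂ (Φ t) (hpres t)

variable {Φ : ℝ → α → α} (hpres : ∀ t, MeasurePreserving (Φ t) m m)

lemma koop_coe (t : ℝ) (g : H m) : ↑↑(koop hpres t g) =ᵐ[m] fun x => g (Φ t x) :=
  Lp.coeFn_compMeasurePreserving g (hpres t)

lemma koop_one (t : ℝ) : koop hpres t (one m) = one m := by
  refine Lp.ext ?_
  filter_upwards [koop_coe hpres t (one m), (hpres t).quasiMeasurePreserving.ae (coe_one (m := m)),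
    coe_one (m := m)] with x h1 h2 h3
  rw [h1, h2, h3]

lemma koop_comp (hgroup : ∀ s t p, Φ (s + t) p = Φ s (Φ t p)) (s t : ℝ) (g : H m) :
    koop hpres t (koop hpres s g) = koop hpres (s + t) g := by
  refine Lp.ext ?_
  filter_upwards [koop_coe hpres t (koop hpres s g), koop_coe hpres (s + t) g,
    (hpres t).quasiMeasurePreserving.ae (koop_coe hpres s g)] with x h1 h2 h3
  rw [h1, h2, h3, hgroup]

lemma koop_zero (h0 : ∀ p, Φ 0 p = p) (g : H m) : koop hpres 0 g = g := by
  refine Lp.ext ?_
  filter_upwards [koop_coe hpres 0 g] with x h1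
  rw [h1, h0]

lemma inner_koop (h0 : ∀ p, Φ 0 p = p) (hgroup : ∀ s t p, Φ (s + t) p = Φ s (Φ t p)) (t : ℝ)
    (u v : H m) : inner ℂ (koop hpres t u) v = inner ℂ u (koop hpres (-t) v) := by
  rw [← (koop hpres t).inner_map_map u (koop hpres (-t) v), koop_comp hpres hgroup, neg_add_cancel,
    koop_zero hpres h0]

/-- Common eigenvectors of the Koopman group are constant. -/
lemma eigen_const (h0 : ∀ p, Φ 0 p = p) (hgroup : ∀ s t p, Φ (s + t) p = Φ s (Φ t p))
    (hcont : ∀ f : α → ℂ, Measurable f → (∃ B, ∀ p, ‖f p‖ ≤ B) →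
      Tendsto (fun t => ∫ p, ‖f (Φ t p) - f p‖ ^ 2 ∂m) (𝓝 0) (𝓝 0))
    (herg : IsErgodicFlow m Φ)
    (hno : ∀ (lam : ℝ) (f : α → ℂ), lam ≠ 0 → Measurable f → (∃ B, ∀ p, ‖f p‖ ≤ B) →
      (∀ t, ∀ᵐ p ∂m, f (Φ t p) = Complex.exp ((lam * t : ℝ) * Complex.I) * f p) → f =ᵐ[m] 0)
    {v : H m} (hv0 : v ≠ 0) (hv : ∀ t, ∃ c : ℂ, koop hpres t v = c • v) :
    ∃ c : ℂ, v = c • one m := by
  choose χ hχ using hv
  have hn : ∀ t, ‖χ t‖ = 1 := fun t => by
    have h := (koop hpres t).norm_map v
    rw [hχ, norm_smul] at h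
    exact (mul_eq_right₀ (norm_ne_zero_iff.2 hv0)).1 h
  have hmul : ∀ s t, χ (s + t) = χ s * χ t := fun s t => by
    have h := koop_comp hpres hgroup s t v
    rw [hχ s, map_smul, hχ t, hχ (s + t), smul_smul] at h
    exact (smul_left_injective ℂ hv0 h).symm
  have hz : χ 0 = 1 := by
    have h := hχ 0
    rw [koop_zero hpres h0] at h
    exact (smul_left_injective ℂ hv0 (h.symm.trans (one_smul ℂ v).symm))
  have hae : ∀ t, ∀ᵐ x ∂m, v (Φ t x) = χ t * v x := fun t => by
    filter_upwards [koop_coe hpres t v, Lp.coeFn_smul (χ t) v] with x h1 h2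
    rw [← h1, hχ, h2, Pi.smul_apply, smul_eq_mul]
  have hvm : Measurable (v : α → ℂ) := (Lp.stronglyMeasurable v).measurable
  obtain ⟨r, hr⟩ := const_of_invariant herg (f := fun x => ((‖(v : α → ℂ) x‖ : ℝ) : ℂ))
    (by fun_prop) (fun t => by
      filter_upwards [hae t] with x hx
      rw [hx, norm_mul, hn, one_mul])
  have hbd : ∀ᵐ x ∂m, ‖(v : α → ℂ) x‖ = r.re := by
    filter_upwards [hr] with x hx
    have h := congrArg Complex.re hx
    simpa using h
  set f : α → ℂ := fun x => if ‖(v : α → ℂ) x‖ ≤ |r.re| then v x else 0 with hfdef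
  have hfm : Measurable f := Measurable.ite (measurableSet_le (by fun_prop) measurable_const) hvm
    measurable_const
  have hfB : ∃ B, ∀ p, ‖f p‖ ≤ B := ⟨|r.re|, fun p => by
    simp only [hfdef]; split_ifs with h
    · exact h
    · simp⟩
  have hfv : f =ᵐ[m] v := by
    filter_upwards [hbd] with x hx
    simp only [hfdef]
    rw [if_pos (hx ▸ le_abs_self _)]
  have hfe : ∀ t, ∀ᵐ x ∂m, f (Φ t x) = χ t * f x := fun t => by
    filter_upwards [hae t, hfv, (hpres t).quasiMeasurePreserving.ae hfv] with x h1 h2 h3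
    rw [h3, h2, h1]
  have hnorm : 0 < ∫ p, ‖f p‖ ^ 2 ∂m := by
    have h1 : ∫ p, ‖f p‖ ^ 2 ∂m = ‖v‖ ^ 2 := by
      rw [← @inner_self_eq_norm_sq ℂ, L2.inner_def, ← integral_re (L2.integrable_inner _ _)]
      refine integral_congr_ae ?_
      filter_upwards [hfv] with x hx
      rw [hx, inner_self_eq_norm_sq]
    rw [h1]
    positivity
  have hc0 : Tendsto (fun t => ‖χ t - 1‖ ^ 2) (𝓝 0) (𝓝 0) := by
    have h := (hcont f hfm hfB).div_const (∫ p, ‖f p‖ ^ 2 ∂m)
    rw [zero_div] at h
    refine h.congr fun t => ?_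
    rw [div_eq_iff hnorm.ne', ← integral_const_mul]
    refine integral_congr_ae ?_
    filter_upwards [hfe t] with x hx
    rw [hx, ← mul_pow, ← norm_mul, sub_mul, one_mul]
  have hc0' : Tendsto χ (𝓝 0) (𝓝 1) := by
    rw [tendsto_iff_norm_sub_tendsto_zero]
    simpa [Real.sqrt_sq] using hc0.sqrt
  have hcontχ : Continuous χ := continuous_iff_continuousAt.2 fun s => by
    have h : Tendsto (fun t => χ s * χ (t - s)) (𝓝 s) (𝓝 (χ s * 1)) :=
      tendsto_const_nhds.mul (hc0'.comp (Continuous.tendsto' (by fun_prop) s 0 (sub_self s)))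
    rw [mul_one] at h
    exact h.congr fun t => by rw [← hmul, add_sub_cancel]
  obtain ⟨lam, hlam⟩ := char_eq_exp hcontχ hmul hz hn
  have hlam0 : lam = 0 := by
    by_contra hne
    have hf0 := hno lam f hne hfm hfB fun t => by
      filter_upwards [hfe t] with x hx
      rw [hx, hlam]
    exact hv0 (Lp.ext ((hfv.symm.trans hf0).trans (Lp.coeFn_zero ℂ 2 m).symm))
  obtain ⟨c, hc⟩ := const_of_invariant herg hfm fun t => by
    filter_upwards [hfe t] with x hx
    rw [hx, hlam, hlam0]
    simp
  exact ⟨c, Lp.ext ((hfv.symm.trans hc).trans (coe_smul_one c).symm)⟩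

end SpectralB

open SpectralB

theorem spectralB_holds : SpectralStmt := by
  intro α _ m _ Φ h0 hgroup hpres hcont herg hno S hS hinv
  have hpp : ∀ t, MeasurePreserving (fun p : α × α => (Φ t p.1, Φ t p.2)) (m.prod m) (m.prod m) :=
    fun t => (hpres t).prod (hpres t)
  have hsl : ∀ t, ∀ᵐ x ∂m, ∀ᵐ y ∂m, ((Φ t x, Φ t y) ∈ S ↔ (x, y) ∈ S) := fun t => by
    refine Measure.ae_ae_of_ae_prod (p := fun p : α × α => (Φ t p.1, Φ t p.2) ∈ S ↔ p ∈ S) ?_
    filter_upwards [(measure_symmDiff_eq_zero_iff.1 (hinv t))] with p hp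
    exact iff_of_eq hp
  let e : ℝ → α ≃ᵐ α := fun t =>
    { toFun := Φ t
      invFun := Φ (-t)
      left_inv := fun x => by rw [← hgroup, neg_add_cancel, h0]
      right_inv := fun x => by rw [← hgroup, add_neg_cancel, h0]
      measurable_toFun := (hpres t).measurable
      measurable_invFun := (hpres (-t)).measurable }
  set T := op m S hS with hT
  have hTU : ∀ t g, T (koop hpres t g) = koop hpres t (T g) := by
    intro t g
    refine Lp.ext ?_
    filter_upwards [op_coe hS (koop hpres t g), koop_coe hpres t (T g),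
      (hpres t).quasiMeasurePreserving.ae (op_coe hS g), hsl t] with x h1 h2 h3 h4
    rw [h1, h2, h3, slice_congr (koop_coe hpres t g)]
    calc slice S (fun y => (g : α → ℂ) (Φ t y)) m x
        = ∫ y in Φ t ⁻¹' (Prod.mk (Φ t x) ⁻¹' S), (g : α → ℂ) (Φ t y) ∂m := by
          refine setIntegral_congr_set ?_
          filter_upwards [h4] with y hy
          exact propext hy.symm
      _ = slice S g m (Φ t x) :=
          (hpres t).setIntegral_preimage_emb (e t).measurableEmbedding _ _
  set A := (ContinuousLinearMap.adjoint T).comp T with hA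
  have hAU : ∀ t g, A (koop hpres t g) = koop hpres t (A g) := by
    intro t g
    refine ext_inner_left ℂ fun u => ?_
    have h1 : inner ℂ u (koop hpres t (A g)) = inner ℂ (koop hpres (-t) u) (A g) := by
      rw [inner_koop hpres h0 hgroup (-t), neg_neg]
    rw [h1]
    simp only [hA, ContinuousLinearMap.comp_apply, ContinuousLinearMap.adjoint_inner_right]
    rw [hTU, hTU, inner_koop hpres h0 hgroup (-t), neg_neg]
  have hAc : IsCompactOperator A := (compact_op S hS).clm_comp (ContinuousLinearMap.adjoint T)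
  have hAs : A.IsSymmetric := fun u v => by
    show inner ℂ (A u) v = inner ℂ u (A v)
    simp only [hA, ContinuousLinearMap.comp_apply, ContinuousLinearMap.adjoint_inner_right,
      ContinuousLinearMap.adjoint_inner_left]
  have heig : ∀ μ : ℂ, μ ≠ 0 → ∀ v ∈ Module.End.eigenspace (A : Module.End ℂ (H m)) μ,
      inner ℂ (one m) v = 0 → v = 0 := by
    intro μ hμ v hv hv1
    by_contra hv0
    have := ContinuousLinearMap.finite_dimensional_eigenspace hAc μ hμ
    set E := Module.End.eigenspace (A : Module.End ℂ (H m)) μ ⊓ (ℂ ∙ one m)ᗮ with hEdef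
    have hmem : ∀ w, w ∈ E ↔ A w = μ • w ∧ inner ℂ (one m) w = 0 := fun w => by
      simp [hEdef, Module.End.mem_eigenspace_iff, Submodule.mem_orthogonal_singleton_iff_inner_right]
    have : FiniteDimensional ℂ E := Submodule.finiteDimensional_of_le inf_le_left
    obtain ⟨w, hwE, hw0, hw⟩ := exists_common_eigen (fun t => (koop hpres t).toLinearMap)
      (fun s t u => by
        show koop hpres s (koop hpres t u) = koop hpres t (koop hpres s u)
        rw [koop_comp hpres hgroup, koop_comp hpres hgroup, add_comm]) E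
      ((Submodule.ne_bot_iff _).2
        ⟨v, (hmem v).2 ⟨Module.End.mem_eigenspace_iff.1 hv, hv1⟩, hv0⟩)
      (fun t w hw => by
        rw [hmem] at hw ⊢
        show A (koop hpres t w) = μ • koop hpres t w ∧ inner ℂ (one m) (koop hpres t w) = 0
        refine ⟨by rw [hAU, hw.1, map_smul], ?_⟩
        rw [← koop_one hpres t, (koop hpres t).inner_map_map, hw.2])
    obtain ⟨c, hc⟩ := eigen_const hpres h0 hgroup hcont herg hno hw0 hw
    have hwi := ((hmem w).1 hwE).2
    rw [hc, inner_smul_right, inner_one_one, mul_one] at hwi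
    exact hw0 (by rw [hc, hwi, zero_smul])
  have hperp : ∀ g, inner ℂ (one m) g = 0 → T g = 0 := by
    intro g hg
    suffices A g = 0 by
      have h := ContinuousLinearMap.adjoint_inner_left T g (T g)
      rw [show ContinuousLinearMap.adjoint T (T g) = A g from rfl, this, inner_zero_left] at h
      exact inner_self_eq_zero.1 h.symm
    refine (Submodule.mem_bot ℂ).1 ?_
    rw [← ContinuousLinearMap.orthogonalComplement_iSup_eigenspaces_eq_bot hAc hAs]
    rw [← Submodule.iInf_orthogonal, Submodule.mem_iInf]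
    intro μ
    rw [Submodule.mem_orthogonal]
    intro u hu
    have hu' : A u = μ • u := Module.End.mem_eigenspace_iff.1 hu
    have hsym : inner ℂ u (A g) = inner ℂ (A u) g := (hAs u g).symm
    rw [hsym, hu', inner_smul_left]
    rcases eq_or_ne μ 0 with rfl | hμ
    · simp
    have hu1 : u - (inner ℂ (one m) u) • one m = 0 ∨ inner ℂ (one m) u = 0 := by
      by_cases h : inner ℂ (one m) u = 0
      · exact Or.inr h
      · left
        have := ContinuousLinearMap.finite_dimensional_eigenspace hAc μ hμ
        obtain ⟨w, hwE, hw0, hw⟩ := exists_common_eigen (fun t => (koop hpres t).toLinearMap)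
          (fun s t u => by
            show koop hpres s (koop hpres t u) = koop hpres t (koop hpres s u)
            rw [koop_comp hpres hgroup, koop_comp hpres hgroup, add_comm])
          (Module.End.eigenspace (A : Module.End ℂ (H m)) μ)
          ((Submodule.ne_bot_iff _).2 ⟨u, hu, fun h0' => h (by rw [h0', inner_zero_right])⟩)
          (fun t w hw => by
            rw [Module.End.mem_eigenspace_iff] at hw ⊢
            show A (koop hpres t w) = μ • koop hpres t w
            rw [hAU, show A w = μ • w from hw, map_smul])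
        obtain ⟨c, hc⟩ := eigen_const hpres h0 hgroup hcont herg hno hw0 hw
        have hc0 : c ≠ 0 := fun h => hw0 (by rw [hc, h, zero_smul])
        have hone : one m ∈ Module.End.eigenspace (A : Module.End ℂ (H m)) μ := by
          have hh := Submodule.smul_mem _ c⁻¹ hwE
          rwa [hc, smul_smul, inv_mul_cancel₀ hc0, one_smul] at hh
        refine heig μ hμ _ (Submodule.sub_mem _ hu (Submodule.smul_mem _ _ hone)) ?_
        rw [inner_sub_right, inner_smul_right, inner_one_one, mul_one, sub_self]
    rcases hu1 with h | h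
    · rw [sub_eq_zero] at h
      rw [h, inner_smul_left, hg]; simp
    · rw [heig μ hμ u hu h]; simp
  have hTg : ∀ g, T g = (inner ℂ (one m) g) • T (one m) := fun g => by
    have h := hperp (g - (inner ℂ (one m) g) • one m) (by
      rw [inner_sub_right, inner_smul_right, inner_one_one, mul_one, sub_self])
    rwa [map_sub, map_smul, sub_eq_zero] at h
  obtain ⟨p, hp⟩ := const_of_invariant herg (Lp.stronglyMeasurable (T (one m))).measurable
    fun t => by
      have h : koop hpres t (T (one m)) = T (one m) := by rw [← hTU, koop_one]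
      have h2 := koop_coe hpres t (T (one m))
      rw [h] at h2
      exact h2.symm
  have hrect : ∀ A' B' : Set α, MeasurableSet A' → MeasurableSet B' →
      ((m.prod m).real ((A' ×ˢ B') ∩ S) : ℂ) = p * m.real A' * m.real B' := by
    intro A' B' hA' hB'
    set b : H m := indicatorConstLp 2 hB' (measure_ne_top m _) (1 : ℂ) with hbdef
    have hb : inner ℂ (one m) b = (m.real B' : ℂ) := by
      rw [one, hbdef, L2.inner_indicatorConstLp_one_indicatorConstLp_one, univ_inter]
      simp
    have hTb : ∀ᵐ x ∂m, slice S b m x = p * m.real B' := by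
      filter_upwards [op_coe hS b, hp,
        Lp.coeFn_smul (inner ℂ (one m) b) (T (one m))] with x h1 h2 h3
      rw [← h1, ← hT, hTg, h3, Pi.smul_apply, h2, hb, smul_eq_mul, mul_comm]
    have hval : ∀ x, slice S b m x = (m.real (Prod.mk x ⁻¹' S ∩ B') : ℂ) := fun x => by
      rw [slice, ← L2.inner_indicatorConstLp_one (measurable_prodMk_left hS) (measure_ne_top m _),
        hbdef, L2.inner_indicatorConstLp_one_indicatorConstLp_one]
      simp
    have hsec : ∀ x, m.real (Prod.mk x ⁻¹' ((A' ×ˢ B') ∩ S))
        = A'.indicator (fun x => m.real (Prod.mk x ⁻¹' S ∩ B')) x := fun x => by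
      by_cases hx : x ∈ A'
      · rw [indicator_of_mem hx, preimage_inter, mk_preimage_prod_right hx, inter_comm]
      · rw [indicator_of_notMem hx, preimage_inter, mk_preimage_prod_right_eq_empty hx,
          empty_inter, measureReal_empty]
    rw [(prod_real_eq ((hA'.prod hB').inter hS)).2, integral_congr_ae (Eventually.of_forall hsec),
      integral_indicator hA', ← integral_complex_ofReal]
    simp only [← hval]
    rw [integral_congr_ae (ae_restrict_of_ae hTb), setIntegral_const, Complex.real_smul]
    ring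
  have hpS : ((m.prod m).real S : ℂ) = p := by simpa using hrect univ univ .univ .univ
  have hall : (m.prod m).restrict S = (m.prod m) S • m.prod m := by
    have : IsFiniteMeasure ((m.prod m).restrict S) := inferInstance
    refine ext_of_generate_finite _ generateFrom_prod.symm isPiSystem_prod ?_ ?_
    · rintro _ ⟨A', hA', B', hB', rfl⟩
      rw [Measure.restrict_apply (hA'.prod hB'), Measure.smul_apply, smul_eq_mul,
        ← ENNReal.toReal_eq_toReal_iff' (measure_ne_top _ _)
          (ENNReal.mul_ne_top (measure_ne_top _ _) (measure_ne_top _ _)),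
        ENNReal.toReal_mul, Measure.prod_prod, ENNReal.toReal_mul, ← measureReal_def,
        ← measureReal_def, ← measureReal_def, ← measureReal_def, ← mul_assoc]
      have h := hrect A' B' hA' hB'
      rw [← hpS] at h
      exact_mod_cast h
    · simp
  have hz := congrArg (fun μ : Measure (α × α) => μ Sᶜ) hall
  simp only [Measure.restrict_apply hS.compl, compl_inter_self, measure_empty,
    Measure.smul_apply, smul_eq_mul] at hz
  rcases mul_eq_zero.1 hz.symm with h | h
  · exact Or.inl h
  · exact Or.inr ((prob_compl_eq_zero_iff hS).1 h)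

end Vale.Agent.P099
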