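import Mathlib
import Vale.Agent.P099.Spec
import Vale.Agent.P099.Flow.Pres

/-!
# P099: the step bound for the extended, cut off eigenfunction

Near a single side the extension is the pullback by the fold, and a short translation is carried
to an inner step or to a step with one reflection. Near the vertices everything vanishes.
-/

noncomputable section

namespace Vale.Agent.P099.StepBound

open MeasureTheory Set Complex Filter Topology
open scoped ComplexConjugate

variable {M : Table}

lemma norm_u (j : Fin 3) : ‖M.u j‖ = 1 := Complex.norm_exp_ofReal_mul_I _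

lemma ell_sub (j : Fin 3) (w z : ℂ) : M.ell j w - M.ell j z = (conj (M.u j) * (w - z)).im := by
  simp [Table.ell, mul_sub]

lemma ell_lip (j : Fin 3) (w z : ℂ) : |M.ell j w - M.ell j z| ≤ ‖w - z‖ := by
  rw [ell_sub]
  exact (Complex.abs_im_le_norm _).trans_eq (by rw [norm_mul, RCLike.norm_conj, norm_u, one_mul])

lemma im_conj_u (i j : Fin 3) : (conj (M.u i) * M.u j).im = Real.sin (M.β j - M.β i) := by
  simp only [Table.u, Complex.mul_im, Complex.conj_re, Complex.conj_im,
    Complex.exp_ofReal_mul_I_re, Complex.exp_ofReal_mul_I_im, Real.sin_sub]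
  ring

lemma ell_refl (j : Fin 3) (z : ℂ) : M.ell j (M.refl j z) = - M.ell j z := by
  have h := ell_sub (M := M) j (M.refl j z) z
  rw [show M.refl j z - z = ((-(2 * M.ell j z) : ℝ) : ℂ) * (Complex.I * M.u j) by
    simp [Table.refl]] at h
  rw [show conj (M.u j) * (((-(2 * M.ell j z) : ℝ) : ℂ) * (Complex.I * M.u j)) =
      ((-(2 * M.ell j z) : ℝ) : ℂ) * Complex.I * (M.u j * conj (M.u j)) by ring,
    M.u_mul_conj, mul_one, Complex.mul_I_im, Complex.ofReal_re] at h
  linarith

lemma dist_refl_self (j : Fin 3) (z : ℂ) : ‖M.refl j z - z‖ = 2 * |M.ell j z| := by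
  rw [Table.refl, sub_sub_cancel_left, norm_neg, norm_mul, norm_mul, Complex.norm_I, norm_u,
    Complex.norm_real, Real.norm_eq_abs, abs_mul, abs_two, one_mul, mul_one]

lemma refl_sub (j : Fin 3) (a b : ℂ) : M.refl j a - M.refl j b = M.rlin j (a - b) := by
  rw [M.refl_eq, M.refl_eq, Table.rlin, map_sub]
  ring

lemma dist_refl (j : Fin 3) (a b : ℂ) : dist (M.refl j a) (M.refl j b) = dist a b := by
  rw [dist_eq_norm, dist_eq_norm, refl_sub, Table.rlin]
  simp [norm_u, -map_sub]

lemma refl_fix {j : Fin 3} {v : ℂ} (h : M.ell j v = 0) : M.refl j v = v := by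
  simp [Table.refl, h]

lemma vec_reflDir (j : Fin 3) (θ : Dir) : vec (M.reflDir j θ) = M.rlin j (vec θ) := by
  simp only [vec, Table.reflDir, Table.rlin, sub_eq_add_neg, AddCircle.toCircle_add,
    AddCircle.toCircle_neg, Circle.coe_mul, Circle.coe_inv_eq_conj, AddCircle.toCircle_apply_mk,
    Circle.coe_exp, Table.u, ← Complex.exp_add]
  congr 2
  have : Real.pi ≠ 0 := Real.pi_ne_zero
  push_cast
  field_simp
  ring

lemma rp_shift (j : Fin 3) (t : ℝ) (p : Phase) : M.rp j (shift t p) = shift t (M.rp j p) := by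
  refine Prod.ext ?_ rfl
  show M.refl j (p.1 + (t : ℂ) * vec p.2) = M.refl j p.1 + (t : ℂ) * vec (M.reflDir j p.2)
  rw [eq_comm, ← eq_sub_iff_add_eq', refl_sub, vec_reflDir, Table.rlin, Table.rlin,
    add_sub_cancel_left, map_mul, Complex.conj_ofReal]
  ring

lemma exists_meet {i j : Fin 3} (hij : i ≠ j) (w : ℂ) :
    ∃ v, M.ell i v = 0 ∧ M.ell j v = 0 ∧
      dist w v ≤ (|M.ell i w| + |M.ell j w|) / |Real.sin (M.β i - M.β j)| := by
  set s := Real.sin (M.β i - M.β j) with hs
  have hs0 : s ≠ 0 := M.sin_ne i j hij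
  have hs' : Real.sin (M.β j - M.β i) = -s := by rw [hs, ← Real.sin_neg, neg_sub]
  set d : ℂ := ((-(M.ell i w) / s : ℝ) : ℂ) * M.u j + ((M.ell j w / s : ℝ) : ℂ) * M.u i with hd
  have e : ∀ k, M.ell k (w - d) = M.ell k w
      - ((-(M.ell i w) / s) * Real.sin (M.β j - M.β k)
        + (M.ell j w / s) * Real.sin (M.β i - M.β k)) := by
    intro k
    have := ell_sub (M := M) k w (w - d)
    rw [sub_sub_cancel, hd, mul_add, Complex.add_im,
      show ∀ (r : ℝ) (x : ℂ), conj (M.u k) * ((r : ℂ) * x) = (r : ℂ) * (conj (M.u k) * x) from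
        fun r x => by ring,
      show ∀ (r : ℝ) (x : ℂ), conj (M.u k) * ((r : ℂ) * x) = (r : ℂ) * (conj (M.u k) * x) from
        fun r x => by ring,
      Complex.im_ofReal_mul, Complex.im_ofReal_mul, im_conj_u, im_conj_u] at this
    rw [← hd] at this
    linarith
  refine ⟨w - d, ?_, ?_, ?_⟩
  · rw [e, sub_self, Real.sin_zero, hs']
    field_simp
    ring
  · rw [e, sub_self, Real.sin_zero, ← hs]
    field_simp
    ring
  · rw [dist_eq_norm, sub_sub_cancel, add_div]
    refine (norm_add_le _ _).trans (le_of_eq ?_)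
    simp [norm_u]

lemma ell_nonneg {z : ℂ} (hz : z ∈ closure M.dom) (k : Fin 3) : 0 ≤ M.ell k z :=
  closure_minimal (fun x hx => (hx k).le) (isClosed_le continuous_const (M.continuous_ellFun k)) hz

/-- The three lines are never simultaneously close to a point of the table. -/
lemma exists_gap (M : Table) : ∃ δ > 0, ∀ z ∈ closure M.dom, ∃ k, δ < M.ell k z := by
  have hne : ∀ z ∈ closure M.dom, ∃ k, 0 < M.ell k z := by
    by_contra hc
    push Not at hc
    obtain ⟨v, hv, hv0⟩ := hc
    have h0 : ∀ k, M.ell k v = 0 := fun k => le_antisymm (hv0 k) (ell_nonneg hv k)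
    obtain ⟨p, hp⟩ : M.dom.Nonempty := M.nonempty
    obtain ⟨R, hR, hRb⟩ := (show Bornology.IsBounded M.dom from M.bounded).exists_pos_norm_le
    have hpv : 0 < ‖p - v‖ := by
      rw [norm_pos_iff, sub_ne_zero]
      rintro rfl
      exact absurd (hp 0) (by rw [h0 0]; exact lt_irrefl _)
    set s : ℝ := (R + ‖v‖ + 1) / ‖p - v‖ with hs
    have hspos : 0 < s := by positivity
    have hin : v + (s : ℂ) * (p - v) ∈ M.dom := by
      intro k
      have := ell_sub (M := M) k (v + (s : ℂ) * (p - v)) v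
      rw [add_sub_cancel_left, ← mul_assoc, mul_comm _ (s : ℂ), mul_assoc, Complex.im_ofReal_mul,
        ← ell_sub, h0 k, sub_zero, sub_zero] at this
      rw [this]
      exact mul_pos hspos (hp k)
    have h1 := hRb _ hin
    have h2 : ‖(s : ℂ) * (p - v)‖ = R + ‖v‖ + 1 := by
      rw [norm_mul, Complex.norm_real, Real.norm_of_nonneg hspos.le, hs, div_mul_cancel₀ _ hpv.ne']
    have h3 := norm_sub_le (v + (s : ℂ) * (p - v)) v
    rw [add_sub_cancel_left, h2] at h3
    linarith
  have hcpt : IsCompact (closure M.dom) :=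
    (show Bornology.IsBounded M.dom from M.bounded).isCompact_closure
  obtain ⟨z0, hz0, hmin⟩ := hcpt.exists_isMinOn
    (M.nonempty.mono subset_closure : (closure M.dom).Nonempty)
    (f := fun z => max (M.ell 0 z) (max (M.ell 1 z) (M.ell 2 z)))
    (((M.continuous_ellFun 0).max ((M.continuous_ellFun 1).max (M.continuous_ellFun 2))).continuousOn)
  set m := max (M.ell 0 z0) (max (M.ell 1 z0) (M.ell 2 z0)) with hm
  have hm0 : 0 < m := by
    obtain ⟨k, hk⟩ := hne z0 hz0
    refine hk.trans_le ?_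
    fin_cases k <;> simp [hm]
  refine ⟨m / 2, half_pos hm0, fun z hz => ?_⟩
  have hle : m ≤ max (M.ell 0 z) (max (M.ell 1 z) (M.ell 2 z)) := hmin hz
  rcases le_max_iff.1 hle with h | h
  · exact ⟨0, by linarith⟩
  · rcases le_max_iff.1 h with h | h
    · exact ⟨1, by linarith⟩
    · exact ⟨2, by linarith⟩

/-- Near a vertex every term of the extension vanishes. -/
lemma ext_eq_zero {h : Phase → ℝ} {r : ℝ} {i i' : Fin 3} (hii : i ≠ i') {x v : ℂ}
    (hi : M.ell i v = 0) (hi' : M.ell i' v = 0) (hd : dist x v < r)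
    (h3 : ∀ k, k ≠ i → k ≠ i' → 0 < M.ell k x) (hz : ∀ q : Phase, M.Near r q.1 → h q = 0)
    (θ : Dir) : M.ext h (x, θ) = 0 := by
  unfold Table.ext
  have h1 : (M.dom ×ˢ univ).indicator h (x, θ) = 0 :=
    indicator_apply_eq_zero.2 fun _ => hz _ ⟨i, i', hii, v, hi, hi', hd⟩
  rw [h1, zero_add]
  refine Finset.sum_eq_zero fun j _ => indicator_apply_eq_zero.2 fun hj => hz _ ?_
  have hdom : M.refl j x ∈ M.dom := hj.1
  by_cases hji : j = i
  · subst hji
    refine ⟨j, i', hii, v, hi, hi', ?_⟩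
    show dist (M.refl j x) v < r
    calc dist (M.refl j x) v = dist (M.refl j x) (M.refl j v) := by rw [refl_fix hi]
      _ < r := by rwa [dist_refl]
  · by_cases hji' : j = i'
    · subst hji'
      refine ⟨i, j, hii, v, hi, hi', ?_⟩
      show dist (M.refl j x) v < r
      calc dist (M.refl j x) v = dist (M.refl j x) (M.refl j v) := by rw [refl_fix hi']
        _ < r := by rwa [dist_refl]
    · have := hdom j
      rw [ell_refl] at this
      linarith [h3 j hji hji']

/-- Beyond line `j` and away from the others only the reflected term survives. -/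
lemma ext_of_neg {j : Fin 3} {x : ℂ} (hj : M.ell j x < 0)
    (ho : ∀ i, i ≠ j → -(2 * M.ell j x) < M.ell i x) (h : Phase → ℝ) (θ : Dir) :
    M.refl j x ∈ M.dom ∧ M.ext h (x, θ) = h (M.rp j (x, θ)) := by
  have hdom : M.refl j x ∈ M.dom := by
    intro i
    by_cases hij : i = j
    · subst hij; rw [ell_refl]; linarith
    · have h1 := (abs_le.1 (ell_lip (M := M) i (M.refl j x) x)).1
      rw [dist_refl_self, abs_of_neg hj] at h1
      linarith [ho i hij]
  refine ⟨hdom, ?_⟩
  have h0 : (x, θ) ∉ M.dom ×ˢ (univ : Set Dir) := fun hx => by linarith [hx.1 j]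
  rw [Table.ext, indicator_of_notMem h0, zero_add, Finset.sum_eq_single j]
  · exact indicator_of_mem (show M.rp j (x, θ) ∈ M.dom ×ˢ (univ : Set Dir) from ⟨hdom, mem_univ _⟩) _
  · intro i _ hij
    refine indicator_of_notMem (fun hx => ?_) _
    have := hx.1 i
    rw [show (M.rp i (x, θ)).1 = M.refl i x from rfl, ell_refl] at this
    linarith [ho i hij]
  · simp

/-- Inside the table only the first term survives. -/
lemma ext_of_pos {x : ℂ} (hx : x ∈ M.dom) (h : Phase → ℝ) (θ : Dir) :
    M.ext h (x, θ) = h (x, θ) := by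
  rw [Table.ext, indicator_of_mem (show (x, θ) ∈ M.dom ×ˢ (univ : Set Dir) from ⟨hx, mem_univ _⟩),
    Finset.sum_eq_zero, add_zero]
  intro i _
  refine indicator_of_notMem (fun h' => ?_) _
  have := h'.1 i
  rw [show (M.rp i (x, θ)).1 = M.refl i x from rfl, ell_refl] at this
  linarith [hx i]

/-- The step property which is assumed almost everywhere. -/
def StepProp (M : Table) {R L : ℝ} (X : Cut M R L) (lam : ℝ) (F : Fin 2 → Phase → ℝ) (t : ℝ)
    (p : Phase) : Prop :=
  ∀ q, M.Step t p q → (fun i => F i q) = rot (lam * t) (fun i => F i p) ∧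
    |X.W q - X.W p| ≤ L * |t| ∧ (X.W q ≠ X.W p → p ∈ X.A)

lemma abs_rot_le {x : Fin 2 → ℝ} {B : ℝ} (a : ℝ) (hx : ∀ i, |x i| ≤ B) (i : Fin 2) :
    |rot a x i| ≤ 2 * B := by
  have hc := Real.abs_cos_le_one a
  have hs := Real.abs_sin_le_one a
  have hB : 0 ≤ B := (abs_nonneg _).trans (hx 0)
  have e1 : ∀ c y : ℝ, |c| ≤ 1 → |y| ≤ B → |c * y| ≤ B := fun c y h1 h2 => by
    rw [abs_mul]; nlinarith [abs_nonneg c, abs_nonneg y]
  fin_cases i
  · simp [rot]
    linarith [abs_sub (Real.cos a * x 0) (Real.sin a * x 1), e1 _ _ hc (hx 0), e1 _ _ hs (hx 1)]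
  · simp [rot]
    linarith [abs_add_le (Real.sin a * x 0) (Real.cos a * x 1), e1 _ _ hs (hx 0), e1 _ _ hc (hx 1)]

lemma pair_step {R L lam B t : ℝ} (X : Cut M R L) {F : Fin 2 → Phase → ℝ}
    (hB : ∀ i p, |F i p| ≤ B) {p q : Phase}
    (hP : StepProp M X lam F t p) (hq : M.Step t p q) (i : Fin 2) :
    |cutPair X F i q - rot (lam * t) (fun i => cutPair X F i p) i| ≤
      2 * B * L * |t| * |X.A.indicator 1 p| := by
  obtain ⟨hF, hW, hA⟩ := hP q hq
  have hlin : rot (lam * t) (fun i => cutPair X F i p) i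
      = rot (lam * t) (fun i => F i p) i * (1 - X.W p) := by
    fin_cases i <;> simp [rot, cutPair] <;> ring
  rw [hlin, cutPair, congrFun hF i, ← mul_sub, sub_sub_sub_cancel_left, abs_mul,
    abs_sub_comm (X.W p)]
  rcases eq_or_ne (X.W q) (X.W p) with h | h
  · rw [h, sub_self, abs_zero, mul_zero]
    have hB0 : 0 ≤ B := (abs_nonneg _).trans (hB 0 p)
    have : 0 ≤ L * |t| := (abs_nonneg _).trans hW
    calc (0:ℝ) ≤ 2 * B * (L * |t|) * |X.A.indicator 1 p| := by positivity
      _ = _ := by ring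
  · rw [indicator_of_mem (hA h), Pi.one_apply, abs_one, mul_one, mul_assoc (2 * B)]
    exact mul_le_mul (abs_rot_le _ (fun k => hB k p) i) hW (abs_nonneg _)
      (by linarith [(abs_nonneg _).trans (hB 0 p)])

/-- The pointwise estimate for a short translation of the extension. -/
lemma ext_step {R L lam B t ε s0 δ : ℝ} (X : Cut M R L) {F : Fin 2 → Phase → ℝ}
    (hB : ∀ i p, |F i p| ≤ B) (hL : 0 ≤ L) (hs0 : 0 < s0)
    (hsin : ∀ i j, i ≠ j → s0 ≤ |Real.sin (M.β i - M.β j)|)
    (hgap : ∀ z ∈ closure M.dom, ∃ k, δ < M.ell k z) (hεδ : 9 * ε ≤ δ)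
    (hKR : (16 / s0 + 1) * ε ≤ R) (hε : 0 < ε) (ht : |t| ≤ ε) {x : Phase}
    (hx : ∃ z ∈ closure M.dom, ‖z - x.1‖ < ε)
    (hne : ∀ j, M.ell j x.1 ≠ 0 ∧ M.ell j (shift t x).1 ≠ 0)
    (hP : x.1 ∈ M.dom → StepProp M X lam F t x)
    (hPr : ∀ j, (M.rp j x).1 ∈ M.dom → StepProp M X lam F t (M.rp j x)) (i : Fin 2) :
    |M.ext (cutPair X F i) (shift t x) - rot (lam * t) (fun i => M.ext (cutPair X F i) x) i| ≤
      2 * B * L * |t| * |M.ext (X.A.indicator 1) x| := by
  obtain ⟨z, hz, hzx⟩ := hx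
  obtain ⟨w, θ⟩ := x
  set w' := (shift t (w, θ)).1 with hw'
  have hmove : ‖w' - w‖ ≤ ε := by
    simp only [hw', shift, add_sub_cancel_left, norm_mul, norm_vec, Complex.norm_real,
      Real.norm_eq_abs, mul_one]
    exact ht
  have hlo : ∀ k, -ε < M.ell k w := fun k => by
    have h1 := (abs_le.1 (ell_lip (M := M) k w z)).1
    rw [norm_sub_rev] at h1
    linarith [ell_nonneg hz k]
  have hmv : ∀ k, |M.ell k w' - M.ell k w| ≤ ε := fun k => (ell_lip k w' w).trans hmove
  by_cases htwo : ∃ a b, a ≠ b ∧ M.ell a w ≤ 7 * ε ∧ M.ell b w ≤ 7 * ε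
  · -- near a vertex
    obtain ⟨a, b, hab, ha, hb⟩ := htwo
    have hthird : ∀ k, k ≠ a → k ≠ b → 7 * ε < M.ell k w := by
      obtain ⟨k0, hk0⟩ := hgap z hz
      have hk : ∀ k, M.ell k w ≤ 7 * ε → k ≠ k0 := by
        rintro k hk rfl
        linarith [(abs_le.1 (ell_lip (M := M) k w z)).1, norm_sub_rev w z]
      have h3 : ∀ a b k k0 : Fin 3, a ≠ b → a ≠ k0 → b ≠ k0 → k ≠ a → k ≠ b → k = k0 := by
        intro a b k k0; omega
      intro k hka hkb
      rw [h3 a b k k0 hab (hk a ha) (hk b hb) hka hkb]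
      linarith [(abs_le.1 (ell_lip (M := M) k0 w z)).1, norm_sub_rev w z]
    have hzero : ∀ y : ℂ, ‖y - w‖ ≤ ε → ∀ φ k, M.ext (cutPair X F k) (y, φ) = 0 := by
      intro y hy φ k
      have hay : ∀ c, M.ell c w ≤ 7 * ε → |M.ell c y| ≤ 8 * ε := fun c hc => by
        have := abs_le.1 ((ell_lip (M := M) c y w).trans hy)
        rw [abs_le]; constructor <;> linarith [hlo c]
      obtain ⟨v, hva, hvb, hd⟩ := exists_meet (M := M) hab y
      refine ext_eq_zero (r := R) hab hva hvb ?_ ?_ ?_ φ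
      · refine hd.trans_lt (lt_of_lt_of_le ?_ hKR)
        calc (|M.ell a y| + |M.ell b y|) / |Real.sin (M.β a - M.β b)|
            ≤ (16 * ε) / s0 := by
              gcongr
              · linarith [hay a ha, hay b hb]
              · exact hsin a b hab
          _ < (16 / s0 + 1) * ε := by rw [add_mul, one_mul, div_mul_eq_mul_div]; linarith
      · intro c hca hcb
        linarith [hthird c hca hcb, (abs_le.1 ((ell_lip (M := M) c y w).trans hy)).1]
      · intro q hq
        simp [cutPair, X.near q hq]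
    have e1 : ∀ k, M.ext (cutPair X F k) (shift t (w, θ)) = 0 := fun k => hzero w' hmove θ k
    have e2 : ∀ k, M.ext (cutPair X F k) (w, θ) = 0 := fun k =>
      hzero w (by simpa using hε.le) θ k
    have hB0 : 0 ≤ B := (abs_nonneg _).trans (hB 0 (w, θ))
    rw [e1, show rot (lam * t) (fun k => M.ext (cutPair X F k) (w, θ)) i = 0 by
      simp only [e2]; fin_cases i <;> simp [rot], sub_zero, abs_zero]
    positivity
  · -- at most one nearby side
    push Not at htwo
    obtain ⟨j, hj⟩ : ∃ j, ∀ k, k ≠ j → 7 * ε < M.ell k w := by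
      by_cases h1 : ∃ a, M.ell a w ≤ 7 * ε
      · obtain ⟨a, ha⟩ := h1
        exact ⟨a, fun k hk => htwo a k (Ne.symm hk) ha⟩
      · push Not at h1
        exact ⟨0, fun k _ => h1 k⟩
    have hjw' := abs_le.1 (hmv j)
    have ho : ∀ k, k ≠ j → 6 * ε < M.ell k w' := fun k hk => by
      linarith [hj k hk, (abs_le.1 (hmv k)).1]
    have hlo' := hlo j
    have hw'eq : shift t (w, θ) = (w', θ) := rfl
    rcases lt_or_gt_of_ne (hne j).1 with hs | hs
    · -- starting beyond the side
      obtain ⟨hd, -⟩ := ext_of_neg hs (fun k hk => by linarith [hj k hk])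
        (fun _ => (0:ℝ)) θ
      have hew : ∀ g : Phase → ℝ, M.ext g (w, θ) = g (M.rp j (w, θ)) := fun g =>
        (ext_of_neg hs (fun k hk => by linarith [hj k hk]) g θ).2
      rw [hew]; simp only [hew]
      rcases lt_or_gt_of_ne (hne j).2 with hs' | hs'
      · obtain ⟨hd', -⟩ := ext_of_neg hs' (fun k hk => by linarith [ho k hk]) (fun _ => (0:ℝ)) θ
        rw [hw'eq, (ext_of_neg hs' (fun k hk => by linarith [ho k hk]) _ θ).2, ← hw'eq]
        refine pair_step X hB (hPr j hd) (Or.inl ⟨⟨hd, ?_⟩, rp_shift j t _⟩) i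
        rw [← rp_shift]
        exact hd'
      · have hin : w' ∈ M.dom := fun k => by
          by_cases hk : k = j
          · subst hk; exact hs'
          · linarith [ho k hk]
        rw [hw'eq, ext_of_pos hin, ← hw'eq]
        refine pair_step X hB (hPr j hd) (Or.inr ⟨j, ⟨hd, ?_, ?_, ?_⟩, ?_⟩) i
        · rw [← rp_shift]
          show M.ell j (M.refl j w') < 0
          rw [ell_refl]; linarith [hs']
        · intro k hk
          rw [← rp_shift]
          show 0 < M.ell k (M.refl j w')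
          have h1 := (abs_le.1 (ell_lip (M := M) k (M.refl j w') w')).1
          rw [dist_refl_self, abs_of_pos hs'] at h1
          linarith [ho k hk]
        · rw [← rp_shift, M.rp_rp]; exact hin
        · rw [← rp_shift, M.rp_rp]
    · -- starting inside
      have hin : w ∈ M.dom := fun k => by
        by_cases hk : k = j
        · subst hk; exact hs
        · linarith [hj k hk]
      simp only [ext_of_pos hin]
      rcases lt_or_gt_of_ne (hne j).2 with hs' | hs'
      · obtain ⟨hd', -⟩ := ext_of_neg hs' (fun k hk => by linarith [ho k hk]) (fun _ => (0:ℝ)) θ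
        rw [hw'eq, (ext_of_neg hs' (fun k hk => by linarith [ho k hk]) _ θ).2, ← hw'eq]
        exact pair_step X hB (hP hin)
          (Or.inr ⟨j, ⟨hin, hs', fun k hk => show 0 < M.ell k w' by linarith [ho k hk], hd'⟩, rfl⟩) i
      · have hin' : w' ∈ M.dom := fun k => by
          by_cases hk : k = j
          · subst hk; exact hs'
          · linarith [ho k hk]
        rw [hw'eq, ext_of_pos hin', ← hw'eq]
        exact pair_step X hB (hP hin) (Or.inl ⟨⟨hin, hin'⟩, rfl⟩) i

lemma line_null (j : Fin 3) : phaseVol {p : Phase | M.ell j p.1 = 0} = 0 := by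
  have h0 : volume {z : ℂ | M.ell j z = 0} = 0 := by
    let Lm : ℂ →ₗ[ℝ] ℝ :=
      { toFun := fun z => (conj (M.u j) * z).im
        map_add' := fun a b => by simp [mul_add]
        map_smul' := fun r a => by simp; ring }
    set z0 : ℂ := ((-M.b j : ℝ) : ℂ) * (Complex.I * M.u j)
    have hset : {z : ℂ | M.ell j z = 0} = (fun z => z - z0) ⁻¹' (Lm.ker : Set ℂ) := by
      ext z
      have : M.ell j z0 = 0 := by
        rw [Table.ell, show conj (M.u j) * z0 =
          ((-M.b j : ℝ) : ℂ) * Complex.I * (M.u j * conj (M.u j)) by ring,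
          M.u_mul_conj, mul_one, Complex.mul_I_im, Complex.ofReal_re]
        ring
      have h2 := ell_sub (M := M) j z z0
      simp only [mem_ofPred_eq, mem_preimage, SetLike.mem_coe, LinearMap.mem_ker]
      show _ ↔ (conj (M.u j) * (z - z0)).im = 0
      rw [← h2, this, sub_zero]
    rw [hset]
    rw [(measurePreserving_sub_right volume z0).measure_preimage]
    · refine Measure.addHaar_submodule volume _ fun htop => ?_
      have : Complex.I * M.u j ∈ Lm.ker := by rw [htop]; trivial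
      rw [LinearMap.mem_ker] at this
      change (conj (M.u j) * (Complex.I * M.u j)).im = 0 at this
      rw [show conj (M.u j) * (Complex.I * M.u j) = Complex.I * (M.u j * conj (M.u j)) by ring,
        M.u_mul_conj] at this
      simp at this
    · exact (Submodule.closed_of_finiteDimensional _).measurableSet.nullMeasurableSet
  rw [show {p : Phase | M.ell j p.1 = 0} = {z : ℂ | M.ell j z = 0} ×ˢ univ by ext p; simp,
    phaseVol, Measure.prod_prod, h0, zero_mul]

/-- For a fixed short time the hypotheses of `ext_step` hold almost everywhere. -/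
lemma good_ae {R L lam t : ℝ} (X : Cut M R L) {F : Fin 2 → Phase → ℝ}
    (hF : EigenPair M lam F) (ht : |t| ≤ R) :
    ∀ᵐ x ∂phaseVol, (∀ j, M.ell j x.1 ≠ 0 ∧ M.ell j (shift t x).1 ≠ 0) ∧
      (x.1 ∈ M.dom → StepProp M X lam F t x) ∧
      ∀ j, (M.rp j x).1 ∈ M.dom → StepProp M X lam F t (M.rp j x) := by
  have h1 : ∀ᵐ p ∂phaseVol, p.1 ∈ M.dom → StepProp M X lam F t p := by
    have h := (hF.step t).and (X.lip t ht)
    rw [M.m0_eq, ae_restrict_iff' (M.measurableSet_domain.prod MeasurableSet.univ)] at h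
    filter_upwards [h] with p hp hdom q hq
    obtain ⟨a, b⟩ := hp ⟨hdom, mem_univ _⟩
    exact ⟨a q hq, (b q hq).1, (b q hq).2⟩
  have h2 : ∀ᵐ p ∂phaseVol, ∀ j, M.ell j p.1 ≠ 0 := ae_all_iff.2 fun j => by
    rw [ae_iff]; simpa using line_null j
  have h2' : ∀ᵐ p ∂phaseVol, ∀ j, M.ell j (shift t p).1 ≠ 0 :=
    (measurePreserving_shift t).quasiMeasurePreserving.ae h2
  have h3 : ∀ᵐ p ∂phaseVol, ∀ j, (M.rp j p).1 ∈ M.dom → StepProp M X lam F t (M.rp j p) :=
    ae_all_iff.2 fun j => (M.measurePreserving_rp j).quasiMeasurePreserving.ae h1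
  filter_upwards [h1, h2, h2', h3] with p a b b' c using ⟨fun j => ⟨b j, b' j⟩, a, c⟩

lemma abs_ext_le {h : Phase → ℝ} {B : ℝ} (hh : ∀ p, |h p| ≤ B) (p : Phase) :
    |M.ext h p| ≤ 4 * B := by
  have e : ∀ q, |(M.dom ×ˢ univ).indicator h q| ≤ B := fun q => by
    have := (norm_indicator_le_norm_self (s := M.dom ×ˢ univ) h q)
    simp only [Real.norm_eq_abs] at this
    exact this.trans (hh q)
  rw [Table.ext, Fin.sum_univ_three]
  have := e p; have := e (M.rp 0 p); have := e (M.rp 1 p); have := e (M.rp 2 p)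
  rw [abs_le] at *
  constructor <;> linarith

lemma measurable_ext {h : Phase → ℝ} (hh : Measurable h) : Measurable (M.ext h) := by
  have := hh.indicator (M.measurableSet_domain.prod (MeasurableSet.univ (α := Dir)))
  exact this.add (Finset.measurable_sum _ fun j _ => this.comp (M.continuous_rp j).measurable)

lemma integrable_ker {ψ : ℂ → ℂ} (hψ : Continuous ψ) (hc : HasCompactSupport ψ) (z : ℂ)
    {g : ℂ → ℝ} (hg : Measurable g) {B : ℝ} (hb : ∀ w, |g w| ≤ B) :
    Integrable fun w => ψ (z - w) * (g w : ℂ) := by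
  refine Integrable.mul_bdd (c := B) ?_
    (Complex.measurable_ofReal.comp hg).aestronglyMeasurable (ae_of_all _ fun w => by simpa using hb w)
  exact (hψ.integrable_of_hasCompactSupport hc).comp_sub_left z

/-- Difference quotients of a convolution along a direction. -/
lemma tendsto_quot {ψ : ℂ → ℂ} (hψ : NiceKer ψ) (z v : ℂ) (hv : ‖v‖ = 1) {g : ℂ → ℝ}
    (hg : Measurable g) {B : ℝ} (hb : ∀ w, |g w| ≤ B) {τ : ℕ → ℝ} (hτ : Tendsto τ atTop (𝓝[≠] 0)) :
    Tendsto (fun n => ((τ n)⁻¹ : ℝ) • ((∫ w, ψ (z - w) * (g (w + (τ n : ℂ) * v) : ℂ)) -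
      ∫ w, ψ (z - w) * (g w : ℂ))) atTop
      (𝓝 (∫ w, fderiv ℝ ψ (z - w) v * (g w : ℂ))) := by
  obtain ⟨hsm, hc⟩ := hψ
  have hcont : Continuous ψ := hsm.continuous
  have hdiff : Differentiable ℝ ψ := hsm.differentiable (by simp)
  obtain ⟨D, hD⟩ := (hsm.continuous_fderiv (by simp)).bounded_above_of_compact_support
    (hc.fderiv ℝ)
  have hlip : ∀ a b, ‖ψ a - ψ b‖ ≤ D * ‖a - b‖ := fun a b =>
    Convex.norm_image_sub_le_of_norm_fderiv_le (fun x _ => hdiff x) (fun x _ => hD x)
      convex_univ (mem_univ b) (mem_univ a)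
  obtain ⟨R0, hR0, hsupp⟩ := hc.exists_pos_le_norm
  have hsh : ∀ n, (∫ w, ψ (z - w) * (g (w + (τ n : ℂ) * v) : ℂ)) =
      ∫ w, ψ (z + (τ n : ℂ) * v - w) * (g w : ℂ) := fun n => by
    rw [← integral_add_right_eq_self (fun w => ψ (z + (τ n : ℂ) * v - w) * (g w : ℂ))
      ((τ n : ℂ) * v)]
    congr 1; funext w; ring_nf
  have hτ0 : ∀ᶠ n in atTop, |τ n| ≤ 1 ∧ τ n ≠ 0 := by
    have h := tendsto_nhdsWithin_iff.1 hτ
    refine ((h.1.abs).eventually (eventually_le_nhds (by simp))).and (h.2.mono fun n hn => hn)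
  have heq : ∀ n, ((τ n)⁻¹ : ℝ) • ((∫ w, ψ (z - w) * (g (w + (τ n : ℂ) * v) : ℂ)) -
      ∫ w, ψ (z - w) * (g w : ℂ)) =
      ∫ w, ((τ n)⁻¹ : ℝ) • (ψ (z - w + (τ n : ℂ) * v) - ψ (z - w)) * (g w : ℂ) := fun n => by
    rw [hsh, ← integral_sub (integrable_ker hcont hc _ hg hb) (integrable_ker hcont hc _ hg hb),
      ← integral_smul]
    congr 1; funext w
    rw [show z + (τ n : ℂ) * v - w = z - w + (τ n : ℂ) * v by ring, Complex.real_smul,
      Complex.real_smul]
    ring
  simp only [heq]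
  refine tendsto_integral_filter_of_dominated_convergence
    (bound := (Metric.closedBall z (R0 + 1)).indicator fun _ => D * B) ?_ ?_ ?_ ?_
  · refine Eventually.of_forall fun n => ?_
    refine (Measurable.mul (Continuous.measurable ?_) (Complex.measurable_ofReal.comp hg)).aestronglyMeasurable
    fun_prop
  · filter_upwards [hτ0] with n hn
    refine ae_of_all _ fun w => ?_
    by_cases hw : w ∈ Metric.closedBall z (R0 + 1)
    · rw [indicator_of_mem hw, norm_mul, norm_smul, Complex.norm_real, Real.norm_eq_abs,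
        Real.norm_eq_abs]
      refine mul_le_mul ?_ (hb w) (abs_nonneg _) ((norm_nonneg _).trans (hD 0))
      rw [abs_inv, inv_mul_le_iff₀ (abs_pos.2 hn.2)]
      refine (hlip _ _).trans (le_of_eq ?_)
      rw [add_sub_cancel_left, norm_mul, hv, Complex.norm_real, Real.norm_eq_abs]
      ring
    · rw [indicator_of_notMem hw]
      rw [Metric.mem_closedBall, dist_comm, dist_eq_norm, not_le] at hw
      have h1 : R0 ≤ ‖z - w + (τ n : ℂ) * v‖ := by
        have := norm_sub_le (z - w + (τ n : ℂ) * v) ((τ n : ℂ) * v)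
        rw [add_sub_cancel_right, norm_mul ((τ n : ℂ)) v, hv, Complex.norm_real,
          Real.norm_eq_abs] at this
        linarith [hn.1]
      rw [hsupp _ h1, hsupp _ (by linarith), sub_zero, smul_zero, zero_mul, norm_zero]
  · exact (integrable_indicator_iff measurableSet_closedBall).2
      (integrableOn_const measure_closedBall_lt_top.ne)
  · refine ae_of_all _ fun w => Tendsto.mul_const _ ?_
    have hd : HasDerivAt (fun t : ℝ => ψ (z - w + (t : ℂ) * v)) (fderiv ℝ ψ (z - w) v) 0 := by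
      have h1 : HasDerivAt (fun t : ℝ => z - w + (t : ℂ) * v) v 0 := by
        simpa using (((hasDerivAt_id (0:ℝ)).ofReal_comp).mul_const v).const_add (z - w)
      have := (hdiff (z - w + ((0:ℝ) : ℂ) * v)).hasFDerivAt.comp_hasDerivAt (0:ℝ) h1
      simpa [Function.comp_def] using this
    have := (hasDerivAt_iff_tendsto_slope.1 hd).comp hτ
    simpa [Function.comp_def, slope_def_module] using this

theorem stepBound_holds : StepBoundStmt := by
  intro M
  obtain ⟨δ, hδ, hgap⟩ := exists_gap M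
  obtain ⟨s0, hs0, hsin⟩ : ∃ s0 > 0, ∀ i j, i ≠ j → s0 ≤ |Real.sin (M.β i - M.β j)| := by
    refine ⟨Finset.univ.inf' Finset.univ_nonempty (fun ij : Fin 3 × Fin 3 =>
      if ij.1 = ij.2 then 1 else |Real.sin (M.β ij.1 - M.β ij.2)|), ?_, fun i j hij => ?_⟩
    · rw [gt_iff_lt, Finset.lt_inf'_iff]
      intro ij _
      split_ifs with h
      · exact one_pos
      · exact abs_pos.2 (M.sin_ne _ _ h)
    · exact (Finset.inf'_le _ (Finset.mem_univ (i, j))).trans (by simp [hij])
  refine ⟨16 / s0 + 1, δ / 9, le_add_of_nonneg_left (by positivity), by positivity,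
    fun ε hε hεδ lam F B hF hB R L X hKR hL ψ hψ hsupp => ?_⟩
  set τ : ℕ → ℝ := fun n => ε / (n + 1) with hτdef
  have hτ0 : ∀ n, 0 < τ n := fun n => by positivity
  have hτle : ∀ n, τ n ≤ ε := fun n => div_le_self hε.le (by simp)
  have hεR : ε ≤ R := by
    have : 0 ≤ 16 / s0 * ε := by positivity
    linarith
  have hgood : ∀ᵐ x ∂phaseVol, ∀ n,
      (∀ j, M.ell j x.1 ≠ 0 ∧ M.ell j (shift (τ n) x).1 ≠ 0) ∧
      (x.1 ∈ M.dom → StepProp M X lam F (τ n) x) ∧
      ∀ j, (M.rp j x).1 ∈ M.dom → StepProp M X lam F (τ n) (M.rp j x) :=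
    ae_all_iff.2 fun n => good_ae X hF (by rw [abs_of_pos (hτ0 n)]; linarith [hτle n])
  have hθ := Measure.ae_ae_of_ae_prod
    ((Measure.measurePreserving_swap (μ := unifDir) (ν := (volume : Measure ℂ))
      ).quasiMeasurePreserving.ae hgood)
  filter_upwards [hθ] with θ hθ z hz i
  set v := vec θ with hv
  have hB0 : 0 ≤ B := (abs_nonneg _).trans (hB 0 (0, θ))
  set G : Fin 2 → ℂ → ℝ := fun k w => M.ext (cutPair X F k) (w, θ) with hG
  set E : ℂ → ℝ := fun w => M.ext (X.A.indicator 1) (w, θ) with hE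
  have hGm : ∀ k, Measurable (G k) := fun k =>
    (measurable_ext ((hF.meas k).mul (measurable_const.sub X.measW))).comp measurable_prodMk_right
  have hGb : ∀ k w, |G k w| ≤ 4 * B := fun k w => abs_ext_le (fun p => by
    rw [cutPair, abs_mul]
    have h1 := X.range p
    calc |F k p| * |1 - X.W p| ≤ B * 1 := mul_le_mul (hB k p)
          (by rw [abs_le]; constructor <;> linarith [h1.1, h1.2]) (abs_nonneg _) hB0
      _ = B := mul_one B) _
  have hEm : Measurable E :=
    (measurable_ext (measurable_one.indicator X.measA)).comp measurable_prodMk_right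
  have hEb : ∀ w, |E w| ≤ 4 * 1 := fun w => abs_ext_le (fun p => by
    by_cases h : p ∈ X.A <;> simp [h]) _
  set J : ℝ := ∫ w, ‖ψ (z - w)‖ * |E w| with hJ
  have hJi : Integrable fun w => ‖ψ (z - w)‖ * |E w| := by
    refine (integrable_ker hψ.1.continuous hψ.2 z hEm hEb).norm.congr (ae_of_all _ fun w => ?_)
    simp
  set S : Fin 2 → ℂ := fun k => ∫ w, ψ (z - w) * (G k w : ℂ) with hS
  -- the pointwise bound, integrated
  have hbd : ∀ n, ∀ k : Fin 2,
      ‖(∫ w, ψ (z - w) * (G k (w + (τ n : ℂ) * v) : ℂ)) -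
        ∫ w, ψ (z - w) * ((rot (lam * τ n) (fun l => G l w) k : ℝ) : ℂ)‖ ≤
        2 * B * L * τ n * J := by
    intro n k
    have hi1 : Integrable fun w => ψ (z - w) * (G k (w + (τ n : ℂ) * v) : ℂ) :=
      integrable_ker hψ.1.continuous hψ.2 z ((hGm k).comp (measurable_add_const _))
        (fun w => hGb k _)
    have hrm : Measurable fun w => rot (lam * τ n) (fun l => G l w) k := by
      fin_cases k <;> simp only [rot] <;>
        simp only [Matrix.cons_val_zero, Matrix.cons_val_one, Fin.zero_eta, Fin.mk_one] <;>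
        first
        | exact ((hGm 0).const_mul _).sub ((hGm 1).const_mul _)
        | exact ((hGm 0).const_mul _).add ((hGm 1).const_mul _)
    have hi2 : Integrable fun w => ψ (z - w) * ((rot (lam * τ n) (fun l => G l w) k : ℝ) : ℂ) :=
      integrable_ker hψ.1.continuous hψ.2 z hrm (B := 2 * (4 * B))
        (fun w => abs_rot_le _ (fun l => hGb l w) k)
    rw [← integral_sub hi1 hi2, hJ, ← integral_const_mul]
    refine norm_integral_le_of_norm_le (hJi.const_mul _) ?_
    filter_upwards [hθ] with w hw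
    rw [← mul_sub, norm_mul, ← Complex.ofReal_sub, Complex.norm_real, Real.norm_eq_abs]
    by_cases hzw : ‖z - w‖ < ε
    · obtain ⟨h1, h2, h3⟩ := hw n
      have := ext_step (x := (w, θ)) X hB hL hs0 hsin hgap (by linarith) hKR hε
        (by rw [abs_of_pos (hτ0 n)]; exact hτle n) ⟨z, hz, hzw⟩ h1 h2 h3 k
      rw [abs_of_pos (hτ0 n)] at this
      calc ‖ψ (z - w)‖ * |G k (w + (τ n : ℂ) * v) - rot (lam * τ n) (fun l => G l w) k|
          ≤ ‖ψ (z - w)‖ * (2 * B * L * τ n * |E w|) :=
            mul_le_mul_of_nonneg_left this (norm_nonneg _)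
        _ = _ := by ring
    · simp [hsupp _ (not_lt.1 hzw)]
  have hrot : ∀ n, ∀ k : Fin 2,
      (∫ w, ψ (z - w) * ((rot (lam * τ n) (fun l => G l w) k : ℝ) : ℂ)) =
        (Real.cos (lam * τ n) : ℂ) * S k +
          ((![-Real.sin (lam * τ n), Real.sin (lam * τ n)] k : ℝ) : ℂ) * S (1 - k) := by
    intro n k
    rw [hS]
    simp only [← integral_const_mul]
    rw [← integral_add ((integrable_ker hψ.1.continuous hψ.2 z (hGm k) (hGb k)).const_mul _)
      ((integrable_ker hψ.1.continuous hψ.2 z (hGm (1 - k)) (hGb (1 - k))).const_mul _)]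
    congr 1; funext w
    fin_cases k <;> simp [rot] <;> ring
  have hτt : Tendsto τ atTop (𝓝[≠] 0) := by
    refine tendsto_nhdsWithin_iff.2 ⟨?_, Eventually.of_forall fun n => (hτ0 n).ne'⟩
    simpa [hτdef, div_eq_mul_inv] using
      (tendsto_one_div_add_atTop_nhds_zero_nat (𝕜 := ℝ)).const_mul ε
  have hq := tendsto_quot hψ z v (norm_vec θ) (hGm i) (hGb i) hτt
  have hc : Tendsto (fun n => (τ n)⁻¹ * (Real.cos (lam * τ n) - 1)) atTop (𝓝 0) := by
    have h := ((hasDerivAt_id (0:ℝ)).const_mul lam).cos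
    have := (hasDerivAt_iff_tendsto_slope.1 h).comp hτt
    simpa [Function.comp_def, slope_def_field, div_eq_inv_mul] using this
  have hs : Tendsto (fun n => (τ n)⁻¹ * Real.sin (lam * τ n)) atTop (𝓝 lam) := by
    have h := ((hasDerivAt_id (0:ℝ)).const_mul lam).sin
    have := (hasDerivAt_iff_tendsto_slope.1 h).comp hτt
    simpa [Function.comp_def, slope_def_field, div_eq_inv_mul] using this
  set c : ℂ := ((![lam, -lam] i : ℝ) : ℂ) with hcdef
  have hlim : Tendsto (fun n => ((τ n)⁻¹ : ℝ) •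
      ((∫ w, ψ (z - w) * (G i (w + (τ n : ℂ) * v) : ℂ)) -
        ∫ w, ψ (z - w) * ((rot (lam * τ n) (fun l => G l w) i : ℝ) : ℂ))) atTop
      (𝓝 ((∫ w, fderiv ℝ ψ (z - w) v * (G i w : ℂ)) + c * S (1 - i))) := by
    have h1 : Tendsto (fun n => (((τ n)⁻¹ * (1 - Real.cos (lam * τ n)) : ℝ) : ℂ) * S i) atTop
        (𝓝 0) := by
      have := (((Complex.continuous_ofReal.tendsto _).comp hc).mul_const (S i)).neg
      simpa [Function.comp_def, mul_sub, sub_mul] using this
    have h2 : Tendsto (fun n => (((τ n)⁻¹ *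
        (![Real.sin (lam * τ n), -Real.sin (lam * τ n)] i) : ℝ) : ℂ) * S (1 - i)) atTop
        (𝓝 (c * S (1 - i))) := by
      refine ((Complex.continuous_ofReal.tendsto _).comp ?_).mul_const _
      fin_cases i
      · simpa using hs
      · simpa [mul_neg] using hs.neg
    have := (hq.add h1).add h2
    rw [add_zero] at this
    refine this.congr fun n => ?_
    rw [hrot, show S i = ∫ w, ψ (z - w) * (G i w : ℂ) from rfl, Complex.real_smul,
      Complex.real_smul]
    fin_cases i <;> simp <;> ring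
  have hfinal := le_of_tendsto hlim.norm (Eventually.of_forall fun n => by
    rw [norm_smul, Real.norm_eq_abs, abs_inv, abs_of_pos (hτ0 n), inv_mul_le_iff₀ (hτ0 n)]
    calc _ ≤ 2 * B * L * τ n * J := hbd n i
      _ = τ n * (2 * B * L * J) := by ring)
  refine hfinal.trans (mul_le_mul_of_nonneg_right ?_ (integral_nonneg fun w =>
    mul_nonneg (norm_nonneg _) (abs_nonneg _)))
  nlinarith [mul_nonneg hB0 hL]

end Vale.Agent.P099.StepBound

namespace Vale.Agent.P099

theorem stepBound_holds : StepBoundStmt := StepBound.stepBound_holds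

end Vale.Agent.P099
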