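import Vale.Agent.P099.Assembly
import Vale.Agent.P099.Avg
import Vale.Agent.P099.Bridge
import Vale.Agent.P099.Conclude
import Vale.Agent.P099.Const
import Vale.Agent.P099.Cutoff
import Vale.Agent.P099.Energy
import Vale.Agent.P099.Family
import Vale.Agent.P099.Flow.Main
import Vale.Agent.P099.Ibp
import Vale.Agent.P099.Kernel
import Vale.Agent.P099.ModeBound
import Vale.Agent.P099.Reflect
import Vale.Agent.P099.SpectralB
import Vale.Agent.P099.StepBound

/-!
# P099: ergodicity and weak mixing of billiards in irrational triangles
-/

noncomputable section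

namespace Vale.Agent.P099

open MeasureTheory

/-- The approximating family exists for every local eigenpair. -/
theorem familyStmt_final : FamilyStmt :=
  family_holds kernelStmt_holds kerRefStmt_holds smodeStmt_holds mode_bound_holds
    reflectStmt_holds stepBound_holds dbar_holds cutStmt_holds

/-- Every irrational triangle has an ergodic, weakly mixing billiard flow. -/
theorem irrational_triangle (T : Triangle) (hT : T.IsIrrational) :
    (∃ Φ, T.IsBilliardFlow Φ) ∧ ∀ Φ, T.IsBilliardFlow Φ →
      (∀ t, AEMeasurable (Φ t) T.μ ∧ T.μ.map (Φ t) = T.μ) ∧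
        IsErgodicFlow T.μ Φ ∧ IsWeaklyMixingFlow T.μ Φ :=
  main_of bridge_holds flowStmt_holds familyStmt_final (avg_holds ibp_holds)
    (eigenZero_holds (energy_holds ibp_holds dbar_holds))
    (invConst_holds (energy_holds ibp_holds dbar_holds) dbar_holds constStmt_holds)
    spectralB_holds T hT

end Vale.Agent.P099
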