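import Vale.Agent.P099.Spec
import Vale.Agent.P099.Flow.Geom

/-!
# P099: local structure of a table near a boundary point

Away from the intersection points of the lines, at most one line is close, and the reflected
extension is the even extension across that line.
-/

noncomputable section

namespace Vale.Agent.P099

open MeasureTheory Set Complex Metric
open scoped ComplexConjugate

namespace Table

variable (M : Table)

lemma norm_uDir (j : Fin 3) : ‖M.u j‖ = 1 := by simp [u, Complex.norm_exp]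

lemma ell_nonneg_of_mem_closure {z : ℂ} (hz : z ∈ closure M.dom) (j : Fin 3) :
    0 ≤ M.ell j z :=
  closure_minimal (t := {w | 0 ≤ M.ell j w}) (fun _ hw => (hw j).le)
    (isClosed_le continuous_const (M.continuous_ellFun j)) hz

lemma ell_sub_ell (j : Fin 3) (w z : ℂ) :
    M.ell j w - M.ell j z = (conj (M.u j) * (w - z)).im := by
  simp only [ell, mul_sub, Complex.sub_im]; ring

lemma abs_ell_sub_le (j : Fin 3) (w z : ℂ) : |M.ell j w - M.ell j z| ≤ dist w z := by
  rw [ell_sub_ell, dist_eq_norm]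
  refine (Complex.abs_im_le_norm _).trans ?_
  rw [norm_mul, Complex.norm_conj, norm_uDir, one_mul]

lemma refl_sub_refl (j : Fin 3) (w z : ℂ) : M.refl j w - M.refl j z = M.rlin j (w - z) := by
  simp only [refl_eq, rlin, map_sub]; ring

lemma dist_refl (j : Fin 3) (w z : ℂ) : dist (M.refl j w) (M.refl j z) = dist w z := by
  rw [dist_eq_norm, dist_eq_norm, refl_sub_refl, rlin_norm]

lemma dist_refl_self (j : Fin 3) (w : ℂ) : dist (M.refl j w) w = 2 * |M.ell j w| := by
  rw [dist_eq_norm, refl, sub_sub_cancel_left, norm_neg]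
  simp [norm_uDir]

lemma dist_refl_of_ell (j : Fin 3) {z : ℂ} (hz : M.ell j z = 0) (w : ℂ) :
    dist (M.refl j w) z = dist w z := by
  conv_lhs => rw [← M.refl_of_ell j z hz]
  exact M.dist_refl j w z

lemma refl_sub_of_ell (j : Fin 3) {z : ℂ} (hz : M.ell j z = 0) (y : ℂ) :
    M.refl j (z - y) = z - M.rlin j y := by
  have h := M.refl_sub_refl j (z - y) z
  rw [M.refl_of_ell j z hz] at h
  simp only [rlin, sub_sub_cancel_left, map_neg] at h ⊢
  linear_combination h

lemma im_conj_u_mul_u (i j : Fin 3) :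
    (conj (M.u i) * M.u j).im = Real.sin (M.β j - M.β i) := by
  simp only [u, Complex.mul_im, Complex.conj_re, Complex.conj_im,
    Complex.exp_ofReal_mul_I_re, Complex.exp_ofReal_mul_I_im, Real.sin_sub]
  ring

/-- A point close to two lines is close to their intersection point. -/
lemma near_of_ell_small {i j : Fin 3} (hij : i ≠ j) {R : ℝ} {z : ℂ}
    (h : |M.ell i z| + |M.ell j z| < R * |Real.sin (M.β i - M.β j)|) : M.Near R z := by
  set s := Real.sin (M.β i - M.β j) with hs
  have hs0 : s ≠ 0 := M.sin_ne i j hij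
  have hs' : Real.sin (M.β j - M.β i) = -s := by rw [hs, ← Real.sin_neg, neg_sub]
  have key : ∀ (k : Fin 3) (a b : ℝ),
      M.ell k (z + (a : ℂ) * M.u i + (b : ℂ) * M.u j) =
        M.ell k z + a * Real.sin (M.β i - M.β k) + b * Real.sin (M.β j - M.β k) := by
    intro k a b
    rw [← M.im_conj_u_mul_u k i, ← M.im_conj_u_mul_u k j]
    simp only [ell, mul_add, mul_left_comm (conj (M.u k)), Complex.add_im, Complex.im_ofReal_mul]
    ring
  refine ⟨i, j, hij,
    z + ((-(M.ell j z) / s : ℝ) : ℂ) * M.u i + ((M.ell i z / s : ℝ) : ℂ) * M.u j, ?_, ?_, ?_⟩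
  · rw [key, hs', sub_self, Real.sin_zero]; field_simp; ring
  · rw [key, ← hs, sub_self, Real.sin_zero]; field_simp; ring
  · rw [dist_comm, dist_eq_norm, add_assoc, add_sub_cancel_left]
    refine (norm_add_le _ _).trans_lt ?_
    rw [norm_mul, norm_mul, norm_uDir, norm_uDir, mul_one, mul_one, Complex.norm_real,
      Complex.norm_real, Real.norm_eq_abs, Real.norm_eq_abs, abs_div, abs_div, abs_neg, ← add_div,
      div_lt_iff₀ (abs_pos.2 hs0), add_comm]
    exact h

/-- One plus the sum of the inverse sines of the angles between the lines. -/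
def geomK : ℝ := 1 + ∑ i, ∑ j, |Real.sin (M.β i - M.β j)|⁻¹

lemma one_le_geomK : 1 ≤ M.geomK :=
  le_add_of_nonneg_right (Finset.sum_nonneg fun _ _ => Finset.sum_nonneg fun _ _ =>
    inv_nonneg.2 (abs_nonneg _))

lemma one_le_geomK_mul_sin {i j : Fin 3} (hij : i ≠ j) :
    1 ≤ M.geomK * |Real.sin (M.β i - M.β j)| := by
  have hp : 0 < |Real.sin (M.β i - M.β j)| := abs_pos.2 (M.sin_ne i j hij)
  rw [← inv_le_iff_one_le_mul₀ hp, geomK]
  refine le_add_of_nonneg_of_le zero_le_one (le_trans ?_ (Finset.single_le_sum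
    (f := fun i => ∑ j, |Real.sin (M.β i - M.β j)|⁻¹)
    (fun _ _ => Finset.sum_nonneg fun _ _ => inv_nonneg.2 (abs_nonneg _)) (Finset.mem_univ i)))
  exact Finset.single_le_sum (f := fun j => |Real.sin (M.β i - M.β j)|⁻¹)
    (fun _ _ => inv_nonneg.2 (abs_nonneg _)) (Finset.mem_univ j)

/-- Away from the intersection points two lines cannot both be close. -/
lemma le_ell_add_ell {K r : ℝ} (hK : M.geomK ≤ K) (hr : 0 ≤ r) {z : ℂ}
    (hz : ¬ M.Near (K * r) z) {i j : Fin 3} (hij : i ≠ j) :
    r ≤ |M.ell i z| + |M.ell j z| := by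
  by_contra hc
  rw [not_le] at hc
  refine hz (M.near_of_ell_small hij (hc.trans_le ?_))
  calc r = r * 1 := (mul_one r).symm
    _ ≤ r * (M.geomK * |Real.sin (M.β i - M.β j)|) :=
        mul_le_mul_of_nonneg_left (M.one_le_geomK_mul_sin hij) hr
    _ ≤ r * (K * |Real.sin (M.β i - M.β j)|) := by gcongr
    _ = K * r * |Real.sin (M.β i - M.β j)| := by ring

/-- Near a point of side `j` away from the corners the other lines stay positive. -/
lemma ell_pos_of_dist_lt {K r : ℝ} (hK : M.geomK ≤ K) {z w : ℂ} {j : Fin 3}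
    (hz : z ∈ closure M.dom) (hj : M.ell j z = 0) (hn : ¬ M.Near (K * r) z)
    (hw : dist w z < r) {i : Fin 3} (hij : i ≠ j) :
    0 < M.ell i w ∧ 0 < M.ell i (M.refl j w) := by
  have hr : 0 ≤ r := dist_nonneg.trans hw.le
  have h := M.le_ell_add_ell hK hr hn hij
  rw [hj, abs_zero, add_zero, abs_of_nonneg (M.ell_nonneg_of_mem_closure hz i)] at h
  have h1 := abs_le.1 (M.abs_ell_sub_le i w z)
  have h2 := abs_le.1 (M.abs_ell_sub_le i (M.refl j w) z)
  rw [M.dist_refl_of_ell j hj] at h2
  constructor <;> linarith [h1.1, h2.1]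

lemma refl_mem_dom_imp {i : Fin 3} {w : ℂ} (h : M.refl i w ∈ M.dom) : M.ell i w < 0 := by
  have := h i
  rw [ell_refl] at this
  linarith

/-- Inside the domain the extension is the function itself. -/
lemma ext_of_mem (h : Phase → ℝ) (θ : Dir) {w : ℂ} (hw : w ∈ M.dom) :
    M.ext h (w, θ) = h (w, θ) := by
  have hz : ∀ i, (M.dom ×ˢ univ).indicator h (M.rp i (w, θ)) = 0 := fun i =>
    indicator_of_notMem (fun hm => (hw i).not_gt (M.refl_mem_dom_imp hm.1)) _
  simp only [ext, hz, Finset.sum_const_zero, add_zero]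
  exact indicator_of_mem (Set.mem_prod.2 ⟨hw, mem_univ _⟩) _

/-- Across a single line the extension is the even extension. -/
lemma ext_of_single (h : Phase → ℝ) (θ : Dir) {w : ℂ} {j : Fin 3}
    (hw : ∀ i, i ≠ j → 0 < M.ell i w ∧ 0 < M.ell i (M.refl j w)) :
    M.ext h (w, θ) = if 0 < M.ell j w then h (w, θ)
      else if M.ell j w < 0 then h (M.rp j (w, θ)) else 0 := by
  by_cases hp : 0 < M.ell j w
  · rw [if_pos hp]
    refine M.ext_of_mem h θ fun i => ?_
    rcases eq_or_ne i j with rfl | hi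
    · exact hp
    · exact (hw i hi).1
  · rw [if_neg hp]
    have h0 : (M.dom ×ˢ univ).indicator h (w, θ) = 0 :=
      indicator_of_notMem (fun hm => hp (hm.1 j)) _
    have hz : ∀ i, i ≠ j → (M.dom ×ˢ univ).indicator h (M.rp i (w, θ)) = 0 := fun i hi =>
      indicator_of_notMem (fun hm => (hw i hi).1.not_gt (M.refl_mem_dom_imp hm.1)) _
    simp only [ext, h0, zero_add]
    rw [Finset.sum_eq_single j (fun i _ hi => hz i hi) (by simp)]
    by_cases hn : M.ell j w < 0
    · rw [if_pos hn]
      refine indicator_of_mem (Set.mem_prod.2 ⟨fun i => ?_, mem_univ _⟩) _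
      rcases eq_or_ne i j with rfl | hi
      · change 0 < M.ell i (M.refl i w)
        rw [ell_refl]; linarith
      · exact (hw i hi).2
    · rw [if_neg hn]
      exact indicator_of_notMem (fun hm => hn (M.refl_mem_dom_imp hm.1)) _

/-- Near a single line the extension is invariant under the reflection of phase space. -/
lemma ext_rp_of_single (h : Phase → ℝ) (θ : Dir) {w : ℂ} {j : Fin 3}
    (hw : ∀ i, i ≠ j → 0 < M.ell i w ∧ 0 < M.ell i (M.refl j w)) :
    M.ext h (M.rp j (w, θ)) = M.ext h (w, θ) := by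
  have hw' : ∀ i, i ≠ j → 0 < M.ell i (M.refl j w) ∧ 0 < M.ell i (M.refl j (M.refl j w)) :=
    fun i hi => by rw [refl_refl]; exact (hw i hi).symm
  rw [show M.rp j (w, θ) = (M.refl j w, M.reflDir j θ) from rfl, M.ext_of_single h _ hw',
    M.ext_of_single h θ hw, show M.rp j (M.refl j w, M.reflDir j θ) = (w, θ) by
      simp [rp, refl_refl, reflDir_reflDir], ell_refl, rp]
  rcases lt_trichotomy (M.ell j w) 0 with hl | hl | hl
  · rw [if_pos (by linarith : 0 < -M.ell j w), if_neg hl.not_gt, if_pos hl]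
  · simp [hl]
  · rw [if_neg (by linarith : ¬ 0 < -M.ell j w), if_pos (by linarith : -M.ell j w < 0), if_pos hl]

/-- Near an intersection point the extension of a function vanishing there is zero. -/
lemma ext_eq_zero_of_near {R r : ℝ} (h : Phase → ℝ) (θ : Dir) {z w : ℂ}
    (hz : z ∈ closure M.dom) (hN : M.Near R z) (hw : dist w z < r)
    (hh : ∀ q : Phase, M.Near (R + 3 * r) q.1 → h q = 0) : M.ext h (w, θ) = 0 := by
  obtain ⟨i₀, j₀, hij, v, hi, hj, hd⟩ := hN
  have hr : 0 < r := dist_nonneg.trans_lt hw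
  have hv : ∀ x, dist x z < 3 * r → M.Near (R + 3 * r) x := fun x hx =>
    ⟨i₀, j₀, hij, v, hi, hj, (dist_triangle x z v).trans_lt (by linarith)⟩
  have h0 : (M.dom ×ˢ univ).indicator h (w, θ) = 0 := by
    by_cases hm : (w, θ) ∈ M.dom ×ˢ (univ : Set Dir)
    · rw [indicator_of_mem hm]; exact hh _ (hv w (by linarith))
    · exact indicator_of_notMem hm _
  have hz' : ∀ i, (M.dom ×ˢ univ).indicator h (M.rp i (w, θ)) = 0 := fun i => by
    by_cases hm : M.rp i (w, θ) ∈ M.dom ×ˢ (univ : Set Dir)
    · rw [indicator_of_mem hm]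
      refine hh _ (hv (M.refl i w) ?_)
      have h1 := abs_le.1 (M.abs_ell_sub_le i w z)
      have h2 := M.ell_nonneg_of_mem_closure hz i
      have h3 := M.refl_mem_dom_imp hm.1
      have h4 := M.dist_refl_self i w
      rw [abs_of_neg h3] at h4
      linarith [dist_triangle (M.refl i w) w z, h1.1]
    · exact indicator_of_notMem hm _
  simp only [ext, h0, hz', Finset.sum_const_zero, add_zero]

end Table

end Vale.Agent.P099
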