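import Vale.Agent.P099.Defs

/-!
# P099: normalised table, analytic primitives
-/

noncomputable section

namespace Vale.Agent.P099

open MeasureTheory Set Complex
open scoped ComplexConjugate

/-- A triangular table given by three lines `ℓ j = 0`, the domain lying on `ℓ j > 0`.
`β j` is the direction of line `j`. -/
structure Table where
  β : Fin 3 → ℝ
  b : Fin 3 → ℝ
  sin_ne : ∀ i j, i ≠ j → Real.sin (β i - β j) ≠ 0
  bounded : Bornology.IsBounded
    {z : ℂ | ∀ j, 0 < (conj (Complex.exp (β j * Complex.I)) * z).im + b j}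
  nonempty : {z : ℂ | ∀ j, 0 < (conj (Complex.exp (β j * Complex.I)) * z).im + b j}.Nonempty

namespace Table

variable (M : Table)

/-- Unit direction of line `j`. -/
def u (j : Fin 3) : ℂ := Complex.exp (M.β j * Complex.I)

/-- Signed distance to line `j`. -/
def ell (j : Fin 3) (z : ℂ) : ℝ := (conj (M.u j) * z).im + M.b j

/-- The open domain. -/
def dom : Set ℂ := {z | ∀ j, 0 < M.ell j z}

/-- Reflection in line `j`. -/
def refl (j : Fin 3) (z : ℂ) : ℂ := z - ((2 * M.ell j z : ℝ) : ℂ) * (Complex.I * M.u j)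

/-- Linear part of the reflection. -/
def rlin (j : Fin 3) (y : ℂ) : ℂ := M.u j * M.u j * conj y

/-- The reflection on directions. -/
def reflDir (j : Fin 3) (θ : Dir) : Dir := ((2 * M.β j : ℝ) : Dir) - θ

/-- The reflection on phase space. -/
def rp (j : Fin 3) (p : Phase) : Phase := (M.refl j p.1, M.reflDir j p.2)

/-- `z` is within `R` of an intersection point of two lines. -/
def Near (R : ℝ) (z : ℂ) : Prop :=
  ∃ i j, i ≠ j ∧ ∃ v, M.ell i v = 0 ∧ M.ell j v = 0 ∧ dist z v < R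

/-- The unnormalised invariant measure. -/
def m0 : Measure Phase := (volume.restrict M.dom).prod unifDir

end Table

/-- Free motion. -/
def shift (t : ℝ) (p : Phase) : Phase := (p.1 + (t : ℂ) * vec p.2, p.2)

namespace Table

variable (M : Table)

/-- Straight step inside the domain. -/
def Inner (t : ℝ) (p : Phase) : Prop := p.1 ∈ M.dom ∧ (shift t p).1 ∈ M.dom

/-- Step with a single reflection in line `j`. -/
def Cross (j : Fin 3) (t : ℝ) (p : Phase) : Prop :=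
  p.1 ∈ M.dom ∧ M.ell j (shift t p).1 < 0 ∧ (∀ i, i ≠ j → 0 < M.ell i (shift t p).1) ∧
    (M.rp j (shift t p)).1 ∈ M.dom

/-- Possible short steps. -/
def Step (t : ℝ) (p q : Phase) : Prop :=
  (M.Inner t p ∧ q = shift t p) ∨ ∃ j, M.Cross j t p ∧ q = M.rp j (shift t p)

end Table

/-- A realisation of the billiard flow, total on phase space. -/
structure FlowData (M : Table) where
  Φ : ℝ → Phase → Phase
  zero : ∀ p, Φ 0 p = p
  group : ∀ s t p, Φ (s + t) p = Φ s (Φ t p)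
  pres : ∀ t, MeasurePreserving (Φ t) M.m0 M.m0
  lip : ∀ p s t, dist (Φ s p).1 (Φ t p).1 ≤ |s - t|
  step : ∀ᵐ p ∂M.m0, ∀ t q, M.Step t p q → Φ t p = q

/-- The rotated pair `exp (i a) (x + i y)`. -/
def rot (a : ℝ) (x : Fin 2 → ℝ) : Fin 2 → ℝ :=
  ![Real.cos a * x 0 - Real.sin a * x 1, Real.sin a * x 0 + Real.cos a * x 1]

/-- A bounded measurable pair that is a local eigenfunction of frequency `lam`. -/
structure EigenPair (M : Table) (lam : ℝ) (F : Fin 2 → Phase → ℝ) : Prop where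
  meas : ∀ i, Measurable (F i)
  bdd : ∃ B, ∀ i p, |F i p| ≤ B
  step : ∀ t, ∀ᵐ p ∂M.m0, ∀ q, M.Step t p q →
    (fun i => F i q) = rot (lam * t) (fun i => F i p)

/-- A cutoff which is one near the vertices and slowly varying along the flow. -/
structure Cut (M : Table) (R L : ℝ) where
  W : Phase → ℝ
  A : Set Phase
  measW : Measurable W
  measA : MeasurableSet A
  range : ∀ p, W p ∈ Set.Icc (0 : ℝ) 1
  near : ∀ p : Phase, M.Near R p.1 → W p = 1
  off : ∀ p, p ∉ A → W p = 0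
  lip : ∀ t, |t| ≤ R → ∀ᵐ p ∂M.m0, ∀ q, M.Step t p q →
    |W q - W p| ≤ L * |t| ∧ (W q ≠ W p → p ∈ A)

/-- `∂ = (∂x - i ∂y)/2`. -/
def dz (f : ℂ → ℂ) (z : ℂ) : ℂ :=
  (fderiv ℝ f z 1 - Complex.I * fderiv ℝ f z Complex.I) / 2

/-- `∂̄ = (∂x + i ∂y)/2`. -/
def dzb (f : ℂ → ℂ) (z : ℂ) : ℂ :=
  (fderiv ℝ f z 1 + Complex.I * fderiv ℝ f z Complex.I) / 2

/-- Fourier mode in the direction variable. -/
def mode (h : Phase → ℂ) (k : ℤ) (z : ℂ) : ℂ := fourierCoeff (fun θ => h (z, θ)) k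

/-- Mode of a real function. -/
def modeR (h : Phase → ℝ) (k : ℤ) (z : ℂ) : ℂ := mode (fun p => (h p : ℂ)) k z

/-- Convolution in the position variable with a kernel. -/
def sm (ψ : ℂ → ℂ) (G : Phase → ℝ) (p : Phase) : ℂ := ∫ w, ψ (p.1 - w) * (G (w, p.2) : ℂ)

/-- Mode of the convolution. -/
def smode (ψ : ℂ → ℂ) (G : Phase → ℝ) (k : ℤ) (z : ℂ) : ℂ := ∫ w, ψ (z - w) * modeR G k w

namespace Table

variable (M : Table)

/-- Four term reflected extension. -/
def ext (h : Phase → ℝ) (p : Phase) : ℝ :=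
  (M.dom ×ˢ univ).indicator h p + ∑ j, (M.dom ×ˢ univ).indicator h (M.rp j p)

/-- Real inner product on the domain. -/
def ip (f g : ℂ → ℂ) : ℝ := ∫ z in M.dom, (conj (f z) * g z).re

/-- Squared norm on the domain. -/
def nq (f : ℂ → ℂ) : ℝ := ∫ z in M.dom, ‖f z‖ ^ 2

/-- The modes are square summable with total at most `B`. -/
def NLe (f : ℤ → ℂ → ℂ) (B : ℝ) : Prop :=
  Summable (fun k => M.nq (f k)) ∧ ∑' k, M.nq (f k) ≤ B

/-- Admissible mode families: smooth, zero near vertices, with the reflection phases. -/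
structure Adm (v : ℤ → ℂ → ℂ) : Prop where
  smooth : ∀ k, ContDiff ℝ 2 (v k)
  vanish : ∃ r > 0, ∀ k, ∀ z ∈ closure M.dom, M.Near r z → v k z = 0
  phase : ∀ k j, ∀ z ∈ closure M.dom, M.ell j z = 0 →
    (M.u j ^ k * v k z).im = 0 ∧ (M.u j ^ (k + 1) * dz (v k) z).im = 0 ∧
      (M.u j ^ (k - 1) * dzb (v k) z).im = 0
  sum0 : Summable (fun k => M.nq (v k))
  sum1 : Summable (fun k => M.nq (dz (v k)))

/-- `(X v)` minus the eigenvalue term, by modes. -/
def gen (lam : ℝ) (v : Fin 2 → ℤ → ℂ → ℂ) (i : Fin 2) (k : ℤ) (z : ℂ) : ℂ :=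
  dz (v i (k - 1)) z + dzb (v i (k + 1)) z + ((![lam, -lam] i : ℝ) : ℂ) * v (1 - i) k z

/-- Energy of mode `k`. -/
def en (v : Fin 2 → ℤ → ℂ → ℂ) (k : ℤ) : ℝ := M.nq (dz (v 0 k)) + M.nq (dz (v 1 k))

/-- Mass of mode `k`. -/
def mass (v : Fin 2 → ℤ → ℂ → ℂ) (k : ℤ) : ℝ := M.nq (v 0 k) + M.nq (v 1 k)

/-- The coupling term. -/
def cpl (v : Fin 2 → ℤ → ℂ → ℂ) (k : ℤ) : ℝ :=
  M.ip (dz (v 0 (k - 1))) (v 1 k) - M.ip (dz (v 1 (k - 1))) (v 0 k)

/-- The error summand. -/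
def errTerm (lam : ℝ) (v : Fin 2 → ℤ → ℂ → ℂ) (k : ℤ) : ℝ :=
  ∑ i : Fin 2, (|M.ip (dz (v i (k - 1))) (gen lam v i k)| + M.nq (gen lam v i k) +
    |M.ip (v (1 - i) k) (gen lam v i k)|)

end Table

end Vale.Agent.P099
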